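import Crest.Agent.N337.Geo.Shell
import Crest.Agent.N337.Asy.Basic
import Crest.Agent.N337.KV.Word

/-!
# Row 337, G1 (helper9): pointwise Green bounds in a multiscale good environment. Definitions.

Note h9-2.  Time is counted in steps; a sweep is `E` steps, a window is `w` sweeps, the period is
`B` windows.  `R` = visible red space-time points, `Z` = killed sites.
-/

set_option autoImplicit false

namespace Crest.Agent.N337.G1

open Finset Crest.MathPhysics.SpinModel Geo Free KV Equiv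

/-- nearest-neighbour coupling of the torus. -/
noncomputable abbrev Jn (L : ℕ) : Tor 3 L → Tor 3 L → ℝ := torJ (nnCoupling 3) L
/-- thickness of shells. -/
noncomputable def tS : ℕ := (shell (d := 3) (by norm_num) (Asy.coup_nn 3)).choose
/-- constant of the shell inequality. -/
noncomputable def kS : ℝ := (shell (d := 3) (by norm_num) (Asy.coup_nn 3)).choose_spec.choose
/-- truncation at the levels `lam, 2 lam`. -/
def tr (lam x : ℝ) : ℝ := min (max (x - lam) 0) lam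

/-- `g` is the Green function of the word `(ex, ey, p)` with killing `b` and source `u`. -/
structure Grn {Λ : Type} [DecidableEq Λ] {T : ℕ} [NeZero T] (ex ey : Fin T → Λ) (p : Fin T → ℝ)
    (b : Fin T × Λ → ℝ) (u : Fin T × Λ) (Y : ℝ) (g : Fin T × Λ → ℝ) : Prop where
  hp : ∀ s, 0 ≤ p s ∧ p s ≤ 1
  hb : ∀ v, 0 ≤ b v ∧ b v ≤ 1
  hY : 0 ≤ Y ∧ Y < 1
  kill : ∃ s0, ∀ x, b (s0, x) ≤ Y
  nn : ∀ v, 0 ≤ g v
  eq : ∀ s y, g (s + 1, y) = (if (s + 1, y) = u then 1 else 0) +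
    ((1 - p s) * (b (s, y) * g (s, y)) +
      p s * (b (s, swap (ex s) (ey s) y) * g (s, swap (ex s) (ey s) y)))

/-- a chain from `u` to `v` inside the level set `{m ≤ b g}`. -/
structure Chain {Λ : Type} [DecidableEq Λ] {T : ℕ} [NeZero T] (ex ey : Fin T → Λ)
    (p : Fin T → ℝ) (h : Fin T × Λ → ℝ) (u v : Fin T × Λ) (m : ℝ) (N : ℕ) (c : ℕ → Λ) : Prop where
  pos : 1 ≤ N
  c0 : c 0 = u.2
  cN : c N = v.2
  tN : tm T (u.1.val + N) = v.1
  lev : ∀ i < N, m ≤ h (tm T (u.1.val + i), c i)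
  step : ∀ i < N, c (i + 1) = c i ∨ (p (tm T (u.1.val + i)) ≠ 0 ∧
    c (i + 1) = swap (ex (tm T (u.1.val + i))) (ey (tm T (u.1.val + i))) (c i))

/-! ### static geometry -/

/-- levels `m < mt`: arity `a`, size `σ` of the covering balls, scale `η`. -/
structure Scales where
  mt : ℕ
  a : ℕ → ℕ
  σ : ℕ → ℕ
  η : ℕ → ℕ

/-- reach of the filled cubes and their shells. -/
noncomputable def Scales.ρ (P : Scales) (m : ℕ) : ℕ := 3 ^ P.a m * (2 * tS + P.σ m) + tS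
/-- weights. -/
noncomputable def Scales.K (P : Scales) (m : ℕ) : ℝ :=
  ∏ l ∈ range (m + 1), (1 + kS * (2 * (P.ρ l : ℝ) + 1) ^ 9)
/-- local volume of the filled set. -/
noncomputable def Scales.f (P : Scales) (m : ℕ) : ℕ := P.a m * (2 * (P.σ m + P.ρ m) + 1) ^ 3

structure Scales.Ok (P : Scales) (L : ℕ) : Prop where
  pos : 1 ≤ P.mt
  σ0 : P.σ 0 = 0
  ρη : ∀ m < P.mt, P.ρ m ≤ P.η m
  ηL : ∀ m < P.mt, 2 * P.η m < L
  sparse : ∀ m < P.mt, 2 ^ (m + 3) * P.K m * P.f m ≤ (P.η m : ℝ) ^ 3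
  grow : ∀ m, m + 1 < P.mt →
    (P.a (m + 1) + 1) * (2 * (P.σ (m + 1) + P.ρ (m + 1)) + 2 * P.η m + 1) ≤ P.η (m + 1)

section geo
variable {L : ℕ} [NeZero L]

/-- off the junk of level `m + 1`, the junk of level `m` is covered by `a m` balls. -/
def CovAt (P : Scales) (U : ℕ → Finset (Tor 3 L)) (m : ℕ) : Prop :=
  ∀ c ∉ U (m + 1), ∃ F : Finset (Tor 3 L), F.card ≤ P.a m ∧
    ∀ y ∈ U m, tdist c y ≤ 4 * P.η m → ∃ f ∈ F, tdist f y ≤ P.σ m

/-- `CovAt` only at the points of level exactly `m` (enough for the filling). -/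
def CovIn (P : Scales) (U : ℕ → Finset (Tor 3 L)) (m : ℕ) : Prop :=
  ∀ c ∈ U m, c ∉ U (m + 1) → ∃ F : Finset (Tor 3 L), F.card ≤ P.a m ∧
    ∀ y ∈ U m, tdist c y ≤ 4 * P.η m → ∃ f ∈ F, tdist f y ≤ P.σ m

/-- the region touched by the filling of level `m`. -/
noncomputable def Fm (P : Scales) (U : ℕ → Finset (Tor 3 L)) (m : ℕ) : Finset (Tor 3 L) := by
  classical exact univ.filter fun x => ∃ u ∈ U m, u ∉ U (m + 1) ∧ tdist u x ≤ P.ρ m

/-- average over a ball. -/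
noncomputable def av (φ : Tor 3 L → ℝ) (z : Tor 3 L) (r : ℕ) : ℝ :=
  (∑ y ∈ bl z r, φ y) / (2 * (r : ℝ) + 1) ^ 3

/-- no junk of the levels `≥ m1` near `x`. -/
def Clean (P : Scales) (U : ℕ → Finset (Tor 3 L)) (x : Tor 3 L) (m1 d : ℕ) : Prop :=
  ∀ m, m1 ≤ m → m < P.mt → ∀ y ∈ U m, d + 2 * P.η m < tdist x y

/-- the ball `B(x, d)` misses the walls `U mt` and the filled junk of the levels `≥ m1`. -/
def Near (P : Scales) (U : ℕ → Finset (Tor 3 L)) (x : Tor 3 L) (m1 d : ℕ) : Prop :=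
  ∀ y, tdist x y ≤ d → y ∉ U P.mt ∧ ∀ l, m1 ≤ l → l < P.mt → y ∉ Fm P U l

open Classical in
/-- the static capacity bound at `x` (filling, free rays, averaging up to a set of size `vol`). -/
def CapH (P : Scales) (U : ℕ → Finset (Tor 3 L)) (x : Tor 3 L) (d Ar nmax vol : ℕ) (C : ℝ) :
    Prop :=
  ∀ (U0 A : Finset (Tor 3 L)) (ψ : Tor 3 L → ℝ) (lam : ℝ),
    CovIn P (Function.update U 0 U0) 0 →
    (∀ z ∈ A, tdist x z ≤ d ∧ z ∉ U0 ∧ (U0 ∩ bl z Ar).card ≤ 5 ∧ Near P U z 1 Ar) →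
    (∀ z ∈ A, ∀ z' ∈ A, z ≠ z' →
      tdist x z + 2 * Ar < tdist x z' ∨ tdist x z' + 2 * Ar < tdist x z) →
    A.card ≤ nmax → (∀ y, 0 ≤ ψ y ∧ ψ y ≤ lam) → (∀ z ∈ A, ψ z = lam) →
    4 * (univ.filter fun y => ψ y ≠ 0).card ≤ vol →
    lam ^ 2 * A.card ≤ C * En (Jn L) U0 1 ψ

/-- a tube from `x` to a big ball: the balls `B(c i, r i)` contain the consecutive balls
`B(z i, s i)`, `B(z (i+1), s (i+1))` and miss the filled junk of the levels `≥ μ i`. -/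
structure Tube (P : Scales) (U : ℕ → Finset (Tor 3 L)) (x : Tor 3 L) (d N : ℕ)
    (z c : ℕ → Tor 3 L) (s r μ : ℕ → ℕ) (τ : ℝ) : Prop where
  pos : 1 ≤ N
  c0 : c 0 = x
  s0 : ∃ k, s 0 = 2 ^ k - 1
  d0 : d + s 0 ≤ r 0
  hL : ∀ i < N, 2 * r i < L
  sub : ∀ i < N, tdist (c i) (z i) + s i ≤ r i ∧ tdist (c i) (z (i + 1)) + s (i + 1) ≤ r i
  ratio : ∀ i < N, r i ≤ 32 * s i ∧ r i ≤ 32 * s (i + 1)
  miss : ∀ i < N, 1 ≤ μ i ∧ Near P U (c i) (μ i) (r i)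
  top : ∀ m < μ (N - 1), P.η m ≤ s N
  cost : ∑ i ∈ range N, √(P.K (μ i - 1) / (2 * (r i : ℝ) + 1)) ≤ τ

end geo

/-! ### words, environments, leaves -/

section dyn
variable {L n T : ℕ} [NeZero L] [NeZero T] (ex ey : Fin T → Tor 3 L × Fin n)

/-- free rate seen by the slot `z` at step `k`. -/
noncomputable def tch (p0 : Fin T → ℝ) (z : Tor 3 L × Fin n) (k : ℕ) : ℝ :=
  if z = ex (tm T k) ∨ z = ey (tm T k) then p0 (tm T k) else 0

/-- the clock of the word; `Bd` = exceptional sweeps (symmetriser, fugacity). -/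
structure Clock (p0 b0 : Fin T → ℝ) (E w B : ℕ) (q κ : ℝ) (Bd : Finset ℕ) : Prop where
  hT : T = B * w * E
  hq : 0 < q
  hκ : 1 ≤ κ
  wq : 1 ≤ κ * (w * q) ∧ w * q ≤ κ
  hp0 : ∀ s, 0 ≤ p0 s ∧ p0 s ≤ 1 / 2
  edge : ∀ i < B * w, i ∉ Bd → ∃ a : Tor 3 L × Tor 3 L × Fin n → ℕ,
    (∀ k, (univ.filter fun e : Tor 3 L × Tor 3 L × Fin n => Jn L e.1 e.2.1 ≠ 0 ∧ a e = k).card ≤ 2) ∧
    ∀ x y c, Jn L x y ≠ 0 → a (x, y, c) < E ∧
      ((ex (tm T (i * E + a (x, y, c))) = (x, c) ∧ ey (tm T (i * E + a (x, y, c))) = (y, c)) ∨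
        (ex (tm T (i * E + a (x, y, c))) = (y, c) ∧ ey (tm T (i * E + a (x, y, c))) = (x, c))) ∧
      p0 (tm T (i * E + a (x, y, c))) = q * Jn L x y
  rate : ∀ i < B * w, i ∉ Bd → ∀ z, ∑ a ∈ range E, tch ex ey p0 z (i * E + a) ≤ κ * q
  one : ∀ i < B * w, i ∉ Bd → ∀ a < E, b0 (tm T (i * E + a)) = 1

/-- rates and fugacity over double windows. -/
structure Pers (p0 b0 : Fin T → ℝ) (E w : ℕ) (κ : ℝ) : Prop where
  rate : ∀ i z, ∑ k ∈ Ico (i * (w * E)) ((i + 2) * (w * E)), tch ex ey p0 z k ≤ κ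
  hb0 : ∀ s, 0 ≤ b0 s ∧ b0 s ≤ 1
  fug : ∀ i, 1 / 4 ≤ ∏ k ∈ Ico (i * (w * E)) ((i + 2) * (w * E)), b0 (tm T k)

/-- the pinned word and the killing of an environment. -/
structure Env (p p0 : Fin T → ℝ) (b : Fin T × (Tor 3 L × Fin n) → ℝ) (b0 : Fin T → ℝ)
    (R : Finset (Fin T × (Tor 3 L × Fin n))) (Z : Finset (Tor 3 L)) : Prop where
  nn : ∀ s, p s ≠ 0 → tdist (ex s).1 (ey s).1 ≤ 1
  bR : ∀ v ∈ R, b v = 0
  bZ : ∀ v, v.2.1 ∈ Z → b v = 0
  bf : ∀ v ∉ R, v.2.1 ∉ Z → b v = b0 v.1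
  free : ∀ s, (s, ex s) ∉ R → (s, ey s) ∉ R → p s = p0 s ∨ ((ex s).1 ∈ Z ∧ (ey s).1 ∈ Z)

variable (p : Fin T → ℝ) (R : Finset (Fin T × (Tor 3 L × Fin n)))

/-- the environment is active at the slot `y` in step `s`. -/
def Ch (s : Fin T) (y : Tor 3 L × Fin n) : Prop :=
  ¬ ((s, y) ∈ R ↔ (s + 1, y) ∈ R) ∨
    ((y = ex s ∨ y = ey s) ∧ (s, y) ∈ R ∧ p s ≠ 0 ∧ (s, swap (ex s) (ey s) y) ∉ R)

open Classical in
/-- at most five red sites within `A` of `z` at step `k`. -/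
def Exp (A k : ℕ) (z : Tor 3 L) : Prop :=
  ((bl z A).filter fun y => ∃ c, (tm T k, (y, c)) ∈ R).card ≤ 5

/-- no cluster of six red sites near `x` in window `i` (`D` = steps per window). -/
def NoCl (D A r3 : ℕ) (x : Tor 3 L) (i : ℕ) : Prop :=
  ∀ k ∈ Ico (i * D) ((i + 1) * D), ∀ z, tdist x z ≤ r3 → Exp R A k z

open Classical in
/-- leaves J1, J2: counts, activity and shadow in the ball of radius `r`. -/
structure Leaf (D m0 j r : ℕ) (x : Tor 3 L) : Prop where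
  cnt : ∀ s, (univ.filter fun y => (s, y) ∈ R ∧ tdist x y.1 ≤ r).card ≤ m0
  chg : ∀ i, ((Ico (i * D) ((i + 1) * D)).filter fun k =>
    ∃ y, tdist x y.1 ≤ r ∧ Ch ex ey p R (tm T k) y).card ≤ j
  shd : ∀ i, (univ.filter fun y : Tor 3 L × Fin n => tdist x y.1 ≤ r ∧
    ∃ k ∈ Ico (i * D) ((i + 2) * D), (tm T k, y) ∈ R).card ≤ j

/-- leaf J3: among `l` consecutive windows one has no cluster. -/
def Leaf3 (D l A r3 : ℕ) (x : Tor 3 L) : Prop := ∀ i, ∃ i' ∈ Ico i (i + l), NoCl R D A r3 x i'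

/-- everything static: scales, junk sets `U m` (`1 ≤ m`), leaves off `U 1`. -/
structure Geom (P : Scales) (U : ℕ → Finset (Tor 3 L)) (D j A : ℕ) : Prop where
  ok : P.Ok L
  cov : ∀ m, 1 ≤ m → m < P.mt → CovIn P U m
  leaf : ∀ c ∉ U 1, ∀ x, tdist c x ≤ 4 * P.η 0 → Leaf ex ey p R D (P.a 0) j (4 * P.η 0) x
  hA : 11 * P.ρ 0 + 6 ≤ A ∧ A ≤ P.η 0

end dyn

/-- the constant of G1. -/
noncomputable def Cg (κ : ℝ) : ℝ := 10 ^ 10 * κ ^ 3 * Real.exp (2 * κ)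

/-- number of steps from the slice of `u` to the slice of `v`. -/
def lag {T : ℕ} [NeZero T] (s t : Fin T) : ℕ := if t = s then T else (t - s).val

end Crest.Agent.N337.G1
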