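import Crest.Agent.N337.G1.Main

/-!
# Row 337, G1 (helper9): `G1s`, short lags (no cluster leaf `Leaf3`, no scale `η 0` in the bound)

Only the first (last) lap of the chain is used.  If it leaves `B(x, d)`, it crosses the annuli in
disjoint time intervals, at most `τ` of which contain a window boundary.
-/

set_option autoImplicit false

namespace Crest.Agent.N337.G1

open Finset Crest.MathPhysics.SpinModel Geo Free KV

/-- ordered hitting times. -/
theorem hits {f : ℕ → ℕ} {i0 s : ℕ} (h0 : f i0 = 0) (M : ℕ) : ∀ i1, i0 ≤ i1 →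
    (∀ k, i0 ≤ k → k < i1 → f (k + 1) ≤ f k + 1 ∧ f k ≤ f (k + 1) + 1) → M * s ≤ f i1 →
    ∃ t : ℕ → ℕ, (∀ k ≤ M, i0 ≤ t k ∧ t k ≤ i1 ∧ f (t k) = k * s) ∧
      ∀ k k', k ≤ k' → k' ≤ M → t k ≤ t k' := by
  induction M with
  | zero => exact fun i1 h _ _ => ⟨fun _ => i0, fun k hk => ⟨le_rfl, h, by simp_all⟩,
      fun _ _ _ _ => le_rfl⟩
  | succ M ih =>
    intro i1 h hs h1
    obtain ⟨a, a1, a2, a3⟩ := ivt (t := (M + 1) * s) h hs (Or.inl ⟨by omega, h1⟩)
    obtain ⟨t, t1, t2⟩ := ih a a1 (fun k k1 k2 => hs k k1 (by omega))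
      (a3 ▸ Nat.mul_le_mul_right _ M.le_succ)
    refine ⟨fun k => if k ≤ M then t k else a, fun k hk => ?_, fun k k' h1 h2 => ?_⟩ <;> dsimp only
    · split_ifs with e
      · exact ⟨(t1 k e).1, (t1 k e).2.1.trans a2, (t1 k e).2.2⟩
      · exact ⟨a1, a2, by rw [a3, show k = M + 1 by omega]⟩
    · split_ifs with e e' e'
      exacts [t2 k k' h1 e', (t1 k e).2.1, absurd (h1.trans e') e, le_rfl]

variable {L : ℕ} [NeZero L] {n T : ℕ} [NeZero T] {ex ey : Fin T → Tor 3 L × Fin n}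
  {p p0 b0 : Fin T → ℝ} {b g : Fin T × (Tor 3 L × Fin n) → ℝ} {u v : Fin T × (Tor 3 L × Fin n)}
  {Y q κ μ C C' m : ℝ} {R : Finset (Fin T × (Tor 3 L × Fin n))} {Z : Finset (Tor 3 L)} {E w B : ℕ}
  {Bd : Finset ℕ} {P : Scales} {U : ℕ → Finset (Tor 3 L)} {j A d vol nmax N : ℕ}
  {x : Tor 3 L} {c : ℕ → Tor 3 L × Fin n}

theorem Chain.lap {h : Fin T × (Tor 3 L × Fin n) → ℝ} (H : Chain ex ey p h u v m N c) :
    ∃ k, N = T * k + lag u.1 v.1 := by
  have h1 : v.1 - u.1 = tm T N := by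
    rw [← H.tN, sub_eq_iff_eq_add', ← tm_fin u.1]
    exact Fin.ext (by simp [tm_val, Fin.val_add])
  have h3 := H.lag_le
  unfold lag at h3 ⊢
  split_ifs at h3 ⊢ with h2
  · rw [h2, sub_self] at h1
    obtain ⟨k, hk⟩ := Nat.dvd_sub (Nat.dvd_of_mod_eq_zero (congrArg Fin.val h1).symm) (dvd_refl T)
    exact ⟨k, by omega⟩
  · exact ⟨N / T, by rw [h1]; exact (Nat.div_add_mod N T).symm⟩

/-- a path which moves far inside one window passes far from the shadow. -/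
theorem shadow {D m0 r a a' : ℕ} (hL : Leaf ex ey p R D m0 j r (c a).1)
    (hr : j * (2 * A + 1) + A ≤ r) (h : a ≤ a') (hs : ∀ k < a', tdist (c k).1 (c (k + 1)).1 ≤ 1)
    (hd : j * (2 * A + 1) < tdist (c a).1 (c a').1) (i : ℕ) :
    ∃ k, a ≤ k ∧ k < a' ∧ tdist (c a).1 (c k).1 ≤ j * (2 * A + 1) ∧
      ∀ k' ∈ Ico (i * D) ((i + 2) * D), ∀ y, (tm T k', y) ∈ R → A < tdist (c k).1 y.1 := by
  classical
  by_contra! hc
  refine Cr.pig (M := 2 * A + 1) (hL.shd i) (fun y r => ∃ q,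
    tdist (c a).1 (c q).1 = r ∧ tdist (c q).1 y.1 ≤ A) (fun ι hι => ?_) ?_
  · have e := Nat.mul_le_mul_right (2 * A + 1) hι
    obtain ⟨q, q1, q2, q3⟩ := Cr.rad (c := fun q => (c q).1) h (fun q _ h => hs q h) (e.trans hd.le)
    obtain ⟨k', hk', y, hy, hd⟩ := hc q q1 (q2.lt_of_ne fun e => by subst e; omega) (by omega)
    have d1 := tdist_triangle (c a).1 (c q).1 y.1
    refine ⟨y, ?_, q, q3, hd⟩
    simp only [mem_filter]
    exact ⟨mem_univ _, by omega, k', hk', hy⟩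
  · rintro y r r' ⟨q, rfl, q1⟩ ⟨q', rfl, q2⟩
    have d1 := tdist_triangle (c a).1 (c q).1 (c q').1
    have d2 := tdist_triangle (c q).1 y.1 (c q').1
    rw [tdist_comm y.1] at d2
    omega

theorem lst {S : Finset ℕ} {M : ℕ} (h : M ≤ S.card) : ∃ f : ℕ → ℕ, (∀ ι < M, f ι ∈ S) ∧
    ∀ ι < M, ∀ ι' < M, f ι = f ι' → ι = ι' := by
  refine ⟨fun ι => S.toList.getD ι 0, fun ι k => ?_, fun ι k ι' k' e => ?_⟩
  · dsimp only
    rw [List.getD_eq_getElem _ _ (by rw [length_toList]; omega)]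
    exact mem_toList.1 (List.getElem_mem _)
  · dsimp only at e
    rw [List.getD_eq_getElem _ _ (by rw [length_toList]; omega),
      List.getD_eq_getElem _ _ (by rw [length_toList]; omega)] at e
    exact (List.Nodup.getElem_inj_iff (nodup_toList S)).1 e

/-- a fast crossing of the annuli. -/
theorem fast (G : Grn ex ey p b u Y g) (D : Data ex ey p p0 b b0 R Z E w B q κ Bd P U j A)
    (hP : Pers ex ey p0 b0 E w κ) (hN : Near P U x 1 (d + A)) (C0 : 0 ≤ C)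
    (hcap : CapH P U x d A nmax vol C) {M τ : ℕ} (hM : 1 ≤ M) (hn : M ≤ nmax) (hμ : 0 ≤ μ)
    (top : Top (fun v => b v * g v) vol μ) (hj : j * (2 * A + 1) + A ≤ 4 * P.η 0)
    (hd : 2 * (M + τ) * ((j + 1) * (2 * A + 1)) ≤ d) (hm : 0 < m)
    (H : Chain ex ey p (fun v => b v * g v) u v m N c) {i0 i1 : ℕ} (h0 : i0 ≤ i1) (h1 : i1 ≤ N)
    (h2 : i1 ≤ i0 + τ * (w * E)) (h : (x = (c i0).1 ∧ d ≤ tdist x (c i1).1) ∨
      (x = (c i1).1 ∧ d ≤ tdist x (c i0).1)) :
    m ≤ Cg κ * (μ + C / M + err q Y L n B) := by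
  classical
  have hA := D.geom.hA
  have D0 := D.pos
  have nn : ∀ i < N, tdist (c i).1 (c (i + 1)).1 ≤ 1 := fun i hi => D.env.step_le (H.step i hi)
  have st : ∀ k < N, tdist x (c (k + 1)).1 ≤ tdist x (c k).1 + 1 ∧
      tdist x (c k).1 ≤ tdist x (c (k + 1)).1 + 1 := fun k hk => by
    have := nn k hk
    have := tdist_triangle x (c k).1 (c (k + 1)).1
    have := tdist_triangle x (c (k + 1)).1 (c k).1
    rw [tdist_comm (c (k + 1)).1] at this
    omega
  have es : (j + 1) * (2 * A + 1) = j * (2 * A + 1) + (2 * A + 1) := Nat.succ_mul _ _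
  generalize (j + 1) * (2 * A + 1) = s at hd es
  obtain ⟨t, t1, t2⟩ : ∃ t : ℕ → ℕ, (∀ k ≤ 2 * (M + τ), i0 ≤ t k ∧ t k ≤ i1) ∧
      (∀ k k', k ≤ k' → k' ≤ 2 * (M + τ) → t k ≤ t k') ∧ ((∀ k ≤ 2 * (M + τ), 1 ≤ k →
        tdist x (c (t k)).1 = k * s) ∨ ∀ k ≤ 2 * (M + τ), 1 ≤ k → tdist x (c (t k)).1 + k * s = d) := by
    rcases h with h | h
    · obtain ⟨t, t1, t2⟩ := hits (f := fun k => tdist x (c k).1) (by rw [← h.1, tdist_self]) _ i1 h0
        (fun k _ k2 => st k (by omega)) (hd.trans h.2)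
      exact ⟨t, fun k hk => ⟨(t1 k hk).1, (t1 k hk).2.1⟩, t2, .inl fun k hk _ => (t1 k hk).2.2⟩
    · obtain ⟨t, t1, t2⟩ := hits (f := fun k => d - tdist x (c k).1) (Nat.sub_eq_zero_of_le h.2) _ i1
        h0 (fun k _ k2 => by have := st k (by omega); omega) (by rw [← h.1, tdist_self]; exact hd)
      refine ⟨t, fun k hk => ⟨(t1 k hk).1, (t1 k hk).2.1⟩, t2, .inr fun k hk k1 => ?_⟩
      have := (t1 k hk).2.2
      have := Nat.mul_le_mul_right s k1
      omega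
  obtain ⟨t2, t3⟩ := t2
  have mo : ∀ a k, a ≤ k → (u.1.val + a) / (w * E) ≤ (u.1.val + k) / (w * E) := fun a k h =>
    Nat.div_le_div_right (by omega)
  have bad : ((range (M + τ)).filter fun ι => ¬(u.1.val + t (2 * ι + 1)) / (w * E) =
      (u.1.val + t (2 * ι + 2)) / (w * E)).card ≤ τ := by
    have key : ∀ ι < M + τ, ∀ ι' < M + τ, ¬(u.1.val + t (2 * ι + 1)) / (w * E) =
        (u.1.val + t (2 * ι + 2)) / (w * E) → ι < ι' → (u.1.val + t (2 * ι + 1)) / (w * E) ≠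
        (u.1.val + t (2 * ι' + 1)) / (w * E) := fun ι k ι' k' e l e' => by
      have := mo _ _ (t2 (2 * ι + 1) (2 * ι + 2) (by omega) (by omega))
      have := mo _ _ (t2 (2 * ι + 2) (2 * ι' + 1) (by omega) (by omega))
      omega
    refine le_trans (card_le_card_of_injOn (t := Ico ((u.1.val + i0) / (w * E))
      ((u.1.val + i0) / (w * E) + τ)) (fun ι => (u.1.val + t (2 * ι + 1)) / (w * E)) (fun ι hι => ?_)
      fun ι hι ι' hι' e => ?_) (by simp)
    · obtain ⟨k1, k2⟩ := mem_filter.1 (mem_coe.1 hι)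
      rw [mem_range] at k1
      have := mo _ _ (t1 (2 * ι + 1) (by omega)).1
      have := mo _ _ (t2 (2 * ι + 1) (2 * ι + 2) (by omega) (by omega))
      have := mo _ _ ((t1 (2 * ι + 2) (by omega)).2.trans h2)
      rw [← add_assoc, Nat.add_mul_div_right _ _ D0] at this
      exact mem_coe.2 (mem_Ico.2 (by dsimp only; omega))
    · obtain ⟨k1, k2⟩ := mem_filter.1 (mem_coe.1 hι)
      obtain ⟨k3, k4⟩ := mem_filter.1 (mem_coe.1 hι')
      rw [mem_range] at k1 k3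
      rcases lt_trichotomy ι ι' with l | l | l
      exacts [absurd e (key ι k1 ι' k3 k2 l), l, absurd e.symm (key ι' k3 ι k1 k4 l)]
  have cd := card_filter_add_card_filter_not (s := range (M + τ)) fun ι =>
    (u.1.val + t (2 * ι + 1)) / (w * E) = (u.1.val + t (2 * ι + 2)) / (w * E)
  rw [card_range] at cd
  obtain ⟨f, f1, f2⟩ := lst (S := (range (M + τ)).filter fun ι => (u.1.val + t (2 * ι + 1)) / (w * E) =
    (u.1.val + t (2 * ι + 2)) / (w * E)) (M := M) (by omega)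
  have key : ∀ ι < M, ∃ (W : ℕ) (z : Tor 3 L × Fin n),
      tdist (c (t (2 * f ι + 1))).1 z.1 ≤ j * (2 * A + 1) ∧
      ∀ s ∈ Ico (W * w) ((W + 1) * w), 2 * (m * Real.exp (-(2 * κ)) / 8) ≤
        b (tm T (s * E), z) * g (tm T (s * E), z) ∧ tdist x z.1 ≤ d ∧
        Exp R A (s * E) z.1 ∧ Near P U z.1 1 A := fun ι hι => by
    obtain ⟨k1, k2⟩ := mem_filter.1 (f1 ι hι)
    rw [mem_range] at k1
    generalize f ι = ι at k1 k2
    have a1 := t2 (2 * ι + 1) (2 * ι + 2) (by omega) (by omega)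
    have a2 := (t1 (2 * ι + 2) (by omega)).2
    have a3 : tdist x (c (t (2 * ι + 1))).1 + s ≤ d ∧
        s ≤ tdist (c (t (2 * ι + 1))).1 (c (t (2 * ι + 2))).1 := by
      have := tdist_triangle x (c (t (2 * ι + 1))).1 (c (t (2 * ι + 2))).1
      have := tdist_triangle x (c (t (2 * ι + 2))).1 (c (t (2 * ι + 1))).1
      rw [tdist_comm (c (t (2 * ι + 2))).1] at this
      have := Nat.mul_le_mul_right s (show 2 * ι + 2 ≤ 2 * (M + τ) by omega)
      have : (2 * ι + 2) * s = (2 * ι + 1) * s + s := Nat.succ_mul _ _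
      have := Nat.mul_le_mul_right s (show 1 ≤ 2 * ι + 1 by omega)
      rcases t3 with t3 | t3 <;> have := t3 (2 * ι + 1) (by omega) (by omega) <;>
        have := t3 (2 * ι + 2) (by omega) (by omega) <;> omega
    have b6 := hN.not_mem D.geom.ok.pos (z := (c (t (2 * ι + 1))).1) (by omega)
    obtain ⟨k, b1, b2, b3, b4⟩ := shadow (D.geom.leaf _ b6 _ (by simp [tdist_self])) hj a1
      (fun k hk => nn k (by omega)) (by omega) ((u.1.val + t (2 * ι + 1)) / (w * E))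
    have b5 : (u.1.val + t (2 * ι + 1)) / (w * E) = (u.1.val + k) / (w * E) :=
      le_antisymm (mo _ _ b1) (k2 ▸ mo _ _ b2.le)
    rw [b5] at b4
    have b7 := tdist_triangle x (c (t (2 * ι + 1))).1 (c k).1
    refine ⟨(u.1.val + k) / (w * E) + 1, c k, b3, fun s hs => ?_⟩
    obtain ⟨s1, s2⟩ := Cr.win D0 hs
    have s3 := ((Nat.div_lt_iff_lt_mul D0).1 (Nat.lt_succ_self _)).le.trans s1
    have s0 := Nat.div_mul_le_self (u.1.val + k) (w * E)
    have := Cr.stat G D.env hP D.clock.hp0 hm s0 s3 s2 (H.lev k (by omega))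
      fun a ha y hy => lt_of_le_of_lt (by omega) (b4 a ha y hy)
    exact ⟨by linarith, by omega, exp_of_far fun y hy => b4 _ (mem_Ico.2 ⟨s0.trans s3, s2⟩) y hy,
      hN.sub (by omega)⟩
  haveI : Nonempty (Tor 3 L × Fin n) := ⟨u.2⟩
  choose! W z z1 hz using key
  have h3 := expo G D.env D.clock D.geom D.fine C0 hcap hμ top W (fun ι _ => z ι) hM hz
    (fun ι hι ι' hι' ne _ _ _ _ _ => by
      have e1 := z1 ι hι
      have e2 := z1 ι' hι'
      have k := mem_range.1 (mem_filter.1 (f1 ι hι)).1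
      have k' := mem_range.1 (mem_filter.1 (f1 ι' hι')).1
      have ne' := mt (f2 ι hι ι' hι') ne
      generalize f ι = a at *
      generalize f ι' = a' at *
      have := tdist_triangle x (c (t (2 * a + 1))).1 (z ι).1
      have := tdist_triangle x (z ι).1 (c (t (2 * a + 1))).1
      have := tdist_triangle x (c (t (2 * a' + 1))).1 (z ι').1
      have := tdist_triangle x (z ι').1 (c (t (2 * a' + 1))).1
      have := tdist_comm (z ι).1 (c (t (2 * a + 1))).1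
      have := tdist_comm (z ι').1 (c (t (2 * a' + 1))).1
      have : (2 * a + 1) * s + 2 * s ≤ (2 * a' + 1) * s ∨ (2 * a' + 1) * s + 2 * s ≤ (2 * a + 1) * s :=
        (lt_or_gt_of_ne ne').imp (fun k => by nlinarith) fun k => by nlinarith
      rcases t3 with t3 | t3 <;> have := t3 (2 * a + 1) (by omega) (by omega) <;>
        have := t3 (2 * a' + 1) (by omega) (by omega) <;> omega)
    fun i => (card_filter_le _ _).trans ((card_range _).trans_le hn)
  have hκ := D.clock.hκ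
  refine Cg_le hκ hμ (by positivity) err_nonneg (h3.trans ?_)
  unfold err
  gcongr ?_ + ?_
  · rw [mul_div_assoc]; gcongr; norm_num
  · exact le_rfl

/-- **G1s**: short lag `≤ τ` windows, cluster free windows `S`, one good end. -/
theorem G1s (G : Grn ex ey p b u Y g) (D : Data ex ey p p0 b b0 R Z E w B q κ Bd P U j A)
    (hP : Pers ex ey p0 b0 E w κ) (hN : Near P U x 1 (d + A)) (C0 : 0 ≤ C)
    (hcap : CapH P U x d A nmax vol C) (C1 : 0 ≤ C') (hcap' : CapH P U x d A 1 vol C')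
    {M τ : ℕ} (hM : 1 ≤ M) (hn : M ≤ nmax) (hμ : 0 ≤ μ) (top : Top (fun v => b v * g v) vol μ)
    (hx : x = u.2.1 ∨ x = v.2.1) (hj : j * (2 * A + 1) + A ≤ 4 * P.η 0)
    (hd : 2 * (M + τ) * ((j + 1) * (2 * A + 1)) ≤ d) (hτ : lag u.1 v.1 ≤ τ * (w * E))
    (S : Finset ℕ) (hS : S.Nonempty) (hS' : ∀ i ∈ S, NoCl R (w * E) A d x i ∧
      u.1.val ≤ i * (w * E) ∧ (i + 1) * (w * E) ≤ u.1.val + lag u.1 v.1) :
    (g v - if v = u then 1 else 0) ≤ Cg κ * (μ + (C' / S.card + C / M) + err q Y L n B) := by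
  have hκ := D.clock.hκ
  have := Cg_nonneg hκ
  have := err_nonneg (q := q) (Y := Y) (L := L) (n := n) (B := B)
  refine (le_or_gt _ 0).elim (fun h => h.trans (by positivity)) fun hm => ?_
  obtain ⟨N, c, H⟩ := G.chain hm le_rfl
  generalize (g v - if v = u then 1 else 0) = m at hm H
  obtain ⟨k, hk, kx⟩ : ∃ k, T * k + lag u.1 v.1 ≤ N ∧
      (x = (c (T * k)).1 ∨ x = (c (T * k + lag u.1 v.1)).1) := by
    rcases hx with hx | hx
    · exact ⟨0, by simpa using H.lag_le, .inl (by rw [mul_zero, H.c0, hx])⟩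
    · obtain ⟨k, hk⟩ := H.lap
      exact ⟨k, hk.ge, .inr (by rw [← hk, H.cN, hx])⟩
  by_cases h : ∃ i, T * k ≤ i ∧ i ≤ T * k + lag u.1 v.1 ∧ d ≤ tdist x (c i).1
  · obtain ⟨i, i1, i2, i3⟩ := h
    refine le_trans (kx.elim (fun e => fast G D hP hN C0 hcap hM hn hμ top hj hd hm H i1 (by omega)
      (by omega) (.inl ⟨e, i3⟩)) fun e => fast G D hP hN C0 hcap hM hn hμ top hj hd hm H i2 hk
        (by omega) (.inr ⟨e, i3⟩)) ?_
    gcongr
    exact le_add_of_nonneg_left (by positivity)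
  push Not at h
  have D0 := D.pos
  obtain ⟨f, f1, f2⟩ := lst (S := S) le_rfl
  refine (windows G D C1 hcap' hμ top hS.card_pos f (fun _ s => c (T * k + (s * E - u.1.val)))
    (fun ι h ι' h' => ?_) f2 fun ι hι s hs => ?_).trans ?_
  · have a1 := (hS' _ (f1 ι h)).2.2
    have a2 := (hS' _ (f1 ι' h')).2.1
    have a3 := (lag_le u.1 v.1).trans_eq (D.clock.hT.trans (mul_assoc _ _ _))
    refine Nat.le_of_mul_le_mul_right ?_ D0
    rw [add_mul (f ι')]
    exact a1.trans (add_le_add a2 a3)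
  · obtain ⟨a1, a2, a3⟩ := hS' _ (f1 ι hι)
    obtain ⟨s1, s2⟩ := Cr.win D0 hs
    have a5 := (h (T * k + (s * E - u.1.val)) (by omega) (by omega)).le
    have a6 := H.lev (T * k + (s * E - u.1.val)) (by omega)
    rw [show tm T (u.1.val + (T * k + (s * E - u.1.val))) = tm T (s * E) from Fin.ext (by
      rw [tm_val, tm_val, show u.1.val + (T * k + (s * E - u.1.val)) = s * E + T * k by omega,
        Nat.add_mul_mod_self_left])] at a6
    have : Real.exp (-(2 * κ)) ≤ 1 := Real.exp_le_one_iff.2 (by linarith)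
    exact ⟨le_trans (by nlinarith) a6, a5, a1 _ (mem_Ico.2 ⟨s1, s2⟩) _ a5,
      hN.sub (Nat.add_le_add_right a5 _)⟩
  · gcongr
    exact le_add_of_nonneg_right (by positivity)

theorem G1s_clean (G : Grn ex ey p b u Y g) (D : Data ex ey p p0 b b0 R Z E w B q κ Bd P U j A)
    (hP : Pers ex ey p0 b0 E w κ) (hU : U P.mt = ∅) (hcl : Clean P U x 1 (d + A)) {K : ℕ}
    (hK : 2 * (2 ^ K - 1) < L) (hKη : P.η 0 ≤ 2 ^ K - 1) {M τ : ℕ} (hM : 1 ≤ M) (hμ : 0 ≤ μ)
    (top : Top (fun v => b v * g v) ((2 * (2 ^ K - 1) + 1) ^ 3) μ)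
    (hx : x = u.2.1 ∨ x = v.2.1) (hj : j * (2 * A + 1) + A ≤ 4 * P.η 0)
    (hd : 2 * (M + τ) * ((j + 1) * (2 * A + 1)) ≤ d) (hτ : lag u.1 v.1 ≤ τ * (w * E))
    (S : Finset ℕ) (hS : S.Nonempty) (hS' : ∀ i ∈ S, NoCl R (w * E) A d x i ∧
      u.1.val ≤ i * (w * E) ∧ (i + 1) * (w * E) ≤ u.1.val + lag u.1 v.1) :
    (g v - if v = u then 1 else 0) ≤
      Cg κ * (μ + (Cc P A 1 1 / S.card + Cc P A 1 M / M) + err q Y L n B) :=
  have h : ∀ m < 1, P.η m ≤ 2 ^ K - 1 := fun _ hm => Nat.lt_one_iff.1 hm ▸ hKη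
  G1s G D hP (hcl.near D.geom.ok (by simp [hU])) Cc_nonneg (D.geom.capH hU le_rfl hcl hK h)
    Cc_nonneg (D.geom.capH hU le_rfl hcl hK h) hM le_rfl hμ top hx hj hd hτ S hS hS'

end Crest.Agent.N337.G1
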