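import Crest.Agent.N337.G1.Cap

/-!
# Row 337, G1 (helper9): the pointwise Green bounds `G1d` (space), `G1t` (lag), `G1u`, `G1w`
(windows), all from the static capacity bound `CapH` (`capH_clean`, `capH_tube`)
-/

set_option autoImplicit false

namespace Crest.Agent.N337.G1

open Finset Crest.MathPhysics.SpinModel Geo Free KV

variable {L : ℕ} [NeZero L] {n T : ℕ} [NeZero T]

open Classical in
/-- above the level `μ` the level sets have at most `vol / 4` points. -/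
def Top (h : Fin T × (Tor 3 L × Fin n) → ℝ) (vol : ℕ) (μ : ℝ) : Prop :=
  ∀ lam, μ < lam → ∀ s (c : Fin n), 4 * (univ.filter fun y => lam < h (s, (y, c))).card ≤ vol

/-- all standing hypotheses on the word, the environment and the junk sets. -/
structure Data (ex ey : Fin T → Tor 3 L × Fin n) (p p0 : Fin T → ℝ)
    (b : Fin T × (Tor 3 L × Fin n) → ℝ) (b0 : Fin T → ℝ) (R : Finset (Fin T × (Tor 3 L × Fin n)))
    (Z : Finset (Tor 3 L)) (E w B : ℕ) (q κ : ℝ) (Bd : Finset ℕ) (P : Scales)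
    (U : ℕ → Finset (Tor 3 L)) (j A : ℕ) : Prop where
  env : Env ex ey p p0 b b0 R Z
  clock : Clock ex ey p0 b0 E w B q κ Bd
  geom : Geom ex ey p R P U (w * E) j A
  fine : 2 * (Bd.card + L ^ 3 * j + 1) ≤ w

/-- persistence and the cluster leaf J3. -/
structure Data3 (ex ey : Fin T → Tor 3 L × Fin n) (p0 b0 : Fin T → ℝ)
    (R : Finset (Fin T × (Tor 3 L × Fin n))) (E w : ℕ) (κ : ℝ) (P : Scales)
    (U : ℕ → Finset (Tor 3 L)) (j A l r3 : ℕ) : Prop where
  pers : Pers ex ey p0 b0 E w κ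
  leaf3 : ∀ c ∉ U 1, Leaf3 R (w * E) l A r3 c
  h1 : (l + 1) * (j * (2 * A + 1)) + A < P.η 0
  h2 : (l + 1) * (j * (2 * A + 1)) + A ≤ r3

/-- the Trotter error. -/
noncomputable def err (q Y : ℝ) (L n B : ℕ) : ℝ := q ^ 2 * (1 / (1 - Y)) ^ 2 * L ^ 3 * n * B

variable {ex ey : Fin T → Tor 3 L × Fin n}
  {p p0 b0 : Fin T → ℝ} {b g : Fin T × (Tor 3 L × Fin n) → ℝ} {u v : Fin T × (Tor 3 L × Fin n)}
  {Y q κ μ C C' m : ℝ} {R : Finset (Fin T × (Tor 3 L × Fin n))} {Z : Finset (Tor 3 L)} {E w B : ℕ}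
  {Bd : Finset ℕ} {P : Scales} {U : ℕ → Finset (Tor 3 L)} {j A l r3 d d' vol nmax m1 N : ℕ}
  {x : Tor 3 L} {c : ℕ → Tor 3 L × Fin n}

/-- top level by the total mass (zero mode). -/
theorem top_mass (G : Grn ex ey p b u Y g) (hv : 1 ≤ vol) :
    Top (fun v => b v * g v) vol (4 / (1 - Y) / vol) := by
  classical
  intro lam hl s c
  have v0 : (0 : ℝ) < vol := by exact_mod_cast hv
  have y0 : 0 < 1 - Y := sub_pos.2 G.hY.2
  have l0 : 0 < lam := lt_trans (by positivity) hl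
  have h1 := (card_nsmul_le_sum (univ.filter fun y => lam < b (s, (y, c)) * g (s, (y, c)))
    (fun y => g (s, (y, c))) lam fun y hy => (mem_filter.1 hy).2.le.trans (G.bg _).2).trans
    ((sum_le_univ_sum_of_nonneg fun y => G.nn _).trans ((sum_le_sum fun y _ => single_le_sum
      (f := fun c => g (s, (y, c))) (fun _ _ => G.nn _) (mem_univ c)).trans
      ((Fintype.sum_prod_type fun y => g (s, y)).ge.trans (G.mass s))))
  rw [nsmul_eq_mul] at h1
  rw [div_lt_iff₀ v0, ← mul_one_div] at hl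
  exact_mod_cast (le_of_mul_le_mul_right (by nlinarith) l0 : (4 * (univ.filter fun y =>
    lam < b (s, (y, c)) * g (s, (y, c))).card : ℝ) ≤ vol)

/-- top level by killing outside a ball. -/
theorem top_supp {r : ℕ} (h : ∀ v, r < tdist x v.2.1 → b v = 0) (hr : 4 * (2 * r + 1) ^ 3 ≤ vol) :
    Top (fun v => b v * g v) vol 0 := by
  classical
  intro lam hl s c
  refine le_trans (Nat.mul_le_mul_left _ ((card_le_card (t := bl x r) fun y hy => mem_bl.2
    (not_lt.1 fun k => ?_)).trans (by exact_mod_cast card_bl x r))) hr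
  have := (mem_filter.1 hy).2
  simp only [h (s, (y, c)) k, zero_mul] at this
  linarith

theorem CapH.mono (h : CapH P U x d A nmax vol C) (hd : d' ≤ d) {k : ℕ} (hk : k ≤ nmax) :
    CapH P U x d' A k vol C := fun U0 S ψ lam h1 h2 h3 h4 =>
  h U0 S ψ lam h1 (fun z hz => ⟨(h2 z hz).1.trans hd, (h2 z hz).2⟩) h3 (h4.trans hk)

theorem Near.mono (h : Near P U x m1 d) (hd : d' ≤ d) : Near P U x m1 d' :=
  fun y hy => h y (hy.trans hd)

theorem Near.sub (h : Near P U x m1 d) {z : Tor 3 L} (hd : tdist x z + d' ≤ d) : Near P U z m1 d' :=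
  fun y hy => h y (by have := tdist_triangle x z y; omega)

theorem Near.not_mem (h : Near P U x m1 d) (hm : m1 ≤ P.mt) {z : Tor 3 L} (hz : tdist x z ≤ d) :
    z ∉ U m1 := not_mem_U' (h z hz).1 hm (h z hz).2

theorem Clean.near (hP : P.Ok L) (h : Clean P U x m1 d) (hw : ∀ y ∈ U P.mt, d < tdist x y) :
    Near P U x m1 d := fun y hy => ⟨fun k => (hw y k).not_ge hy, fun l h1 h2 k => by
  obtain ⟨z, hz, -, e⟩ := mem_Fm.1 k
  have := h l h1 h2 z hz
  have := hP.ρη l h2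
  have := tdist_triangle x y z
  rw [tdist_comm] at e
  omega⟩

omit [NeZero L] in
theorem η_zero_le (hP : P.Ok L) {k : ℕ} (hk : k < P.mt) : P.η 0 ≤ P.η k := by
  induction k with
  | zero => exact le_rfl
  | succ k ih =>
    have := hP.grow k hk
    have := ih (by omega)
    rw [Nat.succ_mul] at *
    omega

theorem Data.pos (D : Data ex ey p p0 b b0 R Z E w B q κ Bd P U j A) : 0 < w * E :=
  Nat.pos_of_ne_zero fun e => NeZero.ne T (by rw [D.clock.hT, mul_assoc, e, mul_zero])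

theorem Cg_le (hκ : 1 ≤ κ) {a e : ℝ} (hμ : 0 ≤ μ) (ha : 0 ≤ a) (he : 0 ≤ e)
    (h : m * Real.exp (-(2 * κ)) / 8 ≤ μ + 128 * κ * a + 6 * κ ^ 3 * e) : m ≤ Cg κ * (μ + a + e) := by
  have k1 : κ ≤ κ ^ 3 := le_self_pow₀ hκ (by norm_num)
  have h2 : μ + 128 * κ * a + 6 * κ ^ 3 * e ≤ 128 * κ ^ 3 * (μ + a + e) := by
    nlinarith [mul_nonneg hμ (sub_nonneg.2 (hκ.trans k1)), mul_nonneg ha (sub_nonneg.2 k1),
      mul_nonneg he (zero_le_one.trans (hκ.trans k1))]
  have e0 := Real.exp_pos (2 * κ)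
  rw [Real.exp_neg, ← div_eq_mul_inv, div_div, div_le_iff₀ (by positivity)] at h
  have : 0 ≤ κ ^ 3 * Real.exp (2 * κ) * (μ + a + e) := by positivity
  unfold Cg
  nlinarith [mul_le_mul_of_nonneg_right h2 e0.le]

/-- a chain which crosses the annuli about `x`. -/
theorem annuli (G : Grn ex ey p b u Y g) (D : Data ex ey p p0 b b0 R Z E w B q κ Bd P U j A)
    (D3 : Data3 ex ey p0 b0 R E w κ P U j A l r3) (hm1 : 1 ≤ m1) (hm1' : m1 ≤ P.mt)
    (hN : Near P U x m1 d) (C0 : 0 ≤ C) (hcap : CapH P U x d A nmax vol C)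
    (hn : d / (4 * P.η (m1 - 1)) ≤ nmax) (hμ : 0 ≤ μ) (top : Top (fun v => b v * g v) vol μ)
    (hdη : 4 * P.η (m1 - 1) ≤ d) (hm : 0 < m) (H : Chain ex ey p (fun v => b v * g v) u v m N c)
    {i0 i1 : ℕ} (h0 : i0 ≤ i1) (h1 : i1 ≤ N) (h : (x = (c i0).1 ∧ d ≤ tdist x (c i1).1) ∨
      (x = (c i1).1 ∧ d ≤ tdist x (c i0).1)) :
    m ≤ Cg κ * (μ + C * P.η (m1 - 1) / d + err q Y L n B) := by
  have hP := D.geom.ok
  have e0 := η_zero_le hP (show m1 - 1 < P.mt by omega)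
  have d1 := D3.h1
  have hA := D.geom.hA
  generalize hη : P.η (m1 - 1) = η at *
  have nn : ∀ i < N, tdist (c i).1 (c (i + 1)).1 ≤ 1 := fun i hi => D.env.step_le (H.step i hi)
  have key : ∀ ι < d / (4 * η), ∃ (W : ℕ) (z : ℕ → Tor 3 L × Fin n),
      ∀ s ∈ Ico (W * w) ((W + 1) * w), (2 * (m * Real.exp (-(2 * κ)) / 8) ≤
        b (tm T (s * E), z s) * g (tm T (s * E), z s) ∧ tdist x (z s).1 ≤ d ∧
        Exp R A (s * E) (z s).1 ∧ Near P U (z s).1 1 A) ∧
        4 * ι * η ≤ tdist x (z s).1 ∧ tdist x (z s).1 ≤ 4 * ι * η + 2 * η := fun ι hι => by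
    have t1 : 4 * ι * η + 4 * η ≤ d := by
      have := (Nat.mul_le_mul_right (4 * η) hι).trans (Nat.div_mul_le_self d (4 * η))
      rw [Nat.succ_mul] at this
      linarith
    generalize 4 * ι * η = t at *
    obtain ⟨i, a1, a2, a3⟩ := ivt (f := fun k => tdist x (c k).1) (t := t + η) h0 (fun k k1 k2 => by
      have := nn k (by omega)
      have := tdist_triangle x (c k).1 (c (k + 1)).1
      have := tdist_triangle x (c (k + 1)).1 (c k).1
      rw [tdist_comm (c (k + 1)).1] at this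
      omega) (h.imp (fun h => ⟨by rw [← h.1, tdist_self]; omega, by omega⟩)
        fun h => ⟨by rw [← h.1, tdist_self]; omega, by omega⟩)
    obtain ⟨i2, b1, b2, b3, b4⟩ := radial hP D.geom.cov (c := fun k => (c k).1) nn
      (show m1 - 1 < P.mt by omega) a2 h1 (by
        have := tdist_triangle x (c i).1 (c i1).1
        rcases h with h | h
        · omega
        · rw [← h.1, tdist_comm]; omega) fun y hy l l1 l2 => (hN y (by
        have := tdist_triangle x (c i).1 y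
        omega)).2 l (by omega) l2
    rw [hη] at b4
    have b5 : Near P U (c i2).1 1 (P.η 0) := fun y hy => ⟨(hN y (by
      have := tdist_triangle x (c i).1 y
      have := (b4 y hy).1
      omega)).1, (b4 y hy).2⟩
    have b6 := b5.not_mem hP.pos (z := (c i2).1) (by simp [tdist_self])
    obtain ⟨W, z, -, -, hz⟩ := cross G D.env D3.pers D.clock.hp0 D.pos H hm (r0 := P.η 0 - A)
      (b2.trans h1) (by omega) (D.geom.leaf _ b6 _ (by simp [tdist_self])) (D3.leaf3 _ b6)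
      (by omega) (by omega) D3.h2 (Or.inl ⟨i1, b2, h1, by omega⟩)
    refine ⟨W, z, fun s hs => ?_⟩
    obtain ⟨c1, c2, c3⟩ := hz s hs
    have c4 := (b4 (z s).1 (by omega)).1
    have := tdist_triangle x (c i).1 (z s).1
    have := tdist_triangle x (z s).1 (c i).1
    rw [tdist_comm (z s).1] at this
    exact ⟨⟨by linarith, by omega, c3, b5.sub (by omega)⟩, by omega, by omega⟩
  haveI : Nonempty (ℕ → Tor 3 L × Fin n) := ⟨fun _ => u.2⟩
  choose! W z hz using key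
  have η0 : 0 < η := by omega
  have N1 : 1 ≤ d / (4 * η) := (Nat.le_div_iff_mul_le (by omega)).2 (by omega)
  have h2 := expo G D.env D.clock D.geom D.fine C0 hcap hμ top W z N1
    (fun ι hι s hs => (hz ι hι s hs).1) (fun ι hι ι' hι' ne _ s hs s' hs' => by
      have := (hz ι hι s hs).2
      have := (hz ι' hι' s' hs').2
      rcases lt_or_gt_of_ne ne with k | k
      · have : 4 * ι * η + 4 * η ≤ 4 * ι' * η := by nlinarith
        omega
      · have : 4 * ι' * η + 4 * η ≤ 4 * ι * η := by nlinarith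
        omega) fun i => (card_filter_le _ _).trans ((card_range _).trans_le hn)
  have hκ := D.clock.hκ
  refine Cg_le hκ hμ (by positivity) (by unfold err; positivity) (h2.trans ?_)
  have d0 : (0 : ℝ) < d := by exact_mod_cast (by omega : 0 < d)
  have : (d : ℝ) ≤ 8 * η * (d / (4 * η) : ℕ) := by
    have := Nat.lt_mul_div_succ d (show 0 < 4 * η by omega)
    exact_mod_cast (by nlinarith : d ≤ 8 * η * (d / (4 * η)))
  unfold err
  gcongr ?_ + ?_
  · gcongr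
    rw [← mul_div_assoc, div_le_div_iff₀ (by exact_mod_cast N1) d0]
    nlinarith [mul_le_mul_of_nonneg_left this (show 0 ≤ κ * C by positivity)]
  · exact le_rfl

/-- exposures in windows which are distinct modulo the period. -/
theorem windows (G : Grn ex ey p b u Y g) (D : Data ex ey p p0 b b0 R Z E w B q κ Bd P U j A)
    (C0 : 0 ≤ C) (hcap : CapH P U x d A 1 vol C) (hμ : 0 ≤ μ) (top : Top (fun v => b v * g v) vol μ)
    {M : ℕ} (hM : 1 ≤ M) (W : ℕ → ℕ) (z : ℕ → ℕ → Tor 3 L × Fin n)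
    (hW : ∀ ι < M, ∀ ι' < M, W ι < W ι' + B) (inj : ∀ ι < M, ∀ ι' < M, W ι = W ι' → ι = ι')
    (hz : ∀ ι < M, ∀ s ∈ Ico (W ι * w) ((W ι + 1) * w), 2 * (m * Real.exp (-(2 * κ)) / 8) ≤
      b (tm T (s * E), z ι s) * g (tm T (s * E), z ι s) ∧ tdist x (z ι s).1 ≤ d ∧
      Exp R A (s * E) (z ι s).1 ∧ Near P U (z ι s).1 1 A) :
    m ≤ Cg κ * (μ + C / M + err q Y L n B) := by
  have i2 : ∀ ι < M, ∀ ι' < M, W ι % B = W ι' % B → ι = ι' := fun ι h ι' h' e => by
    refine inj ι h ι' h' ?_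
    have := hW ι h ι' h'
    have := hW ι' h' ι h
    rcases le_total (W ι) (W ι') with k | k
    · have := Nat.eq_zero_of_dvd_of_lt ((Nat.modEq_iff_dvd' k).1 e) (by omega)
      omega
    · have := Nat.eq_zero_of_dvd_of_lt ((Nat.modEq_iff_dvd' k).1 e.symm) (by omega)
      omega
  have h2 := expo G D.env D.clock D.geom D.fine C0 hcap hμ top W z hM hz
    (fun ι h ι' h' ne e => absurd (i2 ι h ι' h' e) ne) fun i => card_le_one.2 fun ι h ι' h' =>
      i2 ι (mem_range.1 (mem_filter.1 h).1) ι' (mem_range.1 (mem_filter.1 h').1)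
        ((mem_filter.1 h).2.trans (mem_filter.1 h').2.symm)
  have hκ := D.clock.hκ
  refine Cg_le hκ hμ (by positivity) (by unfold err; positivity) (h2.trans ?_)
  unfold err
  gcongr ?_ + ?_
  · rw [mul_div_assoc]; gcongr; norm_num
  · exact le_rfl

theorem lag_le (s t : Fin T) : lag s t ≤ T := by
  unfold lag; split_ifs; exacts [le_rfl, (Fin.is_lt _).le]

/-- a confined chain in cluster free windows. -/
theorem conf (G : Grn ex ey p b u Y g) (D : Data ex ey p p0 b b0 R Z E w B q κ Bd P U j A)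
    (hN : Near P U x 1 (d + A)) (C0 : 0 ≤ C) (hcap : CapH P U x d A 1 vol C) (hμ : 0 ≤ μ)
    (top : Top (fun v => b v * g v) vol μ) (hm : 0 < m)
    (H : Chain ex ey p (fun v => b v * g v) u v m N c) (h : ∀ i < N, tdist x (c i).1 ≤ d)
    (S : Finset ℕ) (hS : S.Nonempty) (hS' : ∀ i ∈ S, NoCl R (w * E) A d x i ∧
      u.1.val ≤ i * (w * E) ∧ (i + 1) * (w * E) ≤ u.1.val + lag u.1 v.1) :
    m ≤ Cg κ * (μ + C / S.card + err q Y L n B) := by
  have hκ := D.clock.hκ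
  have D0 := D.pos
  have mem : ∀ ι < S.card, S.toList.getD ι 0 ∈ S := fun ι h => by
    rw [List.getD_eq_getElem _ _ (by rwa [length_toList])]
    exact mem_toList.1 (List.getElem_mem _)
  refine windows G D C0 hcap hμ top hS.card_pos (fun ι => S.toList.getD ι 0)
    (fun _ s => c (s * E - u.1.val)) (fun ι h ι' h' => ?_) (fun ι h ι' h' e => ?_) fun ι hι s hs => ?_
  · have a1 := (hS' _ (mem ι h)).2.2
    have a2 := (hS' _ (mem ι' h')).2.1
    have a3 := (lag_le u.1 v.1).trans_eq (D.clock.hT.trans (mul_assoc _ _ _))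
    refine Nat.le_of_mul_le_mul_right ?_ D0
    rw [add_mul (S.toList.getD ι' 0)]
    exact a1.trans (add_le_add a2 a3)
  · rw [List.getD_eq_getElem _ _ (by rwa [length_toList]),
      List.getD_eq_getElem _ _ (by rwa [length_toList])] at e
    exact (List.Nodup.getElem_inj_iff (nodup_toList S)).1 e
  · obtain ⟨a1, a2, a3⟩ := hS' _ (mem ι hι)
    obtain ⟨s1, s2⟩ := Cr.win D0 hs
    have a4 := H.lag_le
    have a5 : s * E - u.1.val < N := by omega
    have a6 := H.lev _ a5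
    rw [show u.1.val + (s * E - u.1.val) = s * E by omega] at a6
    have : Real.exp (-(2 * κ)) ≤ 1 := Real.exp_le_one_iff.2 (by linarith)
    exact ⟨le_trans (by nlinarith) a6, h _ a5, a1 _ (mem_Ico.2 ⟨s1, s2⟩) _ (h _ a5),
      hN.sub (Nat.add_le_add_right (h _ a5) _)⟩

theorem Cg_nonneg (hκ : 1 ≤ κ) : 0 ≤ Cg κ := by unfold Cg; positivity

theorem err_nonneg : 0 ≤ err q Y L n B := by unfold err; positivity

/-- **G1d**: one good end. -/
theorem G1d (G : Grn ex ey p b u Y g) (D : Data ex ey p p0 b b0 R Z E w B q κ Bd P U j A)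
    (D3 : Data3 ex ey p0 b0 R E w κ P U j A l r3) (hm1 : 1 ≤ m1) (hm1' : m1 ≤ P.mt)
    (hN : Near P U x m1 d) (C0 : 0 ≤ C) (hcap : CapH P U x d A nmax vol C)
    (hn : d / (4 * P.η (m1 - 1)) ≤ nmax) (hμ : 0 ≤ μ) (top : Top (fun v => b v * g v) vol μ)
    (hx : x = u.2.1 ∨ x = v.2.1) (hd : d ≤ tdist u.2.1 v.2.1) (hdη : 4 * P.η (m1 - 1) ≤ d) :
    (g v - if v = u then 1 else 0) ≤ Cg κ * (μ + C * P.η (m1 - 1) / d + err q Y L n B) := by
  have := Cg_nonneg D.clock.hκ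
  have := err_nonneg (q := q) (Y := Y) (L := L) (n := n) (B := B)
  refine (le_or_gt _ 0).elim (fun h => h.trans (by positivity)) fun hm => ?_
  obtain ⟨N, c, H⟩ := G.chain hm le_rfl
  refine annuli G D D3 hm1 hm1' hN C0 hcap hn hμ top hdη hm H (Nat.zero_le N) le_rfl ?_
  rw [H.c0, H.cN]
  exact hx.imp (fun h => ⟨h, h ▸ hd⟩) fun h => ⟨h, h ▸ tdist_comm u.2.1 v.2.1 ▸ hd⟩

/-- **G1u**: a walker confined to a ball, cluster free windows. -/
theorem G1u (G : Grn ex ey p b u Y g) (D : Data ex ey p p0 b b0 R Z E w B q κ Bd P U j A)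
    (hN : Near P U x 1 (d + A)) (C0 : 0 ≤ C) (hcap : CapH P U x d A 1 vol C) (hμ : 0 ≤ μ)
    (top : Top (fun v => b v * g v) vol μ) (hb : ∀ v, d < tdist x v.2.1 → b v = 0)
    (S : Finset ℕ) (hS : S.Nonempty) (hS' : ∀ i ∈ S, NoCl R (w * E) A d x i ∧
      u.1.val ≤ i * (w * E) ∧ (i + 1) * (w * E) ≤ u.1.val + lag u.1 v.1) :
    (g v - if v = u then 1 else 0) ≤ Cg κ * (μ + C / S.card + err q Y L n B) := by
  have := Cg_nonneg D.clock.hκ
  have := err_nonneg (q := q) (Y := Y) (L := L) (n := n) (B := B)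
  refine (le_or_gt _ 0).elim (fun h => h.trans (by positivity)) fun hm => ?_
  obtain ⟨N, c, H⟩ := G.chain hm le_rfl
  refine conf G D hN C0 hcap hμ top hm H (fun i hi => not_lt.1 fun k => ?_) S hS hS'
  have := H.lev i hi
  simp only [hb (_, c i) k, zero_mul] at this
  linarith

/-- a chain with one end at `x` is confined or crosses the annuli. -/
theorem escape (G : Grn ex ey p b u Y g) (D : Data ex ey p p0 b b0 R Z E w B q κ Bd P U j A)
    (D3 : Data3 ex ey p0 b0 R E w κ P U j A l r3) (hm1 : 1 ≤ m1) (hm1' : m1 ≤ P.mt)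
    (hN : Near P U x m1 d) (C0 : 0 ≤ C) (hcap : CapH P U x d A nmax vol C)
    (hn : d / (4 * P.η (m1 - 1)) ≤ nmax) (hμ : 0 ≤ μ) (top : Top (fun v => b v * g v) vol μ)
    (hx : x = u.2.1 ∨ x = v.2.1) (hdη : 4 * P.η (m1 - 1) ≤ d) {a : ℝ} (ha : 0 ≤ a)
    (h : ∀ m N c, 0 < m → Chain ex ey p (fun v => b v * g v) u v m N c →
      (∀ i ≤ N, tdist x (c i).1 < d) → m ≤ Cg κ * (μ + a + err q Y L n B)) :
    (g v - if v = u then 1 else 0) ≤ Cg κ * (μ + (a + C * P.η (m1 - 1) / d) + err q Y L n B) := by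
  have := Cg_nonneg D.clock.hκ
  have := err_nonneg (q := q) (Y := Y) (L := L) (n := n) (B := B)
  refine (le_or_gt _ 0).elim (fun h => h.trans (by positivity)) fun hm => ?_
  obtain ⟨N, c, H⟩ := G.chain hm le_rfl
  by_cases k : ∀ i ≤ N, tdist x (c i).1 < d
  · refine (h _ N c hm H k).trans ?_
    gcongr
    exact le_add_of_nonneg_right (by positivity)
  push Not at k
  obtain ⟨i, hi, k⟩ := k
  refine le_trans (hx.elim (fun e => annuli G D D3 hm1 hm1' hN C0 hcap hn hμ top hdη hm H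
    (Nat.zero_le i) hi (Or.inl ⟨H.c0 ▸ e, k⟩)) fun e => annuli G D D3 hm1 hm1' hN C0 hcap hn hμ top
      hdη hm H hi le_rfl (Or.inr ⟨H.cN ▸ e, k⟩)) ?_
  gcongr
  exact le_add_of_nonneg_left ha

/-- **G1w**: cluster free windows, one good end. -/
theorem G1w (G : Grn ex ey p b u Y g) (D : Data ex ey p p0 b b0 R Z E w B q κ Bd P U j A)
    (D3 : Data3 ex ey p0 b0 R E w κ P U j A l r3) (hN : Near P U x 1 (d + A)) (C0 : 0 ≤ C)
    (hcap : CapH P U x d A nmax vol C) (hn : d / (4 * P.η 0) ≤ nmax) (C1 : 0 ≤ C')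
    (hcap' : CapH P U x d A 1 vol C') (hμ : 0 ≤ μ) (top : Top (fun v => b v * g v) vol μ)
    (hx : x = u.2.1 ∨ x = v.2.1) (hdη : 4 * P.η 0 ≤ d)
    (S : Finset ℕ) (hS : S.Nonempty) (hS' : ∀ i ∈ S, NoCl R (w * E) A d x i ∧
      u.1.val ≤ i * (w * E) ∧ (i + 1) * (w * E) ≤ u.1.val + lag u.1 v.1) :
    (g v - if v = u then 1 else 0) ≤
      Cg κ * (μ + (C' / S.card + C * P.η 0 / d) + err q Y L n B) :=
  escape G D D3 le_rfl D.geom.ok.pos (hN.mono (by omega)) C0 hcap hn hμ top hx hdη (by positivity)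
    fun _ _ _ hm H k => conf G D hN C1 hcap' hμ top hm H (fun i hi => (k i hi.le).le) S hS hS'

/-- **G1t**: long lag, one good end. -/
theorem G1t (G : Grn ex ey p b u Y g) (D : Data ex ey p p0 b b0 R Z E w B q κ Bd P U j A)
    (D3 : Data3 ex ey p0 b0 R E w κ P U j A l r3) (hN : Near P U x 1 (d + P.η 0)) (C0 : 0 ≤ C)
    (hcap : CapH P U x d A nmax vol C) (hn : d / (4 * P.η 0) ≤ nmax) (C1 : 0 ≤ C')
    (hcap' : CapH P U x (d + P.η 0) A 1 vol C') (hμ : 0 ≤ μ) (top : Top (fun v => b v * g v) vol μ)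
    (hx : x = u.2.1 ∨ x = v.2.1) (hdη : 4 * P.η 0 ≤ d) {Nb : ℕ} (hNb : 1 ≤ Nb)
    (hlag : Nb * (l + 2) * (w * E) ≤ lag u.1 v.1) :
    (g v - if v = u then 1 else 0) ≤ Cg κ * (μ + (C' / Nb + C * P.η 0 / d) + err q Y L n B) := by
  refine escape G D D3 le_rfl D.geom.ok.pos (hN.mono (by omega)) C0 hcap hn hμ top hx hdη
    (by positivity) fun m N c hm H k => ?_
  have D0 := D.pos
  have d1 := D3.h1
  have hA := D.geom.hA
  have a4 := H.lag_le
  have hB : Nb * (l + 2) ≤ B := Nat.le_of_mul_le_mul_right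
    (hlag.trans ((lag_le _ _).trans_eq (D.clock.hT.trans (mul_assoc _ _ _)))) D0
  have key : ∀ ι < Nb, ∃ (W : ℕ) (z : ℕ → Tor 3 L × Fin n),
      (u.1.val / (w * E) + ι * (l + 2) < W ∧ W < u.1.val / (w * E) + (ι + 1) * (l + 2)) ∧
      ∀ s ∈ Ico (W * w) ((W + 1) * w), 2 * (m * Real.exp (-(2 * κ)) / 8) ≤
        b (tm T (s * E), z s) * g (tm T (s * E), z s) ∧ tdist x (z s).1 ≤ d + P.η 0 ∧
        Exp R A (s * E) (z s).1 ∧ Near P U (z s).1 1 A := fun ι hι => by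
    have t1 : (ι + 1) * (l + 2) * (w * E) ≤ N :=
      (Nat.mul_le_mul_right _ (Nat.mul_le_mul_right _ hι)).trans (hlag.trans a4)
    have t2 : ι * (l + 2) * (w * E) ≤ N :=
      (Nat.mul_le_mul_right _ (Nat.mul_le_mul_right _ ι.le_succ)).trans t1
    have t3 := k _ t2
    have b6 := hN.not_mem D.geom.ok.pos (z := (c (ι * (l + 2) * (w * E))).1) (by omega)
    have t4 := Nat.add_mul_div_right u.1.val (ι * (l + 2)) D0
    obtain ⟨W, z, w1, w2, hz⟩ := cross G D.env D3.pers D.clock.hp0 D0 H hm (r0 := P.η 0 - A) t2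
      (by omega) (D.geom.leaf _ b6 _ (by simp [tdist_self])) (D3.leaf3 _ b6) (by omega) (by omega)
      D3.h2 (Or.inr (by
        have := Nat.div_mul_le_self u.1.val (w * E)
        rw [t4]
        nlinarith))
    refine ⟨W, z, ⟨by omega, by rw [Nat.succ_mul]; omega⟩, fun s hs => ?_⟩
    obtain ⟨c1, c2, c3⟩ := hz s hs
    have := tdist_triangle x (c (ι * (l + 2) * (w * E))).1 (z s).1
    exact ⟨by linarith, by omega, c3, hN.sub (by omega)⟩
  haveI : Nonempty (ℕ → Tor 3 L × Fin n) := ⟨fun _ => u.2⟩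
  choose! W z hW hz using key
  refine windows G D C1 hcap' hμ top hNb W z (fun ι h ι' h' => ?_) (fun ι h ι' h' e => ?_) hz
  · have := hW ι h
    have := hW ι' h'
    have := Nat.mul_le_mul_right (l + 2) h
    rw [Nat.succ_eq_add_one] at this
    omega
  · have a := hW ι h
    have a' := hW ι' h'
    rw [e] at a
    exact le_antisymm (Nat.lt_add_one_iff.1 (Nat.lt_of_mul_lt_mul_right (a := l + 2) (by omega)))
      (Nat.lt_add_one_iff.1 (Nat.lt_of_mul_lt_mul_right (a := l + 2) (by omega)))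

/-! ### ball-clean corollaries -/

/-- the capacity constant at a clean point. -/
noncomputable def Cc (P : Scales) (A m1 nmax : ℕ) : ℝ :=
  16 * A + 2 * (3 * 10 ^ 6 * P.K (m1 - 1) * (1 + (Nat.log 2 nmax : ℝ)) ^ 2)

theorem Cc_nonneg : 0 ≤ Cc P A m1 nmax := by
  have := one_le_K P (m1 - 1)
  unfold Cc; positivity

theorem Clean.mono (h : Clean P U x m1 d) (hd : d' ≤ d) : Clean P U x m1 d' :=
  fun m h1 h2 y hy => by have := h m h1 h2 y hy; omega

theorem Geom.capH {D K : ℕ} (hG : Geom ex ey p R P U D j A) (top : U P.mt = ∅) (hm1 : 1 ≤ m1)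
    (hcl : Clean P U x m1 (d + A)) (hK : 2 * (2 ^ K - 1) < L) (hKη : ∀ m < m1, P.η m ≤ 2 ^ K - 1) :
    CapH P U x d A nmax ((2 * (2 ^ K - 1) + 1) ^ 3) (Cc P A m1 nmax) :=
  capH_clean hG.ok hG.cov hG.hA hm1 hcl (by simp [top]) hK hKη

theorem G1d_clean (G : Grn ex ey p b u Y g) (D : Data ex ey p p0 b b0 R Z E w B q κ Bd P U j A)
    (D3 : Data3 ex ey p0 b0 R E w κ P U j A l r3) (hU : U P.mt = ∅) (hm1 : 1 ≤ m1)
    (hm1' : m1 ≤ P.mt) (hcl : Clean P U x m1 (d + A)) {K : ℕ} (hK : 2 * (2 ^ K - 1) < L)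
    (hKη : ∀ m < m1, P.η m ≤ 2 ^ K - 1) (hμ : 0 ≤ μ)
    (top : Top (fun v => b v * g v) ((2 * (2 ^ K - 1) + 1) ^ 3) μ) (hx : x = u.2.1 ∨ x = v.2.1)
    (hd : d ≤ tdist u.2.1 v.2.1) (hdη : 4 * P.η (m1 - 1) ≤ d) :
    (g v - if v = u then 1 else 0) ≤
      Cg κ * (μ + Cc P A m1 d * P.η (m1 - 1) / d + err q Y L n B) :=
  G1d G D D3 hm1 hm1' ((hcl.mono (by omega)).near D.geom.ok (by simp [hU])) Cc_nonneg
    (D.geom.capH hU hm1 hcl hK hKη) (Nat.div_le_self _ _) hμ top hx hd hdη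

theorem G1w_clean (G : Grn ex ey p b u Y g) (D : Data ex ey p p0 b b0 R Z E w B q κ Bd P U j A)
    (D3 : Data3 ex ey p0 b0 R E w κ P U j A l r3) (hU : U P.mt = ∅) (hcl : Clean P U x 1 (d + A))
    {K : ℕ} (hK : 2 * (2 ^ K - 1) < L) (hKη : P.η 0 ≤ 2 ^ K - 1) (hμ : 0 ≤ μ)
    (top : Top (fun v => b v * g v) ((2 * (2 ^ K - 1) + 1) ^ 3) μ) (hx : x = u.2.1 ∨ x = v.2.1)
    (hdη : 4 * P.η 0 ≤ d) (S : Finset ℕ) (hS : S.Nonempty) (hS' : ∀ i ∈ S, NoCl R (w * E) A d x i ∧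
      u.1.val ≤ i * (w * E) ∧ (i + 1) * (w * E) ≤ u.1.val + lag u.1 v.1) :
    (g v - if v = u then 1 else 0) ≤
      Cg κ * (μ + (Cc P A 1 1 / S.card + Cc P A 1 d * P.η 0 / d) + err q Y L n B) :=
  have h : ∀ m < 1, P.η m ≤ 2 ^ K - 1 := fun _ hm => Nat.lt_one_iff.1 hm ▸ hKη
  G1w G D D3 (hcl.near D.geom.ok (by simp [hU])) Cc_nonneg (D.geom.capH hU le_rfl hcl hK h)
    (Nat.div_le_self _ _) Cc_nonneg (D.geom.capH hU le_rfl hcl hK h) hμ top hx hdη S hS hS'

theorem G1t_clean (G : Grn ex ey p b u Y g) (D : Data ex ey p p0 b b0 R Z E w B q κ Bd P U j A)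
    (D3 : Data3 ex ey p0 b0 R E w κ P U j A l r3) (hU : U P.mt = ∅) (hcl : Clean P U x 1 (2 * d))
    {K : ℕ} (hK : 2 * (2 ^ K - 1) < L) (hKη : P.η 0 ≤ 2 ^ K - 1) (hμ : 0 ≤ μ)
    (top : Top (fun v => b v * g v) ((2 * (2 ^ K - 1) + 1) ^ 3) μ) (hx : x = u.2.1 ∨ x = v.2.1)
    (hdη : 4 * P.η 0 ≤ d) {Nb : ℕ} (hNb : 1 ≤ Nb) (hlag : Nb * (l + 2) * (w * E) ≤ lag u.1 v.1) :
    (g v - if v = u then 1 else 0) ≤
      Cg κ * (μ + (Cc P A 1 1 / Nb + Cc P A 1 d * P.η 0 / d) + err q Y L n B) :=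
  have h : ∀ m < 1, P.η m ≤ 2 ^ K - 1 := fun _ hm => Nat.lt_one_iff.1 hm ▸ hKη
  have hA := D.geom.hA.2
  G1t G D D3 ((hcl.mono (by omega)).near D.geom.ok (by simp [hU])) Cc_nonneg
    (D.geom.capH hU le_rfl (hcl.mono (by omega)) hK h) (Nat.div_le_self _ _) Cc_nonneg
    (D.geom.capH hU le_rfl (hcl.mono (by omega)) hK h) hμ top hx hdη hNb hlag

theorem G1u_clean (G : Grn ex ey p b u Y g) (D : Data ex ey p p0 b b0 R Z E w B q κ Bd P U j A)
    (hU : U P.mt = ∅) (hcl : Clean P U x 1 (d + A)) {K : ℕ} (hK : 2 * (2 ^ K - 1) < L)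
    (hKη : P.η 0 ≤ 2 ^ K - 1) (hμ : 0 ≤ μ)
    (top : Top (fun v => b v * g v) ((2 * (2 ^ K - 1) + 1) ^ 3) μ)
    (hb : ∀ v, d < tdist x v.2.1 → b v = 0)
    (S : Finset ℕ) (hS : S.Nonempty) (hS' : ∀ i ∈ S, NoCl R (w * E) A d x i ∧
      u.1.val ≤ i * (w * E) ∧ (i + 1) * (w * E) ≤ u.1.val + lag u.1 v.1) :
    (g v - if v = u then 1 else 0) ≤ Cg κ * (μ + Cc P A 1 1 / S.card + err q Y L n B) :=
  G1u G D (hcl.near D.geom.ok (by simp [hU])) Cc_nonneg
    (D.geom.capH hU le_rfl hcl hK fun _ hm => Nat.lt_one_iff.1 hm ▸ hKη) hμ top hb S hS hS'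

end Crest.Agent.N337.G1
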