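import Crest.Agent.N337.G1.Defs
import Crest.Agent.N337.KV.Energy
import Crest.Agent.N337.S27.LY0

/-!
# Row 337, G1 (helper9): energy, mass, chains, monotonicity of the Green function of a word
-/

set_option autoImplicit false
set_option linter.unusedSectionVars false

namespace Crest.Agent.N337.G1

open Finset KV Equiv

theorem tr_nonneg {lam : ℝ} (h : 0 ≤ lam) (x : ℝ) : 0 ≤ tr lam x := le_min (le_max_right _ _) h

theorem tr_le (lam x : ℝ) : tr lam x ≤ lam := min_le_right _ _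

theorem tr_of_ge {lam x : ℝ} (h : 2 * lam ≤ x) : tr lam x = lam :=
  min_eq_right (le_max_of_le_left (by linarith))

theorem tr_of_le {lam x : ℝ} (h0 : 0 ≤ lam) (h : x ≤ lam) : tr lam x = 0 := by
  rw [tr, max_eq_right (by linarith), min_eq_left h0]

theorem tr_lip (lam x y : ℝ) : |tr lam x - tr lam y| ≤ |x - y| :=
  (abs_min_sub_min_le_max _ _ _ _).trans (max_le
    ((abs_max_sub_max_le_abs _ _ _).trans (by rw [sub_sub_sub_cancel_right])) (by simp))

/-- primitive of `tr`. -/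
noncomputable def Ps (lam x : ℝ) : ℝ := tr lam x * (x - lam) - tr lam x ^ 2 / 2

theorem Ps_key {lam : ℝ} (h0 : 0 ≤ lam) (x y : ℝ) :
    Ps lam y + tr lam y * (x - y) + (tr lam x - tr lam y) ^ 2 / 2 ≤ Ps lam x := by
  have h : 0 ≤ (tr lam x - tr lam y) * (x - lam - tr lam x) := by
    have h1 := tr_nonneg h0 y
    have h2 := tr_le lam y
    rcases le_total x lam with h3 | h3
    · rw [tr_of_le h0 h3]; nlinarith
    · rcases le_total (2 * lam) x with h4 | h4
      · rw [tr_of_ge h4]; nlinarith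
      · have : tr lam x = x - lam := by
          rw [tr, max_eq_left (by linarith), min_eq_left (by linarith)]
        rw [this]; simp
  unfold Ps; nlinarith

theorem Ps_mono {lam x y : ℝ} (h0 : 0 ≤ lam) (h : y ≤ x) : Ps lam y ≤ Ps lam x := by
  have := Ps_key h0 x y
  have := mul_nonneg (tr_nonneg h0 y) (sub_nonneg.2 h)
  nlinarith [sq_nonneg (tr lam x - tr lam y)]

theorem Ps_add {lam : ℝ} (h0 : 0 ≤ lam) (x : ℝ) {e : ℝ} (he : 0 ≤ e) :
    Ps lam (e + x) ≤ lam * e + Ps lam x := by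
  have := Ps_key h0 x (e + x)
  have := mul_le_mul_of_nonneg_right (tr_le lam (e + x)) he
  nlinarith [sq_nonneg (tr lam x - tr lam (e + x))]

theorem Ps_conv {lam : ℝ} (h0 : 0 ≤ lam) {q : ℝ} (hq : 0 ≤ q ∧ q ≤ 1) (a c : ℝ) :
    Ps lam ((1 - q) * a + q * c) ≤ (1 - q) * Ps lam a + q * Ps lam c -
      q * (1 - q) / 2 * (tr lam a - tr lam c) ^ 2 := by
  have h1 := mul_le_mul_of_nonneg_left (Ps_key h0 a ((1 - q) * a + q * c)) (sub_nonneg.2 hq.2)
  have h2 := mul_le_mul_of_nonneg_left (Ps_key h0 c ((1 - q) * a + q * c)) hq.1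
  nlinarith [sq_nonneg ((1 - q) * (tr lam a - tr lam ((1 - q) * a + q * c)) +
    q * (tr lam c - tr lam ((1 - q) * a + q * c)))]

variable {Λ : Type} [Fintype Λ] [DecidableEq Λ] {T : ℕ} [NeZero T] {ex ey : Fin T → Λ}
  {p : Fin T → ℝ} {b b' g g' : Fin T × Λ → ℝ} {u v : Fin T × Λ} {Y Y' : ℝ}

theorem sum_src (s : Fin T) (u : Fin T × Λ) :
    ∑ y, (if (s + 1, y) = u then (1 : ℝ) else 0) = if s + 1 = u.1 then 1 else 0 := by
  obtain ⟨t, x⟩ := u
  by_cases h : s + 1 = t <;> simp [h]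

theorem Grn.bg (G : Grn ex ey p b u Y g) (v : Fin T × Λ) : 0 ≤ b v * g v ∧ b v * g v ≤ g v :=
  ⟨mul_nonneg (G.hb v).1 (G.nn v), mul_le_of_le_one_left (G.nn v) (G.hb v).2⟩

theorem Grn.energy (G : Grn ex ey p b u Y g) {lam : ℝ} (h0 : 0 ≤ lam) :
    ∑ s, p s * (1 - p s) *
      (tr lam (b (s, ex s) * g (s, ex s)) - tr lam (b (s, ey s) * g (s, ey s))) ^ 2 ≤ lam := by
  have h1 : ∀ s, ∑ y, Ps lam (g (s + 1, y)) ≤ lam * (if s + 1 = u.1 then 1 else 0) +
      ∑ y, Ps lam (g (s, y)) - p s * (1 - p s) *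
        (tr lam (b (s, ex s) * g (s, ex s)) - tr lam (b (s, ey s) * g (s, ey s))) ^ 2 := by
    intro s
    have h2 := sum_le_sum fun y (_ : y ∈ univ) => (G.eq s y ▸ Ps_add h0 _
      (by split_ifs <;> norm_num) : Ps lam (g (s + 1, y)) ≤ _).trans
        (add_le_add_right (Ps_conv h0 (G.hp s) _ _) _)
    have h3 := sum_swap_sq (fun y => tr lam (b (s, y) * g (s, y))) (ex s) (ey s)
    have h4 := Equiv.sum_comp (swap (ex s) (ey s)) fun y => Ps lam (b (s, y) * g (s, y))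
    have h5 := sum_le_sum fun y (_ : y ∈ univ) => Ps_mono h0 (G.bg (s, y)).2
    simp only [sum_add_distrib, sum_sub_distrib, ← mul_sum, sum_src] at h2
    rw [h3, h4] at h2
    linarith
  have h2 := sum_le_sum fun s (_ : s ∈ univ) => h1 s
  have h3 := Equiv.sum_comp (Equiv.addRight (1 : Fin T)) fun s => ∑ y, Ps lam (g (s, y))
  have h4 : ∑ s : Fin T, (if s + 1 = u.1 then (1 : ℝ) else 0) = 1 := by
    simp [← eq_sub_iff_add_eq]
  simp only [coe_addRight] at h3
  simp only [sum_add_distrib, sum_sub_distrib, ← mul_sum] at h2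
  rw [h3, h4] at h2
  linarith

theorem cyc {Y : ℝ} (hY : 0 ≤ Y ∧ Y < 1) (s0 s1 : Fin T) (m : Fin T → ℝ) {c : ℝ} (hc : 0 ≤ c)
    (h : ∀ s, m (s + 1) ≤ (if s + 1 = s1 then c else 0) + (if s = s0 then Y else 1) * m s)
    (s : Fin T) : m s ≤ c / (1 - Y) := by
  have := Rep.cyc_bound (ζ := fun s => if s = s0 then Y else 1)
    (fun s => by split_ifs <;> linarith [hY.1]) (fun s => by split_ifs <;> linarith [hY.2])
    (by simpa using hY.2) m s1 hc h s
  simpa using this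

theorem Grn.mass (G : Grn ex ey p b u Y g) (s : Fin T) : ∑ y, g (s, y) ≤ 1 / (1 - Y) := by
  obtain ⟨s0, h0⟩ := G.kill
  refine cyc G.hY s0 u.1 (fun s => ∑ y, g (s, y)) zero_le_one (fun s => ?_) s
  have h4 := Equiv.sum_comp (swap (ex s) (ey s)) fun y => b (s, y) * g (s, y)
  have h5 : ∑ y, b (s, y) * g (s, y) ≤ (if s = s0 then Y else 1) * ∑ y, g (s, y) := by
    rw [mul_sum]
    refine sum_le_sum fun y _ => mul_le_mul_of_nonneg_right ?_ (G.nn _)
    split_ifs with h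
    exacts [h ▸ h0 y, (G.hb _).2]
  simp only [G.eq, sum_add_distrib, ← mul_sum, sum_src]
  rw [h4]; linarith

theorem Grn.h_le (G : Grn ex ey p b u Y g) (v : Fin T × Λ) :
    0 ≤ b v * g v ∧ b v * g v ≤ 1 / (1 - Y) := by
  exact ⟨(G.bg v).1, (G.bg v).2.trans ((single_le_sum (f := fun y => g (v.1, y))
    (fun y _ => G.nn _) (mem_univ v.2)).trans (G.mass v.1))⟩

theorem Grn.step_ge (G : Grn ex ey p b u Y g) (s : Fin T) (z : Λ) :
    (1 - if z = ex s ∨ z = ey s then p s else 0) * (b (s, z) * g (s, z)) ≤ g (s + 1, z) := by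
  have h1 : (0 : ℝ) ≤ if (s + 1, z) = u then 1 else 0 := by split_ifs <;> norm_num
  rw [G.eq]
  split_ifs with h
  all_goals first
    | linarith [mul_nonneg (G.hp s).1 (G.bg (s, swap (ex s) (ey s) z)).1]
    | (rw [not_or] at *; rw [swap_apply_of_ne_of_ne (by tauto) (by tauto)]; linarith)

theorem Grn.step_abs (G : Grn ex ey p b u Y g) (s : Fin T) (z : Λ) (h : (s + 1, z) ≠ u) :
    |g (s + 1, z) - b (s, z) * g (s, z)| ≤
      (if z = ex s ∨ z = ey s then p s else 0) * (1 / (1 - Y)) := by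
  rw [G.eq, if_neg h]
  split_ifs with h1
  · have h2 := G.h_le (s, z)
    have h3 := G.h_le (s, swap (ex s) (ey s) z)
    have h4 := (G.hp s).1
    rw [abs_le]; constructor <;> nlinarith
  · rw [not_or] at h1
    rw [swap_apply_of_ne_of_ne h1.1 h1.2]
    simp only [zero_mul, abs_nonpos_iff]; ring

theorem Grn.chain (G : Grn ex ey p b u Y g) {m : ℝ} (hm : 0 < m)
    (h : m ≤ g v - if v = u then 1 else 0) :
    ∃ N c, Chain ex ey p (fun v => b v * g v) u v m N c := by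
  classical
  have ext : ∀ (N : ℕ) (c : ℕ → Λ) (s : Fin T) (y : Λ), c 0 = u.2 → tm T (u.1.val + N) = s →
      (∀ i < N, m ≤ b (tm T (u.1.val + i), c i) * g (tm T (u.1.val + i), c i)) →
      (∀ i < N, c (i + 1) = c i ∨ (p (tm T (u.1.val + i)) ≠ 0 ∧
        c (i + 1) = swap (ex (tm T (u.1.val + i))) (ey (tm T (u.1.val + i))) (c i))) →
      m ≤ b (s, c N) * g (s, c N) → (y = c N ∨ (p s ≠ 0 ∧ y = swap (ex s) (ey s) (c N))) →
      ∃ N c, Chain ex ey p (fun v => b v * g v) u (s + 1, y) m N c := by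
    intro N c s y h0 h1 h2 h3 h4 h5
    refine ⟨N + 1, fun i => if i ≤ N then c i else y, by omega, by simpa using h0, by simp,
      by rw [← add_assoc, tm_succ, h1], fun i hi => ?_, fun i hi => ?_⟩
    · rw [if_pos (by omega)]
      rcases (Nat.lt_succ_iff.1 hi).eq_or_lt with rfl | h
      exacts [h1 ▸ h4, h2 i h]
    · rcases (Nat.lt_succ_iff.1 hi).eq_or_lt with rfl | h
      · rw [if_neg (by omega), if_pos le_rfl, h1]; exact h5
      · rw [if_pos (by omega), if_pos (by omega)]; exact h3 i h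
  by_contra hno
  obtain ⟨s0, h0⟩ := G.kill
  set e : Fin T × Λ → ℝ := fun v => if (m ≤ g v - if v = u then 1 else 0) ∧
    ¬ ∃ N c, Chain ex ey p (fun v => b v * g v) u v m N c then g v - if v = u then 1 else 0
    else 0 with he
  set f : Fin T → ℝ := fun s => univ.fold max 0 fun y => e (s, y) with hf
  have f0 : ∀ s, 0 ≤ f s := fun s => (le_fold_max _).2 (Or.inl le_rfl)
  have f1 : ∀ s y, e (s, y) ≤ f s := fun s y => (le_fold_max _).2 (Or.inr ⟨y, mem_univ _, le_rfl⟩)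
  have z0 : ∀ s, 0 ≤ (if s = s0 then Y else 1) * f s := fun s =>
    mul_nonneg (by split_ifs <;> linarith [G.hY.1]) (f0 s)
  have key := cyc G.hY s0 u.1 f le_rfl (fun s => ?_) v.1
  · have := f1 v.1 v.2
    simp only [he, Prod.mk.eta, if_pos (And.intro h hno), zero_div] at this key
    linarith
  rw [ite_self, zero_add]
  refine (fold_max_le _).2 ⟨z0 s, fun y _ => ?_⟩
  by_cases hy : (m ≤ g (s + 1, y) - if (s + 1, y) = u then 1 else 0) ∧
    ¬ ∃ N c, Chain ex ey p (fun v => b v * g v) u (s + 1, y) m N c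
  swap
  · simp only [he, if_neg hy]; exact z0 s
  simp only [he, if_pos hy]
  obtain ⟨x, h1, h2⟩ : ∃ x, (g (s + 1, y) - if (s + 1, y) = u then 1 else 0) ≤
      b (s, x) * g (s, x) ∧ (y = x ∨ (p s ≠ 0 ∧ y = swap (ex s) (ey s) x)) := by
    have h3 := G.hp s
    rw [G.eq, add_sub_cancel_left]
    by_cases h4 : p s = 0
    · exact ⟨y, by simp [h4], .inl rfl⟩
    rcases le_total (b (s, y) * g (s, y))
      (b (s, swap (ex s) (ey s) y) * g (s, swap (ex s) (ey s) y)) with h5 | h5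
    · exact ⟨_, by nlinarith, .inr ⟨h4, (swap_apply_self _ _ _).symm⟩⟩
    · exact ⟨y, by nlinarith, .inl rfl⟩
  have h3 := hy.1.trans h1
  have h4 : (s, x) ≠ u := fun h4 => hy.2 (ext 0 (fun _ => x) s y (by rw [← h4])
    (by rw [← h4]; exact tm_fin s) (by simp) (by simp) h3 h2)
  have h5 : ¬ ∃ N c, Chain ex ey p (fun v => b v * g v) u (s, x) m N c := fun ⟨N, c, C⟩ =>
    hy.2 (ext N c s y C.c0 C.tN C.lev C.step (by rw [C.cN]; exact h3) (by rw [C.cN]; exact h2))
  have h6 := f1 s x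
  simp only [he, if_neg h4, sub_zero, if_pos (And.intro (h3.trans (G.bg _).2) h5)] at h6
  refine h1.trans (mul_le_mul ?_ h6 (G.nn _) (by split_ifs <;> linarith [G.hY.1]))
  split_ifs with h7
  exacts [h7 ▸ h0 x, (G.hb _).2]

theorem Chain.lag_le {h : Fin T × Λ → ℝ} {m : ℝ} {N : ℕ} {c : ℕ → Λ}
    (C : Chain ex ey p h u v m N c) : lag u.1 v.1 ≤ N := by
  have h1 : v.1 - u.1 = tm T N := by
    rw [← C.tN, sub_eq_iff_eq_add', ← tm_fin u.1]
    exact Fin.ext (by simp [tm_val, Fin.val_add])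
  unfold lag
  split_ifs with h2
  · rw [h2, sub_self] at h1
    exact Nat.le_of_dvd C.pos (Nat.dvd_of_mod_eq_zero (congrArg Fin.val h1).symm)
  · rw [h1]; exact Nat.mod_le _ _

theorem sub_nonpos' (hp : ∀ s, 0 ≤ p s ∧ p s ≤ 1) (hb : ∀ v, 0 ≤ b v ∧ b v ≤ 1)
    (hY : 0 ≤ Y ∧ Y < 1) (kill : ∃ s0, ∀ x, b (s0, x) ≤ Y) {f : Fin T × Λ → ℝ}
    (h : ∀ s y, f (s + 1, y) ≤ (1 - p s) * (b (s, y) * f (s, y)) +
      p s * (b (s, swap (ex s) (ey s) y) * f (s, swap (ex s) (ey s) y))) (v : Fin T × Λ) :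
    f v ≤ 0 := by
  obtain ⟨s0, h0⟩ := kill
  have key := cyc hY s0 s0 (fun s => ∑ y, max (f (s, y)) 0) le_rfl (fun s => ?_) v.1
  · rw [zero_div] at key
    exact (le_max_left _ _).trans ((single_le_sum (f := fun y => max (f (v.1, y)) 0)
      (fun y _ => le_max_right _ _) (mem_univ v.2)).trans key)
  have h1 : ∀ y, b (s, y) * f (s, y) ≤ (if s = s0 then Y else 1) * max (f (s, y)) 0 ∧
      0 ≤ (if s = s0 then Y else 1) * max (f (s, y)) 0 := fun y =>
    ⟨(mul_le_mul_of_nonneg_left (le_max_left _ _) (hb _).1).trans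
      (mul_le_mul_of_nonneg_right (by split_ifs with h7; exacts [h7 ▸ h0 y, (hb _).2])
        (le_max_right _ _)),
      mul_nonneg (by split_ifs <;> linarith [hY.1]) (le_max_right _ _)⟩
  have h2 := sum_le_sum fun y (_ : y ∈ univ) => show max (f (s + 1, y)) 0 ≤
      (1 - p s) * ((if s = s0 then Y else 1) * max (f (s, y)) 0) + p s *
        ((if s = s0 then Y else 1) * max (f (s, swap (ex s) (ey s) y)) 0) from
    max_le ((h s y).trans (add_le_add
      (mul_le_mul_of_nonneg_left (h1 _).1 (sub_nonneg.2 (hp s).2))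
      (mul_le_mul_of_nonneg_left (h1 _).1 (hp s).1)))
      (add_nonneg (mul_nonneg (sub_nonneg.2 (hp s).2) (h1 _).2) (mul_nonneg (hp s).1 (h1 _).2))
  have h4 := Equiv.sum_comp (swap (ex s) (ey s)) fun y => max (f (s, y)) 0
  simp only [sum_add_distrib, ← mul_sum] at h2
  rw [h4] at h2
  rw [ite_self]; linarith

theorem Grn.mono (G : Grn ex ey p b u Y g) (G' : Grn ex ey p b' u Y' g') (h : ∀ v, b v ≤ b' v)
    (v : Fin T × Λ) : g v ≤ g' v := by
  refine sub_nonpos.1 (sub_nonpos' (ex := ex) (ey := ey) (f := fun v => g v - g' v) G.hp G.hb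
    G.hY G.kill (fun s y => ?_) v)
  have h1 := fun v => mul_le_mul_of_nonneg_right (h v) (G'.nn v)
  have h2 := mul_le_mul_of_nonneg_left (h1 (s, y)) (sub_nonneg.2 (G.hp s).2)
  have h3 := mul_le_mul_of_nonneg_left (h1 (s, swap (ex s) (ey s) y)) (G.hp s).1
  simp only [G.eq, G'.eq]
  linarith

theorem A_mulVec (f : Fin T × Λ → ℝ) (s : Fin T) (y : Λ) :
    (1 - LY0.Kb ex ey p * Matrix.diagonal b).mulVec f (s + 1, y) = f (s + 1, y) -
      ((1 - p s) * (b (s, y) * f (s, y)) +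
        p s * (b (s, swap (ex s) (ey s) y) * f (s, swap (ex s) (ey s) y))) := by
  rw [Matrix.sub_mulVec, Matrix.one_mulVec, ← Matrix.mulVec_mulVec, Pi.sub_apply]
  congr 1
  have e : ∀ x, y = swap (ex s) (ey s) x ↔ swap (ex s) (ey s) y = x := fun x => by
    rw [eq_comm, swap_apply_eq_iff, eq_comm]
  rw [Matrix.mulVec, dotProduct, Fintype.sum_prod_type, sum_eq_single s]
  · simp [LY0.Kb_apply, Matrix.mulVec_diagonal, add_mul, sum_add_distrib, e]
  · intro r _ hr
    simp [LY0.Kb_apply, hr.symm]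
  · simp

theorem grn_inv (hp : ∀ s, 0 ≤ p s ∧ p s ≤ 1) (hb : ∀ v, 0 ≤ b v ∧ b v ≤ 1) (hY : 0 ≤ Y ∧ Y < 1)
    (kill : ∃ s0, ∀ x, b (s0, x) ≤ Y) (u : Fin T × Λ) :
    (1 - LY0.Kb ex ey p * Matrix.diagonal b).det ≠ 0 ∧
      Grn ex ey p b u Y fun v => (1 - LY0.Kb ex ey p * Matrix.diagonal b)⁻¹ v u := by
  have hd : (1 - LY0.Kb ex ey p * Matrix.diagonal b).det ≠ 0 := fun h => by
    obtain ⟨f, h1, h2⟩ := Matrix.exists_mulVec_eq_zero_iff.2 h
    have h3 := fun s y => (A_mulVec f s y).symm.trans (congrFun h2 (s + 1, y))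
    refine h1 (funext fun v => le_antisymm
      (sub_nonpos' (ex := ex) (ey := ey) hp hb hY kill (fun s y => ?_) v)
      (neg_nonpos.1 (sub_nonpos' (ex := ex) (ey := ey) (f := fun v => -f v) hp hb hY kill
        (fun s y => ?_) v))) <;> have := h3 s y <;> simp only [Pi.zero_apply] at this <;> linarith
  have h1 : ∀ s y, (1 - LY0.Kb ex ey p * Matrix.diagonal b).mulVec
      (fun v => (1 - LY0.Kb ex ey p * Matrix.diagonal b)⁻¹ v u) (s + 1, y) =
      if (s + 1, y) = u then 1 else 0 := fun s y => by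
    rw [← Matrix.one_apply]
    exact congrFun (congrFun (Matrix.mul_nonsing_inv _ (isUnit_iff_ne_zero.2 hd)) _) _
  simp only [A_mulVec] at h1
  refine ⟨hd, hp, hb, hY, kill, fun v => neg_nonpos.1 (sub_nonpos' (ex := ex) (ey := ey)
    (f := fun v => -(1 - LY0.Kb ex ey p * Matrix.diagonal b)⁻¹ v u) hp hb hY kill
    (fun s y => ?_) v), fun s y => by linarith [h1 s y]⟩
  have h2 : (0 : ℝ) ≤ if (s + 1, y) = u then 1 else 0 := by split_ifs <;> norm_num
  linarith [h1 s y]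

end Crest.Agent.N337.G1
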