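import Crest.Agent.N337.G1.Fill
import Crest.Agent.N337.G1.Core

/-!
# Row 337, G1: exposures bound the level (leaf G1-Expo)

Assume `μ < lam`.  `S0 = {x | ¬ Leaf x}`.  A sweep `i < B w` is GOOD if `i ∉ Bd`, the source is not
reached in it, and no step of it has `Ch` at a slot within `4 η 0` of a leaf site; every window has
`≥ w/2` good sweeps (`Leaf.chg`, `hw`).  In a good sweep and a layer `c`: `U' = update U 0 (S0 ∪ red
sites of layer c at step i E)`, `fill`, `ψ y = tr lam (h (tm (iE), (y,c)))`, `cap` with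
`W = 2 K (m1-1)` (`Fm_card`, `Clean`), `A` = exposed sites of that layer and sweep (they are in
`Good` by `Exp`, `Geom.hA`), top: `Fm_card` (quarter) + `top` (quarter).  Freezing: for
`y ∉ U' 0` the slot is green during the sweep, it is in `Z` (`h = 0`) or sees free steps and pinned
steps with `p = 0`, so `|h (k) - h (iE)| ≤ κ q / (1-Y)` (`Grn.step_abs`); with `Clock.edge`,
`q ∑_c En ≤ 8 (energy of the sweep) + 48 q (κ q/(1-Y))^2 L^3 n`.  Sum over the good sweeps,
`Grn.energy`: `lam^2 N w / 2 ≤ 10^6 W (1+log)^2 (8 lam + err) / q`, and `x^2 ≤ a (x + e)` gives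
`x ≤ a + e`.
-/

set_option autoImplicit false

namespace Crest.Agent.N337.G1

open Finset Crest.MathPhysics.SpinModel Geo Free KV

variable {L : ℕ} [NeZero L] {n T : ℕ} [NeZero T] {ex ey : Fin T → Tor 3 L × Fin n}
  {p p0 b0 : Fin T → ℝ} {b g : Fin T × (Tor 3 L × Fin n) → ℝ} {u : Fin T × (Tor 3 L × Fin n)}
  {Y q κ : ℝ} {R : Finset (Fin T × (Tor 3 L × Fin n))} {Z : Finset (Tor 3 L)} {E w B : ℕ}
  {Bd : Finset ℕ} {P : Scales} {U : ℕ → Finset (Tor 3 L)} {j A : ℕ}

namespace Ex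

theorem geo (M : ℕ) : ∑ m ∈ range M, (1 / 2 ^ (m + 3) : ℝ) ≤ 1 / 4 := by
  have : ∑ m ∈ range M, (1 / 2 ^ (m + 3) : ℝ) = 1 / 4 - 1 / 2 ^ (M + 2) := by
    induction M with
    | zero => norm_num
    | succ M ih => rw [sum_range_succ, ih]; field_simp; ring
  rw [this]
  exact sub_le_self _ (by positivity)

theorem fm_sum (hP : P.Ok L) (hc : ∀ m < P.mt, CovIn P U m) (z : Tor 3 L) (r : ℕ) (S : Finset ℕ)
    (hS : ∀ m ∈ S, m < P.mt ∧ (P.η m ≤ r ∨ ∀ y ∈ Fm P U m, y ∉ bl z r)) :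
    ∑ m ∈ S, P.K m * ((Fm P U m ∩ bl z r).card : ℝ) ≤ (2 * (r : ℝ) + 1) ^ 3 / 4 := by
  refine (sum_le_sum (g := fun m => (2 * (r : ℝ) + 1) ^ 3 * (1 / 2 ^ (m + 3))) fun m hm => ?_).trans ?_
  · rcases (hS m hm).2 with h | h
    · rw [mul_one_div, le_div_iff₀ (by positivity), mul_comm, ← mul_assoc]
      exact Fm_card' hP (hS m hm).1 (hc m (hS m hm).1) z h
    · rw [eq_empty_of_forall_notMem fun y hy => h y (mem_inter.1 hy).1 (mem_inter.1 hy).2]
      simp only [card_empty, Nat.cast_zero, mul_zero]; positivity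
  · rw [← mul_sum, div_eq_mul_one_div _ (4 : ℝ)]
    exact mul_le_mul_of_nonneg_left ((sum_le_sum_of_subset_of_nonneg
      (fun m hm => mem_range.2 (hS m hm).1) fun _ _ _ => by positivity).trans (geo _)) (by positivity)

omit [NeZero L] in
theorem tS_le (hP : P.Ok L) : 2 * tS ≤ P.η 0 := by
  have h1 := hP.ρη 0 hP.pos
  have h2 : 1 * (2 * tS + P.σ 0) ≤ 3 ^ P.a 0 * (2 * tS + P.σ 0) :=
    Nat.mul_le_mul_right _ (Nat.one_le_pow _ _ (by norm_num))
  unfold Scales.ρ at h1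
  omega

variable (ex ey p R P) in
open Classical in
/-- junk sites and red sites of the layer `c` at the time `s`. -/
noncomputable def U0 (D j : ℕ) (s : Fin T) (c : Fin n) : Finset (Tor 3 L) :=
  univ.filter fun y => ¬Leaf ex ey p R D (P.a 0) j (4 * P.η 0) y ∨ (s, (y, c)) ∈ R

theorem mem_U0 {D : ℕ} {s : Fin T} {c : Fin n} {y : Tor 3 L} : y ∈ U0 ex ey p R P D j s c ↔
    ¬Leaf ex ey p R D (P.a 0) j (4 * P.η 0) y ∨ (s, (y, c)) ∈ R := by simp [U0]

variable (ex ey p R P U) in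
/-- the junk sets with the level `0` of the layer `c` at the time `s`. -/
noncomputable def VV (D j : ℕ) (s : Fin T) (c : Fin n) : ℕ → Finset (Tor 3 L) :=
  Function.update U 0 (U0 ex ey p R P D j s c)

section VV
variable {D : ℕ} {s : Fin T} {c : Fin n}

theorem VV_zero : VV ex ey p R P U D j s c 0 = U0 ex ey p R P D j s c := Function.update_self _ _ _

theorem VV_pos {m : ℕ} (hm : 1 ≤ m) : VV ex ey p R P U D j s c m = U m :=
  Function.update_of_ne (by omega) _ _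

theorem Fm_VV {m : ℕ} (hm : 1 ≤ m) : Fm P (VV ex ey p R P U D j s c) m = Fm P U m := by
  ext y; rw [mem_Fm, mem_Fm, VV_pos hm, VV_pos (by omega)]

theorem VV_top (hG : Geom ex ey p R P U D j A) : VV ex ey p R P U D j s c P.mt = U P.mt :=
  VV_pos hG.ok.pos

theorem VV_red (hG : Geom ex ey p R P U D j A) {v y : Tor 3 L} (hv : v ∉ VV ex ey p R P U D j s c 1)
    (hy : y ∈ VV ex ey p R P U D j s c 0) (e : tdist v y ≤ 4 * P.η 0) : (s, (y, c)) ∈ R :=
  (mem_U0.1 (by rwa [VV_zero] at hy)).resolve_left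
    (not_not.2 (hG.leaf v (by rwa [VV_pos le_rfl] at hv) y e))

theorem VV_cov (hG : Geom ex ey p R P U D j A) {m : ℕ} (hm : m < P.mt) :
    CovIn P (VV ex ey p R P U D j s c) m := by
  classical
  rcases m.eq_zero_or_pos with rfl | h0
  · intro v _ hv
    refine ⟨(VV ex ey p R P U D j s c 0).filter fun y => tdist v y ≤ 4 * P.η 0, le_trans ?_
      ((hG.leaf v (by rwa [zero_add, VV_pos le_rfl] at hv) v (by simp [tdist_self])).cnt s),
      fun y hy e => ⟨y, mem_filter.2 ⟨hy, e⟩, by simp [tdist_self]⟩⟩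
    exact card_le_card_of_injOn (fun y => (y, c)) (fun y hy => by
      have := mem_filter.1 (mem_coe.1 hy)
      simpa using ⟨VV_red hG hv this.1 this.2, this.2⟩) fun _ _ _ _ e => congrArg Prod.fst e
  · have := hG.cov m h0 hm
    unfold CovIn at this ⊢
    rwa [VV_pos h0, VV_pos (by omega)]

/-- the filling of a layer; sites off the filled cubes and far from `U0` are good. -/
theorem VV_fill (hG : Geom ex ey p R P U D j A) (s : Fin T) (c : Fin n) :
    ∃ (V Good : Finset (Tor 3 L)) (wt : Tor 3 L → ℝ), V ⊆ U P.mt ∧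
      St (Jn L) (U0 ex ey p R P D j s c) V Good wt ∧
      (∀ y ∉ Good, ∃ m < P.mt, y ∈ Fm P (VV ex ey p R P U D j s c) m) ∧
      ∀ x, wt x = 1 ∨ ∃ m < P.mt, x ∈ Fm P (VV ex ey p R P U D j s c) m ∧ wt x ≤ P.K m := by
  obtain ⟨V, Good, wt, hV, hSt, hGood, hwt⟩ := fill' hG.ok fun m hm => VV_cov (s := s) (c := c) hG hm
  rw [VV_zero] at hSt
  refine ⟨V, Good, wt, VV_top hG ▸ hV, hSt, fun y hy => ?_, hwt⟩
  rcases hGood y hy with ⟨m, -, m1, hm⟩ | ⟨v, v0, v1, e, -⟩
  exacts [⟨m, m1, hm⟩, ⟨0, hG.ok.pos, mem_Fm.2 ⟨v, v0, v1, e⟩⟩]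

/-- at an exposed site at most five points of `U0` are near. -/
theorem U0_card (hG : Geom ex ey p R P U D j A) {k : ℕ} {z : Tor 3 L} (hz : z ∉ U 1)
    (h : Exp R A k z) : (U0 ex ey p R P D j (tm T k) c ∩ bl z A).card ≤ 5 := by
  classical
  refine le_trans (card_le_card fun y hy => ?_) h
  obtain ⟨y1, y2⟩ := mem_inter.1 hy
  have := hG.hA.2
  have := mem_bl.1 y2
  exact mem_filter.2 ⟨y2, c, (mem_U0.1 y1).resolve_left (not_not.2 (hG.leaf z hz y (by omega)))⟩

end VV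

/-- near a clean point the high levels are not seen in small balls. -/
theorem far (hP : P.Ok L) {x z : Tor 3 L} {m1 d : ℕ} (hcl : Clean P U x m1 d) (hz : tdist x z ≤ d)
    (r : ℕ) {m : ℕ} (h1 : m1 ≤ m) (h2 : m < P.mt) : P.η m ≤ r ∨ ∀ y ∈ Fm P U m, y ∉ bl z r :=
  (le_or_gt _ _).imp_right fun h3 y hy hy' => by
    obtain ⟨v, hv, -, e⟩ := mem_Fm.1 hy
    have := hcl m h1 h2 v hv
    have := mem_bl.1 hy'
    have := hP.ρη m h2
    have := tdist_triangle x z y
    have := tdist_triangle x y v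
    rw [tdist_comm] at e
    omega

open Classical in
/-- the static bound for one layer and one time. -/
theorem stat {D : ℕ} (hG : Geom ex ey p R P U D j A) {x : Tor 3 L} {d nmax vol : ℕ} {C : ℝ}
    (hcap : CapH P U x d A nmax vol C) {lam : ℝ} (hl : 0 < lam) {k : ℕ} {c : Fin n}
    {h : Tor 3 L → ℝ} (hR : ∀ y, (tm T k, (y, c)) ∈ R → h y = 0)
    (top : 4 * (univ.filter fun y => lam < h y).card ≤ vol)
    {S : Finset (Tor 3 L)} (hS : ∀ y ∈ S, 2 * lam ≤ h y ∧ tdist x y ≤ d ∧ Exp R A k y ∧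
      Near P U y 1 A)
    (hsep : ∀ z ∈ S, ∀ z' ∈ S, z ≠ z' →
      tdist x z + 2 * A < tdist x z' ∨ tdist x z' + 2 * A < tdist x z) (hn : S.card ≤ nmax) :
    lam ^ 2 * S.card ≤ C * En (Jn L) (U0 ex ey p R P D j (tm T k) c) 1 fun y => tr lam (h y) := by
  refine hcap _ S _ lam (VV_cov (s := tm T k) (c := c) hG hG.ok.pos) (fun z hz => ?_) hsep hn
    (fun y => ⟨tr_nonneg hl.le _, tr_le _ _⟩) (fun z hz => tr_of_ge (hS z hz).1)
    (le_trans (Nat.mul_le_mul_left _ (card_le_card fun y hy => ?_)) top)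
  · obtain ⟨h1, h2, h3, h4⟩ := hS z hz
    have h5 := h4 z (by simp [tdist_self])
    have h6 : z ∉ U 1 := not_mem_U' h5.1 hG.ok.pos h5.2
    refine ⟨h2, fun e => ?_, U0_card hG h6 h3, h4⟩
    have := hR z ((mem_U0.1 e).resolve_left (not_not.2 (hG.leaf z h6 z (by simp [tdist_self]))))
    linarith
  · exact mem_filter.2 ⟨mem_univ _, not_le.1 fun e => (mem_filter.1 hy).2 (tr_of_le hl.le e)⟩

variable (ex ey p R E Bd P) in
/-- good sweeps (no source). -/
def Gd0 (D j i : ℕ) : Prop := i ∉ Bd ∧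
  ∀ a < E, ∀ x, Leaf ex ey p R D (P.a 0) j (4 * P.η 0) x → ∀ y, tdist x y.1 ≤ 4 * P.η 0 →
    ¬Ch ex ey p R (tm T (i * E + a)) y

variable (ex ey p R E Bd P) in
/-- good sweeps that do not reach the time `s0`. -/
def Gd (s0 : Fin T) (D j i : ℕ) : Prop :=
  Gd0 ex ey p R E Bd P D j i ∧ ∀ a < E, tm T (i * E + a) + 1 ≠ s0

section sweep
variable {D i : ℕ} {z : Tor 3 L × Fin n}

/-- a slot off `U0` stays green during a good sweep. -/
theorem green (hg : Gd0 ex ey p R E Bd P D j i)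
    (hz : z.1 ∉ U0 ex ey p R P D j (tm T (i * E)) z.2) {a : ℕ} (ha : a < E) :
    (tm T (i * E + a), z) ∉ R := by
  obtain ⟨hL, h0⟩ := not_or.1 (mt mem_U0.2 hz)
  induction a with
  | zero => exact h0
  | succ a ih =>
    intro h
    refine hg.2 a (by omega) z.1 (not_not.1 hL) z (by simp [tdist_self])
      (Or.inl fun e => ih (by omega) (e.2 ?_))
    rwa [← tm_succ]

/-- and sees at most the free rates. -/
theorem rate_le (hE : Env ex ey p p0 b b0 R Z) (hp0 : ∀ s, 0 ≤ p0 s) (hη : 1 ≤ P.η 0)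
    (hg : Gd0 ex ey p R E Bd P D j i) (hz : z.1 ∉ U0 ex ey p R P D j (tm T (i * E)) z.2)
    (hZ : z.1 ∉ Z) {a : ℕ} (ha : a < E) :
    (if z = ex (tm T (i * E + a)) ∨ z = ey (tm T (i * E + a)) then p (tm T (i * E + a)) else 0) ≤
      tch ex ey p0 z (i * E + a) := by
  unfold tch
  have g1 := green hg hz ha
  have g2 := hg.2 a ha z.1 (not_not.1 (not_or.1 (mt mem_U0.2 hz)).1)
  generalize tm T (i * E + a) = s at g1 g2
  split_ifs with e
  swap; · exact le_rfl
  by_cases e0 : p s = 0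
  · rw [e0]; exact hp0 s
  have n1 := hE.nn s e0
  have k1 : (s, ex s) ∉ R := fun h => by
    rcases e with rfl | rfl
    · exact g1 h
    · exact g2 (ex s) (by rw [tdist_comm]; omega)
        (Or.inr ⟨Or.inl rfl, h, e0, by rwa [Equiv.swap_apply_left]⟩)
  have k2 : (s, ey s) ∉ R := fun h => by
    rcases e with rfl | rfl
    · exact g2 (ey s) (by omega) (Or.inr ⟨Or.inr rfl, h, e0, by rwa [Equiv.swap_apply_right]⟩)
    · exact g1 h
  rcases hE.free s k1 k2 with h | h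
  · exact h.le
  · rcases e with rfl | rfl
    exacts [absurd h.1 hZ, absurd h.2 hZ]

/-- freezing of a slot during a good sweep, for any `g` with the step bound. -/
theorem frz (hE : Env ex ey p p0 b b0 R Z) (hC : Clock ex ey p0 b0 E w B q κ Bd) (hη : 1 ≤ P.η 0)
    (hi : i < B * w) (hg : Gd0 ex ey p R E Bd P D j i)
    (hz : z.1 ∉ U0 ex ey p R P D j (tm T (i * E)) z.2) {θ : ℝ} (hθ : 0 ≤ θ)
    (hs : ∀ a < E, |g (tm T (i * E + a) + 1, z) - b (tm T (i * E + a), z) * g (tm T (i * E + a), z)| ≤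
      (if z = ex (tm T (i * E + a)) ∨ z = ey (tm T (i * E + a)) then p (tm T (i * E + a)) else 0) * θ)
    {a : ℕ} (ha : a < E) : |b (tm T (i * E + a), z) * g (tm T (i * E + a), z) -
      b (tm T (i * E), z) * g (tm T (i * E), z)| ≤ κ * q * θ := by
  have t0 : ∀ k, 0 ≤ tch ex ey p0 z k := fun k => by
    unfold tch; split_ifs; exacts [(hC.hp0 _).1, le_rfl]
  refine le_trans ?_ (mul_le_mul_of_nonneg_right ((sum_le_sum_of_subset_of_nonneg
    (range_mono ha.le) fun _ _ _ => t0 _).trans (hC.rate i hi hg.1 z)) hθ)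
  by_cases hZ : z.1 ∈ Z
  · simp only [hE.bZ (_, z) hZ, zero_mul, sub_self, abs_zero]
    exact mul_nonneg (sum_nonneg fun _ _ => t0 _) hθ
  induction a with
  | zero => simp
  | succ a ih =>
    have h2 : b (tm T (i * E + (a + 1)), z) = 1 := by
      rw [hE.bf _ (green hg hz ha) hZ]; exact hC.one i hi hg.1 _ ha
    rw [h2, one_mul, ← add_assoc, tm_succ, sum_range_succ, add_mul]
    exact (abs_sub_le _ _ _).trans ((add_comm _ _).trans_le (add_le_add (ih (by omega))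
      ((hs a (by omega)).trans (mul_le_mul_of_nonneg_right
        (rate_le hE (fun s => (hC.hp0 s).1) hη hg hz hZ (by omega)) hθ))))

/-- energy of the slice at the start of a good sweep, for any function `φ` that is constant on `Z`
and moves by at most `δ z` at the slots off `U0`. -/
theorem sweep (hE : Env ex ey p p0 b b0 R Z) (hC : Clock ex ey p0 b0 E w B q κ Bd)
    (hp : ∀ s, 0 ≤ p s ∧ p s ≤ 1) (hi : i < B * w) (hg : Gd0 ex ey p R E Bd P D j i)
    (φ : Fin T × (Tor 3 L × Fin n) → ℝ) (δ : Tor 3 L × Fin n → ℝ)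
    (hZ : ∀ x ∈ Z, ∀ y ∈ Z, ∀ c, φ (tm T (i * E), (x, c)) = φ (tm T (i * E), (y, c)))
    (fz : ∀ z : Tor 3 L × Fin n, z.1 ∉ U0 ex ey p R P D j (tm T (i * E)) z.2 → ∀ a < E,
      |φ (tm T (i * E + a), z) - φ (tm T (i * E), z)| ≤ δ z)
    (F : Fin T → ℝ) (hF : ∀ s, F s = p s * (1 - p s) * (φ (s, ex s) - φ (s, ey s)) ^ 2) :
    q * ∑ c, En (Jn L) (U0 ex ey p R P D j (tm T (i * E)) c) 1 (fun y => φ (tm T (i * E), (y, c))) ≤
      8 * ∑ a ∈ range E, F (tm T (i * E + a)) + 48 * q * ∑ z, δ z ^ 2 := by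
  classical
  obtain ⟨a, inj, ha⟩ := hC.edge i hi hg.1
  have F0 : ∀ s, 0 ≤ F s := fun s => by
    rw [hF]; exact mul_nonneg (mul_nonneg (hp s).1 (sub_nonneg.2 (hp s).2)) (sq_nonneg _)
  have J0 : ∀ x y, 0 ≤ Jn L x y := torJ_nonneg (Asy.coup_nn 3)
  have hq := hC.hq
  have h1 : ∑ c, ∑ x, ∑ y, (if Jn L x y ≠ 0 then F (tm T (i * E + a (x, y, c))) else 0) ≤
      2 * ∑ a ∈ range E, F (tm T (i * E + a)) := by
    rw [sum_comm, sum_congr rfl fun _ _ => sum_comm, mul_sum]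
    refine le_trans (le_of_eq ?_) ((sum_fiberwise_of_maps_to (s := univ.filter
      fun e : Tor 3 L × Tor 3 L × Fin n => Jn L e.1 e.2.1 ≠ 0) (t := range E) (g := a)
      (fun e he => mem_range.2 (ha _ _ _ (mem_filter.1 he).2).1)
      fun e => F (tm T (i * E + a e))).ge.trans (sum_le_sum fun k _ => ?_))
    · simp only [sum_filter, Fintype.sum_prod_type]
    · rw [sum_congr rfl fun e he => by rw [(mem_filter.1 he).2], sum_const, filter_filter, nsmul_eq_mul]
      exact mul_le_mul_of_nonneg_right (by exact_mod_cast inj k) (F0 _)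
  have h2 : ∑ c : Fin n, ∑ x, ∑ y, Jn L x y * δ (x, c) ^ 2 ≤ 6 * ∑ z, δ z ^ 2 := by
    rw [Fintype.sum_prod_type_right, mul_sum]
    refine sum_le_sum fun c _ => ?_
    rw [mul_sum]
    exact sum_le_sum fun x _ => by
      rw [← sum_mul]; exact mul_le_mul_of_nonneg_right (sum_Jn x) (sq_nonneg _)
  have h3 : ∑ c : Fin n, ∑ x, ∑ y, Jn L x y * δ (y, c) ^ 2 ≤ 6 * ∑ z, δ z ^ 2 :=
    le_trans (le_of_eq (sum_congr rfl fun c _ => sum_comm.trans (sum_congr rfl fun x _ =>
      sum_congr rfl fun y _ => by rw [Jn, torJ_symm (Asy.coup_nn 3)]))) h2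
  have h4 : 0 ≤ 4 * q := by positivity
  refine le_trans ?_ ((add_le_add (mul_le_mul_of_nonneg_left h1 (show (0 : ℝ) ≤ 4 by norm_num))
    (add_le_add (mul_le_mul_of_nonneg_left h2 h4) (mul_le_mul_of_nonneg_left h3 h4))).trans_eq (by ring))
  simp only [En, mul_sum, ← sum_add_distrib]
  refine sum_le_sum fun c _ => sum_le_sum fun x _ => sum_le_sum fun y _ => ?_
  have j0 := J0 x y
  by_cases hJ : Jn L x y = 0
  · simp [hJ]
  rw [if_pos hJ]
  have f0 := F0 (tm T (i * E + a (x, y, c)))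
  split_ifs with hxy
  swap; · rw [mul_zero]; positivity
  obtain ⟨a1, a2, a4⟩ := ha x y c hJ
  have x1 := green (z := (x, c)) hg hxy.1 a1
  have y1 := green (z := (y, c)) hg hxy.2 a1
  have x3 := abs_le.1 (fz (x, c) hxy.1 _ a1)
  have y3 := abs_le.1 (fz (y, c) hxy.2 _ a1)
  simp only [Pi.one_apply, max_self, div_one]
  generalize tm T (i * E + a (x, y, c)) = s at *
  have a3 : (p s = p0 s ∨ (x ∈ Z ∧ y ∈ Z)) ∧
      (φ (s, ex s) - φ (s, ey s)) ^ 2 = (φ (s, x, c) - φ (s, y, c)) ^ 2 := by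
    have := hE.free s
    rcases a2 with ⟨a2, a3⟩ | ⟨a2, a3⟩ <;> rw [a2, a3] at this ⊢
    exacts [⟨this x1 y1, rfl⟩, ⟨(this y1 x1).imp_right And.symm, by ring⟩]
  rcases a3.1 with h | h
  · have p1 := (hC.hp0 s).2
    rw [hF, a3.2, h, a4, ← mul_assoc q]
    rw [a4] at p1
    generalize φ (s, x, c) = s1, φ (s, y, c) = s2, φ (tm T (i * E), x, c) = t1,
      φ (tm T (i * E), y, c) = t2, δ (x, c) = d1, δ (y, c) = d2 at x3 y3 ⊢
    have e1 : (t1 - t2 - (s1 - s2)) ^ 2 ≤ (d1 + d2) ^ 2 := sq_le_sq' (by linarith) (by linarith)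
    have e2 : (t1 - t2) ^ 2 ≤ 2 * (s1 - s2) ^ 2 + 4 * d1 ^ 2 + 4 * d2 ^ 2 := by
      nlinarith [sq_nonneg (t1 - t2 - 2 * (s1 - s2)), sq_nonneg (d1 - d2)]
    have e3 := mul_le_mul_of_nonneg_left e2 (mul_nonneg hq.le j0)
    have e4 := mul_nonneg (mul_nonneg (mul_nonneg hq.le j0) (sq_nonneg (s1 - s2))) (sub_nonneg.2 p1)
    nlinarith
  · rw [hZ x h.1 y h.2, sub_self, zero_pow two_ne_zero, mul_zero, mul_zero]
    positivity

end sweep

open Classical in
/-- half of the sweeps of a window are good. -/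
theorem good (s0 : Fin T) (hT : T = B * w * E) (hw : 2 * (Bd.card + L ^ 3 * j + 1) ≤ w) {i0 : ℕ}
    (hi : i0 < B) : w ≤ 2 * (((range (B * w)).filter (Gd ex ey p R E Bd P s0 (w * E) j)).filter
      fun i => i0 = i / w).card := by
  have hE : 0 < E := Nat.pos_of_ne_zero fun e => NeZero.ne T (by simp [hT, e])
  have h1 := card_biUnion_le_card_mul
    (univ.filter fun x => Leaf ex ey p R (w * E) (P.a 0) j (4 * P.η 0) x) _ j
    fun x hx => (card_image_le (f := (· / E))).trans ((mem_filter.1 hx).2.chg i0)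
  have h2 := (card_filter_le univ fun x => Leaf ex ey p R (w * E) (P.a 0) j (4 * P.η 0) x).trans_eq
    card_Tor
  have h3 := (card_le_card (s := Ico (i0 * w) ((i0 + 1) * w)) ?_).trans ((card_union_le _ _).trans
    (add_le_add ((card_union_le _ _).trans (add_le_add (card_union_le
      (((range (B * w)).filter (Gd ex ey p R E Bd P s0 (w * E) j)).filter fun i => i0 = i / w) Bd)
        (card_singleton ((s0 - 1).val / E)).le)) (h1.trans (Nat.mul_le_mul_right _ h2))))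
  · rw [Nat.card_Ico, add_mul, one_mul, Nat.add_sub_cancel_left] at h3
    omega
  intro i hi'
  obtain ⟨i1, i2⟩ := mem_Ico.1 hi'
  have i3 : i < B * w := i2.trans_le (Nat.mul_le_mul_right _ hi)
  have i4 : ∀ a < E, i * E + a < (i + 1) * E ∧ (i * E + a) / E = i := fun a ha =>
    ⟨by rw [add_mul]; omega, by rw [mul_comm, Nat.mul_add_div hE, Nat.div_eq_of_lt ha, add_zero]⟩
  by_contra hn
  simp only [mem_union, not_or, mem_filter, mem_range, mem_singleton, mem_biUnion, mem_univ, true_and,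
    mem_image, mem_Ico] at hn
  obtain ⟨⟨⟨n1, n2⟩, n3⟩, n4⟩ := hn
  refine n1 ⟨⟨i3, ⟨n2, fun a ha x hx y hy hc => n4 ⟨x, hx, i * E + a,
    ⟨⟨?_, ?_⟩, y, hy, hc⟩, (i4 a ha).2⟩⟩, fun a ha e => n3 ?_⟩, (Nat.div_eq_of_lt_le i1 i2).symm⟩
  · rw [← mul_assoc]; exact (Nat.mul_le_mul_right _ i1).trans (Nat.le_add_right _ _)
  · rw [← mul_assoc]; exact (i4 a ha).1.trans_le (Nat.mul_le_mul_right _ i2)
  · rw [← e, add_sub_cancel_right, tm_val_of_lt, (i4 a ha).2]
    exact (i4 a ha).1.trans_le (hT ▸ Nat.mul_le_mul_right _ i3)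

open Classical in
/-- the same without source. -/
theorem good0 (hT : T = B * w * E) (hw : 2 * (Bd.card + L ^ 3 * j + 1) ≤ w) {i0 : ℕ}
    (hi : i0 < B) : w ≤ 2 * (((range (B * w)).filter (Gd0 ex ey p R E Bd P (w * E) j)).filter
      fun i => i0 = i / w).card :=
  (good 0 hT hw hi).trans (Nat.mul_le_mul_left _ (card_le_card (filter_subset_filter _
    (monotone_filter_right _ fun _ _ h => h.1))))

end Ex
open Ex

open Classical in
theorem expo (G : Grn ex ey p b u Y g) (hE : Env ex ey p p0 b b0 R Z)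
    (hC : Clock ex ey p0 b0 E w B q κ Bd) (hG : Geom ex ey p R P U (w * E) j A)
    (hw : 2 * (Bd.card + L ^ 3 * j + 1) ≤ w) {x : Tor 3 L} {d nmax vol N : ℕ} {M : ℝ}
    (M0 : 0 ≤ M) (hcap : CapH P U x d A nmax vol M) {μ lam : ℝ} (hμ : 0 ≤ μ)
    (top : ∀ lam, μ < lam → ∀ s (c : Fin n), 4 * (univ.filter fun y =>
      lam < b (s, (y, c)) * g (s, (y, c))).card ≤ vol)
    (W : ℕ → ℕ) (z : ℕ → ℕ → Tor 3 L × Fin n) (hN : 1 ≤ N)
    (hz : ∀ ι < N, ∀ s ∈ Ico (W ι * w) ((W ι + 1) * w),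
      2 * lam ≤ b (tm T (s * E), z ι s) * g (tm T (s * E), z ι s) ∧ tdist x (z ι s).1 ≤ d ∧
      Exp R A (s * E) (z ι s).1 ∧ Near P U (z ι s).1 1 A)
    (hsep : ∀ ι < N, ∀ ι' < N, ι ≠ ι' → W ι % B = W ι' % B →
      ∀ s ∈ Ico (W ι * w) ((W ι + 1) * w), ∀ s' ∈ Ico (W ι' * w) ((W ι' + 1) * w),
        tdist x (z ι s).1 + 2 * A < tdist x (z ι' s').1 ∨
          tdist x (z ι' s').1 + 2 * A < tdist x (z ι s).1)
    (hn : ∀ i, ((range N).filter fun ι => W ι % B = i).card ≤ nmax) :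
    lam ≤ μ + 16 * κ * M / N + 6 * κ ^ 3 * (q ^ 2 * (1 / (1 - Y)) ^ 2 * L ^ 3 * n * B) := by
  have hκ := hC.hκ
  have hq := hC.hq
  have hN' : (0 : ℝ) < N := by exact_mod_cast hN
  generalize he : q ^ 2 * (1 / (1 - Y)) ^ 2 * L ^ 3 * n * B = e
  have e0 : 0 ≤ e := by rw [← he]; positivity
  rcases le_or_gt lam μ with hl | hl
  · rw [add_assoc]; exact hl.trans (le_add_of_nonneg_right (by positivity))
  have l0 := hμ.trans_lt hl
  have hT := hC.hT
  have hB : 0 < B := Nat.pos_of_ne_zero fun e => NeZero.ne T (by simp [hT, e])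
  have w0 : 0 < w := by omega
  have hη : 1 ≤ P.η 0 := by have := tS_le hG.ok; have := one_le_tS; omega
  obtain ⟨F, hF⟩ : ∃ F : Fin T → ℝ, ∀ s, F s = p s * (1 - p s) *
    (tr lam (b (s, ex s) * g (s, ex s)) - tr lam (b (s, ey s) * g (s, ey s))) ^ 2 := ⟨_, fun _ => rfl⟩
  have key : ∀ i ∈ (range (B * w)).filter (Gd ex ey p R E Bd P u.1 (w * E) j),
      q * lam ^ 2 * ((range N).filter fun ι => W ι % B = i / w).card ≤ M *
        (8 * ∑ a ∈ range E, F (tm T (i * E + a)) +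
          48 * q * ∑ _z : Tor 3 L × Fin n, (κ * q * (1 / (1 - Y))) ^ 2) := fun i hi => by
    obtain ⟨i1, i2⟩ := mem_filter.1 hi
    refine le_trans ?_ (mul_le_mul_of_nonneg_left (sweep hE hC G.hp (mem_range.1 i1) i2.1
      (fun v => tr lam (b v * g v)) _ (fun x hx y hy c => by
        simp only [hE.bZ (_, x, c) hx, hE.bZ (_, y, c) hy, zero_mul])
      (fun z hz a ha => (tr_lip _ _ _).trans (frz hE hC hη (mem_range.1 i1) i2.1 hz
        (one_div_nonneg.2 (sub_nonneg.2 G.hY.2.le))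
        (fun a ha => G.step_abs _ z fun e => i2.2 a ha (congrArg Prod.fst e)) ha)) F hF) M0)
    have mem : ∀ ι, W ι * w + i % w ∈ Ico (W ι * w) ((W ι + 1) * w) := fun ι =>
      mem_Ico.2 ⟨Nat.le_add_right _ _, by rw [add_mul, one_mul]; have := Nat.mod_lt i w0; omega⟩
    have tme : ∀ ι, W ι % B = i / w → tm T ((W ι * w + i % w) * E) = tm T (i * E) := fun ι h => by
      have : (W ι * w + i % w) * E = i * E + T * (W ι / B) := by
        conv_lhs => rw [← Nat.mod_add_div (W ι) B, h]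
        conv_rhs => rw [← Nat.div_add_mod i w, hT]
        ring
      exact Fin.ext (by rw [tm_val, tm_val, this, Nat.add_mul_mod_self_left])
    have sep := fun ι (h : ι ∈ (range N).filter fun ι => W ι % B = i / w) ι'
      (h' : ι' ∈ (range N).filter fun ι => W ι % B = i / w) ne => hsep ι
        (mem_range.1 (mem_filter.1 h).1) ι' (mem_range.1 (mem_filter.1 h').1) ne
        ((mem_filter.1 h).2.trans (mem_filter.1 h').2.symm) _ (mem ι) _ (mem ι')
    have inj : ∀ ι ∈ (range N).filter fun ι => W ι % B = i / w,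
        ∀ ι' ∈ (range N).filter fun ι => W ι % B = i / w,
          tdist x (z ι (W ι * w + i % w)).1 = tdist x (z ι' (W ι' * w + i % w)).1 → ι = ι' :=
      fun ι h ι' h' e => by_contra fun ne => by have := sep ι h ι' h' ne; omega
    rw [card_eq_sum_card_fiberwise (f := fun ι => (z ι (W ι * w + i % w)).2) (t := univ) (by simp),
      mul_left_comm M, mul_assoc, Nat.cast_sum, mul_sum _ _ (lam ^ 2), mul_sum _ _ M]
    refine mul_le_mul_of_nonneg_left (sum_le_sum fun c _ => ?_) hq.le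
    rw [← card_image_of_injOn (f := fun ι => (z ι (W ι * w + i % w)).1) fun ι h ι' h' e =>
      inj ι (mem_filter.1 h).1 ι' (mem_filter.1 h').1 (congrArg _ e)]
    refine stat hG hcap l0 (fun y hy => by rw [hE.bR _ hy, zero_mul]) (top lam hl _ c)
      (fun y hy => ?_) (fun y hy y' hy' e => ?_)
      (card_image_le.trans ((card_filter_le _ _).trans (hn _)))
    · obtain ⟨ι, h, rfl⟩ := mem_image.1 hy
      obtain ⟨h0, rfl⟩ := mem_filter.1 h
      have := hz ι (mem_range.1 (mem_filter.1 h0).1) _ (mem ι)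
      unfold Exp at this ⊢
      rwa [tme ι (mem_filter.1 h0).2] at this
    · obtain ⟨ι, h, rfl⟩ := mem_image.1 hy
      obtain ⟨ι', h', rfl⟩ := mem_image.1 hy'
      exact sep ι (mem_filter.1 h).1 ι' (mem_filter.1 h').1 fun e' => e (by rw [e'])
  have h1 : N * w ≤ 2 * ∑ i ∈ (range (B * w)).filter (Gd ex ey p R E Bd P u.1 (w * E) j),
      ((range N).filter fun ι => W ι % B = i / w).card := by
    simp only [card_filter]
    rw [sum_comm, mul_sum]
    simp only [← card_filter]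
    simpa using card_nsmul_le_sum (range N) _ w fun ι _ => good u.1 hT hw (Nat.mod_lt (W ι) hB)
  have h2 : ∑ i ∈ range (B * w), ∑ a ∈ range E, F (tm T (i * E + a)) ≤ lam := by
    rw [← sum_range_mul fun k => F (tm T k), ← hT, ← sum_tm, funext hF]
    exact G.energy l0.le
  have h3 := (sum_le_sum key).trans (sum_le_sum_of_subset_of_nonneg (filter_subset _ _)
    fun i _ _ => mul_nonneg M0 (add_nonneg (mul_nonneg (by norm_num) (sum_nonneg fun _ _ => by
      rw [hF]; exact mul_nonneg (mul_nonneg (G.hp _).1 (sub_nonneg.2 (G.hp _).2)) (sq_nonneg _)))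
      (by positivity)))
  rw [← mul_sum, ← mul_sum, sum_add_distrib, ← mul_sum, sum_const, card_range, ← Nat.cast_sum,
    nsmul_eq_mul] at h3
  have h4 : q * lam ^ 2 * (N * w) ≤ 2 * (M * (8 * lam + 48 * (w * q) * κ ^ 2 * e)) := by
    have h1 := (Nat.cast_le (α := ℝ)).2 h1
    rw [Nat.cast_mul, Nat.cast_mul, Nat.cast_ofNat] at h1
    refine (mul_le_mul_of_nonneg_left h1 (by positivity)).trans ?_
    rw [mul_left_comm]
    refine mul_le_mul_of_nonneg_left (h3.trans (mul_le_mul_of_nonneg_left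
      (add_le_add (by linarith) (le_of_eq ?_)) M0)) zero_le_two
    rw [← he, sum_const, card_univ, Fintype.card_prod, card_Tor, Fintype.card_fin, nsmul_eq_mul]
    push_cast; ring
  obtain ⟨w1, w2⟩ := hC.wq
  have h5 : lam ^ 2 ≤ 16 * κ * M / N * (lam + 6 * κ ^ 3 * e) := by
    rw [div_mul_eq_mul_div, le_div_iff₀ hN']
    calc _ ≤ κ * (w * q) * (lam ^ 2 * N) := le_mul_of_one_le_left (by positivity) w1
      _ = κ * (q * lam ^ 2 * (N * w)) := by ring
      _ ≤ κ * (2 * (M * (8 * lam + 48 * κ * κ ^ 2 * e))) :=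
        mul_le_mul_of_nonneg_left (h4.trans (by gcongr)) (by positivity)
      _ = _ := by ring
  have h7 : 0 ≤ κ ^ 3 * e := by positivity
  have h8 : 0 ≤ 16 * κ * M / N := by positivity
  generalize 16 * κ * M / N = a at h5 h8 ⊢
  have : lam ≤ a + 6 * κ ^ 3 * e := le_of_not_gt fun h => by nlinarith
  linarith

end Crest.Agent.N337.G1
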