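import Crest.Agent.N337.G1.Tube
import Crest.Agent.N337.G1.Expo

/-!
# Row 337, G1 (helper9): the static capacity bound `CapH` from a clean ball or from a tube
-/

set_option autoImplicit false

namespace Crest.Agent.N337.G1

open Finset Crest.MathPhysics.SpinModel Geo Free

variable {L : ℕ} [NeZero L] {P : Scales} {U : ℕ → Finset (Tor 3 L)} {x : Tor 3 L}
  {d nmax vol : ℕ} {C : ℝ}

open Classical in
/-- the capacity bound after the filling. -/
def Cap0 (P : Scales) (U : ℕ → Finset (Tor 3 L)) (x : Tor 3 L) (d nmax vol : ℕ) (C : ℝ) : Prop :=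
  ∀ (V : ℕ → Finset (Tor 3 L)) (Good S : Finset (Tor 3 L)) (w φ ψ : Tor 3 L → ℝ) (lam : ℝ),
    (∀ m, 1 ≤ m → Fm P V m = Fm P U m) → (∀ m < P.mt, CovIn P V m) →
    (∀ y ∉ Good, ∃ m < P.mt, y ∈ Fm P V m) → (∀ y, 1 ≤ w y) →
    (∀ y ∉ U P.mt, w y = 1 ∨ ∃ m < P.mt, y ∈ Fm P V m ∧ w y ≤ P.K m) →
    0 ≤ lam → (∀ y, φ y ≤ lam) → (∀ y ∈ Good, φ y ≤ ψ y) → (∀ z ∈ S, φ z = lam ∧ tdist x z ≤ d) →
    (∀ z ∈ S, ∀ z' ∈ S, tdist x z = tdist x z' → z = z') → S.card ≤ nmax →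
    4 * (univ.filter fun y => ψ y ≠ 0).card ≤ vol → lam ^ 2 * S.card ≤ C * En (Jn L) ∅ w φ

theorem capH_of (hP : P.Ok L) (hc : ∀ m, 1 ≤ m → m < P.mt → CovIn P U m) {Ar : ℕ}
    (hA : 11 * P.ρ 0 + 6 ≤ Ar ∧ Ar ≤ P.η 0) (C0 : 0 ≤ C) (h : Cap0 P U x (d + Ar) nmax vol C) :
    CapH P U x d Ar nmax vol (16 * Ar + 2 * C) := by
  classical
  intro U0 A ψ lam hc0 hz hsep hn h0 h1 hv
  obtain ⟨V, V0, V1, hc0⟩ : ∃ V : ℕ → Finset (Tor 3 L), V 0 = U0 ∧ (∀ m, 1 ≤ m → V m = U m) ∧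
      CovIn P V 0 := ⟨_, Function.update_self _ _ _,
    fun m hm => Function.update_of_ne (by omega) _ _, hc0⟩
  have F1 : ∀ m, 1 ≤ m → Fm P V m = Fm P U m := fun m hm => by
    ext y; rw [mem_Fm, mem_Fm, V1 m hm, V1 _ (by omega)]
  have hc' : ∀ m < P.mt, CovIn P V m := fun m hm => by
    rcases m.eq_zero_or_pos with rfl | m0
    · exact hc0
    · have := hc m m0 hm
      unfold CovIn at this ⊢
      rwa [V1 m m0, V1 _ (by omega)]
  obtain ⟨Vr, Good, w, hV, hSt, hG, hw⟩ := fill' hP hc'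
  rw [V0] at hSt hG
  rw [V1 _ hP.pos] at hV
  have hL := hP.ηL 0 hP.pos
  choose! e t ht e0 eU eJ eρ using fun z (h : z ∈ A) =>
    ray (ρ := P.ρ 0) (hz z h).2.1 (hz z h).2.2.1 hA.1 (by omega)
  have rad : ∀ z ∈ A, ∀ i ≤ Ar, tdist x (e z i) ≤ tdist x z + Ar ∧
      tdist x z ≤ tdist x (e z i) + Ar := fun z h i hi => by
    have := (eU z h i hi).2
    have := tdist_triangle x z (e z i)
    have := tdist_triangle x (e z i) z
    rw [tdist_comm (e z i)] at this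
    omega
  have inj : ∀ z ∈ A, ∀ z' ∈ A, ∀ i ≤ Ar, ∀ i' ≤ Ar, tdist x (e z i) = tdist x (e z' i') → z = z' :=
    fun z h z' h' i hi i' hi' k => by_contra fun ne => by
      have := hsep z h z' h' ne
      have := rad z h i hi
      have := rad z' h' i' hi'
      omega
  have gd : ∀ z ∈ A, e z (t z) ∈ Good := fun z h => by_contra fun k => by
    rcases hG _ k with ⟨m, m0, m1, hm⟩ | ⟨v, v0, -, k, -⟩
    · exact ((hz z h).2.2.2 _ ((eU z h _ (ht z h)).2.trans_le (ht z h))).2 m m0 m1 (F1 m m0 ▸ hm)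
    · exact (eρ z h v v0).not_ge k
  have hl : 0 ≤ lam := (h0 0).1.trans (h0 0).2
  have E0 := En_nonneg U0 (w := 1) (fun _ => le_rfl) ψ
  have a1 := (card_nsmul_le_sum (A.filter fun z => ψ (e z (t z)) < 3 / 4 * lam) _ ((lam / 4) ^ 2)
    fun z h => by
      obtain ⟨h, k⟩ := mem_filter.1 h
      rw [e0 z h, h1 z h]
      exact pow_le_pow_left₀ (by positivity) (by linarith) 2).trans (rays (U0 := U0) ψ e t
    (fun z h => ht z (mem_filter.1 h).1) (fun z h i hi => (eU z (mem_filter.1 h).1 i hi).1)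
    (fun z h => eJ z (mem_filter.1 h).1) fun z h z' h' i hi i' hi' k => by
      obtain rfl := inj z (mem_filter.1 h).1 z' (mem_filter.1 h').1 i hi i' hi' (congrArg _ k)
      exact ⟨rfl, by rw [← (eU z (mem_filter.1 h).1 i hi).2, k, (eU z (mem_filter.1 h).1 i' hi').2]⟩)
  obtain ⟨φ0, -, p1, p2, -⟩ := hSt.2 (fun y => min (ψ y) (3 / 4 * lam))
    fun y => le_min (h0 y).1 (by positivity)
  have p3 := ((En_min Vr hSt.1 φ0 (3 / 4 * lam)).trans p2).trans (En_min U0 (w := 1) (fun _ => le_rfl) ψ _)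
  have a3 := card_filter_add_card_filter_not (s := A) fun z => ψ (e z (t z)) < 3 / 4 * lam
  refine le_of_forall_pos_le_add fun ε hε => ?_
  obtain ⟨w', w1, w2, w3⟩ := wall Vr hSt.1 (fun y => min (φ0 y) (3 / 4 * lam))
    (show 0 < ε / (2 * C + 1) by positivity)
  have a2 := h V Good ((A.filter fun z => ¬ψ (e z (t z)) < 3 / 4 * lam).image fun z => e z (t z)) w'
    (fun y => min (φ0 y) (3 / 4 * lam)) ψ (3 / 4 * lam) F1 hc' (fun y hy => ?_) w1
    (fun y hy => by rw [w2 y fun k => hy (hV k)]; exact hw y) (by positivity)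
    (fun y => min_le_right _ _) (fun y hy => (min_le_left _ _).trans ((p1 y hy).trans_le
      (min_le_left _ _))) (fun y hy => ?_) (fun y hy y' hy' k => ?_)
    (card_image_le.trans ((card_filter_le _ _).trans hn)) hv
  · rw [card_image_of_injOn fun z h z' h' k => inj z (mem_filter.1 h).1 z' (mem_filter.1 h').1 _
      (ht z (mem_filter.1 h).1) _ (ht z' (mem_filter.1 h').1) (congrArg _ k)] at a2
    have a4 := a2.trans (mul_le_mul_of_nonneg_left (w3.trans (add_le_add_left p3 _)) C0)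
    have a5 : 2 * C * (ε / (2 * C + 1)) ≤ ε := by
      rw [← mul_div_assoc, div_le_iff₀ (by positivity)]; nlinarith
    rw [← a3, Nat.cast_add]
    rw [nsmul_eq_mul] at a1
    have := Nat.cast_nonneg (α := ℝ) (A.filter fun z => ¬ψ (e z (t z)) < 3 / 4 * lam).card
    nlinarith [mul_nonneg (sq_nonneg lam) this]
  · rcases hG y hy with ⟨m, -, m1, hm⟩ | ⟨v, v0, v1, k, -⟩
    exacts [⟨m, m1, hm⟩, ⟨0, hP.pos, mem_Fm.2 ⟨v, V0 ▸ v0, v1, k⟩⟩]
  · obtain ⟨z, h, rfl⟩ := mem_image.1 hy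
    obtain ⟨h, k⟩ := mem_filter.1 h
    refine ⟨by rw [p1 _ (gd z h), min_eq_right (not_lt.1 k), min_self], ?_⟩
    have := (rad z h _ (ht z h)).1
    have := (hz z h).1
    omega
  · obtain ⟨z, h, rfl⟩ := mem_image.1 hy
    obtain ⟨z', h', rfl⟩ := mem_image.1 hy'
    rw [inj z (mem_filter.1 h).1 z' (mem_filter.1 h').1 _ (ht z (mem_filter.1 h).1) _
      (ht z' (mem_filter.1 h').1) k]

open Classical in
theorem top_half (hP : P.Ok L) {V : ℕ → Finset (Tor 3 L)} (hc : ∀ m < P.mt, CovIn P V m)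
    {Good : Finset (Tor 3 L)} (hG : ∀ y ∉ Good, ∃ m < P.mt, y ∈ Fm P V m) {ψ : Tor 3 L → ℝ}
    {z : Tor 3 L} {r : ℕ} (hf : ∀ m < P.mt, P.η m ≤ r ∨ ∀ y ∈ Fm P V m, y ∉ bl z r)
    (top : 4 * (univ.filter fun y => ψ y ≠ 0).card ≤ (2 * r + 1) ^ 3) :
    (2 * ((bl z r).filter fun y => y ∉ Good ∨ ψ y ≠ 0).card : ℝ) ≤ (2 * (r : ℝ) + 1) ^ 3 := by
  have h1 := Ex.fm_sum hP hc z r (range P.mt) fun m hm => ⟨mem_range.1 hm, hf m (mem_range.1 hm)⟩
  have h2 : (((bl z r).filter fun y => y ∉ Good ∨ ψ y ≠ 0).card : ℝ) ≤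
      (∑ m ∈ range P.mt, (Fm P V m ∩ bl z r).card : ℕ) + (univ.filter fun y => ψ y ≠ 0).card := by
    refine Nat.cast_add (R := ℝ) _ _ ▸ Nat.cast_le.2 (le_trans (card_le_card fun y hy => ?_)
      ((card_union_le _ _).trans (Nat.add_le_add_right card_biUnion_le _)))
    obtain ⟨y1, y2⟩ := mem_filter.1 hy
    simp only [mem_union, mem_biUnion, mem_range, mem_inter, mem_filter, mem_univ, true_and]
    exact y2.imp_left fun y2 => (hG y y2).imp fun m hm => ⟨hm.1, hm.2, y1⟩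
  have h3 : ((∑ m ∈ range P.mt, (Fm P V m ∩ bl z r).card : ℕ) : ℝ) ≤
      (2 * (r : ℝ) + 1) ^ 3 / 4 := by
    push_cast
    exact (sum_le_sum fun m _ => le_mul_of_one_le_left (Nat.cast_nonneg _) (one_le_K P m)).trans h1
  have h4 := (Nat.cast_le (α := ℝ)).2 top
  push_cast at h4
  linarith

theorem cap0_clean (hP : P.Ok L) {m1 K : ℕ} (hm1 : 1 ≤ m1) (hcl : Clean P U x m1 d)
    (hw : ∀ y ∈ U P.mt, d + (2 ^ K - 1) < tdist x y) (hK : 2 * (2 ^ K - 1) < L)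
    (hKη : ∀ m < m1, P.η m ≤ 2 ^ K - 1) : Cap0 P U x d nmax ((2 * (2 ^ K - 1) + 1) ^ 3)
      (3 * 10 ^ 6 * P.K (m1 - 1) * (1 + (Nat.log 2 nmax : ℝ)) ^ 2) := by
  classical
  intro V Good S w φ ψ lam F1 hc hG w1 hwt hl p1 p2 hS hsep hn top
  have h3 := one_le_K P
  have far : ∀ z ∈ S, ∀ r m, m1 ≤ m → m < P.mt → P.η m ≤ r ∨ ∀ y ∈ Fm P V m, y ∉ bl z r :=
    fun z hz r m h1 h2 => by rw [F1 m (by omega)]; exact Ex.far hP hcl (hS z hz).2 r h1 h2
  have E0 := En_nonneg ∅ w1 φ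
  have h2 := cap0 w1 φ hK x hsep hn (W := 2 * P.K (m1 - 1)) fun z hz r hr => ?_
  · have h4 := (card_nsmul_le_sum S _ (lam / 2) fun z hz => ?_).trans h2
    · rw [nsmul_eq_mul] at h4
      refine (fin_alg (b := 0) (W := 2 * P.K (m1 - 1)) (Nat.cast_nonneg _) le_rfl hl
        (by linarith [h3 (m1 - 1)]) E0 (h4.trans (le_add_of_nonneg_right (by simp)))).trans
        (mul_le_mul_of_nonneg_right ?_ E0)
      nlinarith [mul_nonneg (zero_le_one.trans (h3 (m1 - 1))) (sq_nonneg (1 + (Nat.log 2 nmax : ℝ)))]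
    have := av_le hl p1 p2 (top_half hP hc hG (z := z) (fun m hm => (lt_or_ge m m1).elim
      (fun h => Or.inl (hKη m h)) fun h => far z hz _ m h hm) top)
    exact le_trans (by linarith [(hS z hz).1]) (le_abs_self _)
  have h1 := Ex.fm_sum hP hc z r (Ico m1 P.mt) fun m hm =>
    ⟨(mem_Ico.1 hm).2, far z hz r m (mem_Ico.1 hm).1 (mem_Ico.1 hm).2⟩
  have h2 := card_bl z r
  have h4 : ∑ y ∈ bl z r, w y ≤ ∑ y ∈ bl z r,
      (P.K (m1 - 1) + ∑ m ∈ Ico m1 P.mt, P.K m * if y ∈ Fm P V m then 1 else 0) := by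
    refine sum_le_sum fun y hy => ?_
    have nn : ∀ m ∈ Ico m1 P.mt, 0 ≤ P.K m * if y ∈ Fm P V m then (1 : ℝ) else 0 := fun m _ =>
      mul_nonneg (zero_le_one.trans (h3 m)) (by split_ifs <;> norm_num)
    have := sum_nonneg nn
    rcases hwt y (fun k => by
      have := hw y k
      have := mem_bl.1 hy
      have := (hS z hz).2
      have := tdist_triangle x z y
      omega) with e | ⟨m, m0, hm, e⟩
    · linarith [h3 (m1 - 1)]
    · rcases lt_or_ge m m1 with m2 | m2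
      · linarith [K_mono P (show m ≤ m1 - 1 by omega)]
      · have := single_le_sum nn (mem_Ico.2 ⟨m2, m0⟩)
        rw [if_pos hm] at this
        linarith [h3 (m1 - 1)]
  rw [sum_add_distrib, sum_comm, sum_const, nsmul_eq_mul] at h4
  simp only [← mul_sum, sum_boole, filter_mem_eq_inter, inter_comm (bl z r)] at h4
  push_cast at h2
  have h5 : (0 : ℝ) ≤ (2 * (r : ℝ) + 1) ^ 3 := by positivity
  nlinarith [h3 (m1 - 1)]

theorem cap0_tube (hP : P.Ok L) {N : ℕ} {z c : ℕ → Tor 3 L} {s r μ : ℕ → ℕ} {τ : ℝ}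
    (H : Tube P U x d N z c s r μ τ) : Cap0 P U x d nmax ((2 * s N + 1) ^ 3)
      (10 ^ 9 * (P.K (μ 0 - 1) * (1 + (Nat.log 2 nmax : ℝ)) ^ 2 + nmax * τ ^ 2)) := by
  classical
  intro V Good S w φ ψ lam F1 hc hG w1 hwt hl p1 p2 hS hsep hn top
  have h3 := one_le_K P
  have N1 := H.pos
  have E0 := En_nonneg ∅ w1 φ
  have hW : ∀ i < N, ∀ y ∈ bl (c i) (r i), w y ≤ P.K (μ i - 1) := fun i hi y hy => by
    obtain ⟨k1, k2⟩ := (H.miss i hi).2 y (mem_bl.1 hy)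
    rcases hwt y k1 with e | ⟨m, m0, hm, e⟩
    · exact e.trans_le (h3 _)
    · refine e.trans (K_mono P (Nat.le_sub_one_of_lt (not_le.1 fun k => k2 m k m0 ?_)))
      rwa [← F1 m ((H.miss i hi).1.trans k)]
  obtain ⟨k, hk⟩ := H.s0
  have d0 := H.d0
  have L0 := H.hL 0 N1
  have h2 := cap0 w1 φ (K := k) (by omega) x hsep hn (W := P.K (μ 0 - 1)) fun y hy ρ hρ => by
    refine (sum_le_card_nsmul _ _ _ fun y' hy' => hW 0 N1 y' (mem_bl.2 ?_)).trans ?_
    · have := tdist_triangle x y y'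
      have := mem_bl.1 hy'
      have := (hS y hy).2
      rw [H.c0]; omega
    · rw [card_bl_eq y (by omega), nsmul_eq_mul]; push_cast; linarith
  have aN : av φ (z N) (s N) ≤ lam / 2 := by
    obtain ⟨M, rfl⟩ : ∃ M, N = M + 1 := ⟨N - 1, by omega⟩
    refine av_le hl p1 p2 (top_half hP hc hG (fun m hm => (lt_or_ge m (μ M)).imp (H.top m)
      fun h y hy hy' => ((H.miss M (by omega)).2 y ?_).2 m h hm ?_) top)
    · have := tdist_triangle (c M) (z (M + 1)) y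
      have := mem_bl.1 hy'
      have := (H.sub M (by omega)).2
      omega
    · rwa [← F1 m ((H.miss M (by omega)).1.trans h)]
  have h4 : ∀ y ∈ S, lam / 2 ≤ |φ y - av φ y (2 ^ k - 1)| + 11000 * τ * √(En (Jn L) ∅ w φ) := by
    intro y hy
    have t1 := dist_le_range_sum_of_dist_le (f := fun i => av φ (if i = 0 then y else z i) (s i)) N
      (d := fun i => 11000 * √(P.K (μ i - 1) / (2 * (r i : ℝ) + 1)) * √(En (Jn L) ∅ w φ))
      fun {i} hi => by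
        rw [Real.dist_eq, if_neg i.succ_ne_zero]
        refine tstep w1 φ (H.hL i hi) ?_ (H.sub i hi).2 (H.ratio i hi).1 (H.ratio i hi).2 (hW i hi)
        split_ifs with e
        · subst e
          have := (hS y hy).2
          rw [H.c0]; omega
        · exact (H.sub i hi).1
    rw [Real.dist_eq, if_pos rfl, if_neg (by omega), ← sum_mul, ← mul_sum, hk] at t1
    have t2 := (le_abs_self _).trans (t1.trans (mul_le_mul_of_nonneg_right
      (mul_le_mul_of_nonneg_left H.cost (by norm_num)) (Real.sqrt_nonneg _)))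
    linarith [le_abs_self (φ y - av φ y (2 ^ k - 1)), (hS y hy).1]
  have h5 := card_nsmul_le_sum S _ _ h4
  rw [sum_add_distrib, sum_const, nsmul_eq_mul, nsmul_eq_mul] at h5
  refine (fin_alg (N := nmax) (Nat.cast_nonneg _) (by exact_mod_cast hn) hl
    (zero_le_one.trans (h3 _)) E0 (h5.trans (add_le_add_left h2 _))).trans
    (mul_le_mul_of_nonneg_right ?_ E0)
  nlinarith [mul_nonneg (zero_le_one.trans (h3 (μ 0 - 1))) (sq_nonneg (1 + (Nat.log 2 nmax : ℝ))),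
    mul_nonneg (Nat.cast_nonneg (α := ℝ) nmax) (sq_nonneg τ)]

/-- **capacity at a clean point**. -/
theorem capH_clean (hP : P.Ok L) (hc : ∀ m, 1 ≤ m → m < P.mt → CovIn P U m) {Ar m1 K : ℕ}
    (hA : 11 * P.ρ 0 + 6 ≤ Ar ∧ Ar ≤ P.η 0) (hm1 : 1 ≤ m1) (hcl : Clean P U x m1 (d + Ar))
    (hw : ∀ y ∈ U P.mt, d + Ar + (2 ^ K - 1) < tdist x y) (hK : 2 * (2 ^ K - 1) < L)
    (hKη : ∀ m < m1, P.η m ≤ 2 ^ K - 1) : CapH P U x d Ar nmax ((2 * (2 ^ K - 1) + 1) ^ 3)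
      (16 * Ar + 2 * (3 * 10 ^ 6 * P.K (m1 - 1) * (1 + (Nat.log 2 nmax : ℝ)) ^ 2)) :=
  capH_of hP hc hA (by have := one_le_K P (m1 - 1); positivity) (cap0_clean hP hm1 hcl hw hK hKη)

/-- **capacity along a tube**. -/
theorem capH_tube (hP : P.Ok L) (hc : ∀ m, 1 ≤ m → m < P.mt → CovIn P U m) {Ar N : ℕ}
    (hA : 11 * P.ρ 0 + 6 ≤ Ar ∧ Ar ≤ P.η 0) {z c : ℕ → Tor 3 L} {s r μ : ℕ → ℕ} {τ : ℝ}
    (H : Tube P U x (d + Ar) N z c s r μ τ) : CapH P U x d Ar nmax ((2 * s N + 1) ^ 3) (16 * Ar +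
      2 * (10 ^ 9 * (P.K (μ 0 - 1) * (1 + (Nat.log 2 nmax : ℝ)) ^ 2 + nmax * τ ^ 2))) :=
  capH_of hP hc hA (by have := one_le_K P (μ 0 - 1); positivity) (cap0_tube hP H)

end Crest.Agent.N337.G1
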