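import Crest.Agent.N337.G1.Fill
import Crest.Agent.N337.G1.Core

/-!
# Row 337, G1: a chain that crosses a region is exposed (leaf G1-Cross)

`radial`: induction on `m`.  Step `m+1 → m`: by `Fm_cov` the set `Fm (m+1)` near `c i` lies in `a`
balls, each has radial spread `≤ 2(σ+ρ)`; of the `a+1` blocks `[β, β + 2 η m]`,
`β = ι (2(σ+ρ) + 2 η m + 1)`, one is free; take `i2 ∈ [i, i']` with radius `β + η m` (discrete
intermediate values).
`cross`: `D = w E`, `W0 = (u.1.val + i) / D`; `i1` = least index `≥ i` at distance `≥ r0` or with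
time `≥ (W0+l+1) D`.  (A) some `i' ∈ [i,i1)` has no red point within `A` during the double window
that starts at its window `W'`: the slot `c i'` is not in `Z` (`h > 0`), sees only free steps
(`Env.nn`, `Env.free`), `Grn.step_ge` and `exp (-2x) ≤ 1 - x` give the bound on window `W'+1`.
(B) otherwise inside one window the radial function from any index takes `≤ j (2A+1)` values
(`Leaf.shd`), so the chain moves `< j (2A+1)` per window, stays within `(l+1) j (2A+1)`, `i1` is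
given by the time, and in the window given by `Leaf3` (from `W0+1`) the chain itself is exposed.
-/

set_option autoImplicit false
set_option linter.unusedSectionVars false

namespace Crest.Agent.N337.G1

open Finset Crest.MathPhysics.SpinModel Geo Free KV

/-- discrete intermediate values. -/
theorem ivt {f : ℕ → ℕ} {i i' t : ℕ} (hi : i ≤ i')
    (hs : ∀ k, i ≤ k → k < i' → f (k + 1) ≤ f k + 1 ∧ f k ≤ f (k + 1) + 1)
    (h : (f i ≤ t ∧ t ≤ f i') ∨ (f i' ≤ t ∧ t ≤ f i)) : ∃ k, i ≤ k ∧ k ≤ i' ∧ f k = t := by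
  induction i', hi using Nat.le_induction with
  | base => exact ⟨i, le_rfl, le_rfl, by omega⟩
  | succ k hk ih =>
    by_cases h' : (f i ≤ t ∧ t ≤ f k) ∨ (f k ≤ t ∧ t ≤ f i)
    · obtain ⟨k', h1, h2, h3⟩ := ih (fun a ha hb => hs a ha (by omega)) h'
      exact ⟨k', h1, by omega, h3⟩
    · have := hs k hk (by omega)
      exact ⟨k + 1, by omega, le_rfl, by omega⟩

variable {L : ℕ} [NeZero L]

/-- every radius is attained. -/
theorem Cr.rad {c : ℕ → Tor 3 L} {i i' t : ℕ} (hi : i ≤ i')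
    (hs : ∀ k, i ≤ k → k < i' → tdist (c k) (c (k + 1)) ≤ 1) (ht : t ≤ tdist (c i) (c i')) :
    ∃ k, i ≤ k ∧ k ≤ i' ∧ tdist (c i) (c k) = t := by
  refine ivt (f := fun k => tdist (c i) (c k)) hi (fun k h1 h2 => ?_)
    (Or.inl ⟨by simp only [tdist_self]; omega, ht⟩)
  have a1 := tdist_triangle (c i) (c k) (c (k + 1))
  have a2 := tdist_triangle (c i) (c (k + 1)) (c k)
  have a3 := hs k h1 h2
  rw [tdist_comm (c (k + 1))] at a2
  exact ⟨by omega, by omega⟩

/-- pigeonhole for well separated values. -/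
theorem Cr.pig {α : Type} {F : Finset α} {a M : ℕ} (hF : F.card ≤ a) (V : α → ℕ → Prop)
    (h1 : ∀ ι ≤ a, ∃ f ∈ F, V f (ι * M)) (h2 : ∀ f t t', V f t → V f t' → t' < t + M) : False := by
  have : Nonempty α := ⟨(h1 0 (Nat.zero_le _)).choose⟩
  choose! φ hφ hV using h1
  have key : ∀ ι ≤ a, ∀ ι' ≤ a, φ ι = φ ι' → ι' ≤ ι := fun ι h ι' h' e => by
    have := h2 _ _ _ (hV ι h) (e ▸ hV ι' h')
    rw [← Nat.succ_mul] at this
    exact Nat.le_of_lt_succ (Nat.lt_of_mul_lt_mul_right this)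
  have := card_le_card_of_injOn (s := range (a + 1)) (t := F) φ
    (fun ι h => hφ ι (Nat.le_of_lt_succ (mem_range.1 h))) fun ι h ι' h' e =>
      le_antisymm (key _ (Nat.le_of_lt_succ (mem_range.1 h')) _ (Nat.le_of_lt_succ (mem_range.1 h))
        e.symm) (key _ (Nat.le_of_lt_succ (mem_range.1 h)) _ (Nat.le_of_lt_succ (mem_range.1 h')) e)
  rw [card_range] at this
  omega

theorem radial {P : Scales} {U : ℕ → Finset (Tor 3 L)} (hP : P.Ok L)
    (hc : ∀ m, 1 ≤ m → m < P.mt → CovIn P U m) {c : ℕ → Tor 3 L} {N : ℕ}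
    (hs : ∀ i < N, tdist (c i) (c (i + 1)) ≤ 1) {m : ℕ} (hm : m < P.mt) {i i' : ℕ} (hi : i ≤ i')
    (hi' : i' ≤ N) (hd : P.η m ≤ tdist (c i) (c i'))
    (hf : ∀ y, tdist (c i) y ≤ P.η m → ∀ l, m < l → l < P.mt → y ∉ Fm P U l) :
    ∃ i2, i ≤ i2 ∧ i2 ≤ i' ∧ P.η 0 ≤ tdist (c i2) (c i') ∧ ∀ y, tdist (c i2) y ≤ P.η 0 →
      tdist (c i) y ≤ P.η m ∧ ∀ l, 0 < l → l < P.mt → y ∉ Fm P U l := by
  induction m generalizing i with
  | zero => exact ⟨i, le_rfl, hi, hd, fun y hy => ⟨hy, hf y hy⟩⟩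
  | succ m ih =>
    obtain ⟨F, hF, hcov⟩ := Fm_cov' hP hm (hc _ (by omega) hm) (c i)
    have hg := hP.grow m hm
    set s := P.σ (m + 1) + P.ρ (m + 1)
    obtain ⟨ι, hι, hfree⟩ : ∃ ι ≤ P.a (m + 1), ∀ f ∈ F, ∀ x, tdist f x ≤ s →
        ι * (2 * s + 2 * P.η m + 1) ≤ tdist (c i) x →
        ι * (2 * s + 2 * P.η m + 1) + 2 * P.η m < tdist (c i) x := by
      by_contra! hcon
      refine Cr.pig hF (fun f t => ∃ x, tdist f x ≤ s ∧ t ≤ tdist (c i) x ∧
        tdist (c i) x ≤ t + 2 * P.η m) hcon ?_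
      rintro f t t' ⟨x, a1, -, a2⟩ ⟨x', b1, b2, -⟩
      have c1 := tdist_triangle (c i) x x'
      have c2 := tdist_triangle x f x'
      rw [tdist_comm x f] at c2
      omega
    have hβ := Nat.mul_le_mul_right (2 * s + 2 * P.η m + 1) (Nat.succ_le_succ hι)
    rw [Nat.succ_mul] at hβ
    set β := ι * (2 * s + 2 * P.η m + 1)
    have hβ' : β + 2 * P.η m ≤ P.η (m + 1) := by
      have : (P.a (m + 1)).succ = P.a (m + 1) + 1 := rfl
      rw [this] at hβ
      omega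
    obtain ⟨k, k1, k2, k3⟩ := Cr.rad (t := β + P.η m) hi (fun k _ h => hs k (by omega)) (by omega)
    have t1 := tdist_triangle (c i) (c k) (c i')
    obtain ⟨i2, j1, j2, j3, j4⟩ := ih (by omega) k2 (by omega) fun y hy l l1 l2 => by
      have t2 := tdist_triangle (c i) (c k) y
      have t3 := tdist_triangle (c i) y (c k)
      rw [tdist_comm y] at t3
      rcases Nat.lt_or_ge (m + 1) l with h | h
      · exact hf y (by omega) l h l2
      · obtain rfl : l = m + 1 := by omega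
        intro hx
        obtain ⟨f, f1, f2⟩ := hcov y hx (by omega)
        have := hfree f f1 y f2 (by omega)
        omega
    refine ⟨i2, k1.trans j1, j2, j3, fun y hy => ⟨?_, (j4 y hy).2⟩⟩
    have := tdist_triangle (c i) (c k) y
    have := (j4 y hy).1
    omega

variable {n T : ℕ} [NeZero T] {ex ey : Fin T → Tor 3 L × Fin n} {p p0 b0 : Fin T → ℝ}
  {b g : Fin T × (Tor 3 L × Fin n) → ℝ} {u v : Fin T × (Tor 3 L × Fin n)} {Y m κ : ℝ}
  {R : Finset (Fin T × (Tor 3 L × Fin n))} {Z : Finset (Tor 3 L)} {N E w : ℕ}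
  {c : ℕ → Tor 3 L × Fin n}

theorem Env.step_le (hE : Env ex ey p p0 b b0 R Z) {s : Fin T} {x y : Tor 3 L × Fin n}
    (h : y = x ∨ (p s ≠ 0 ∧ y = Equiv.swap (ex s) (ey s) x)) : tdist x.1 y.1 ≤ 1 := by
  rcases h with e | ⟨hp, e⟩
  · rw [e, tdist_self]
    omega
  · have := hE.nn _ hp
    rw [e, Equiv.swap_apply_def]
    split_ifs with h1 h2
    · rwa [h1]
    · rwa [h2, tdist_comm]
    · rw [tdist_self]
      omega

theorem Chain.nn {h : Fin T × (Tor 3 L × Fin n) → ℝ} (C : Chain ex ey p h u v m N c)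
    (hE : Env ex ey p p0 b b0 R Z) {i : ℕ} (hi : i < N) : tdist (c i).1 (c (i + 1)).1 ≤ 1 :=
  hE.step_le (C.step i hi)

theorem Cr.tch_bd (hp0 : ∀ s, 0 ≤ p0 s ∧ p0 s ≤ 1 / 2) (z : Tor 3 L × Fin n) (k : ℕ) :
    0 ≤ tch ex ey p0 z k ∧ tch ex ey p0 z k ≤ 1 / 2 := by
  unfold tch
  split_ifs
  exacts [hp0 _, ⟨le_rfl, by norm_num⟩]

theorem Cr.exp_le {x : ℝ} (h0 : 0 ≤ x) (h1 : x ≤ 1 / 2) : Real.exp (-(2 * x)) ≤ 1 - x := by
  have h := Real.add_one_le_exp (2 * x)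
  rw [Real.exp_neg, inv_le_comm₀ (Real.exp_pos _) (by linarith)]
  refine le_trans ?_ h
  rw [inv_le_iff_one_le_mul₀ (by linarith)]
  nlinarith

/-- a slot that is far from the red points keeps its mass during a double window. -/
theorem Cr.stat (G : Grn ex ey p b u Y g) (hE : Env ex ey p p0 b b0 R Z)
    (hP : Pers ex ey p0 b0 E w κ) (hp0 : ∀ s, 0 ≤ p0 s ∧ p0 s ≤ 1 / 2) (hm : 0 < m)
    {z : Tor 3 L × Fin n} {W k0 k : ℕ} (h0 : W * (w * E) ≤ k0) (h1 : k0 ≤ k)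
    (h2 : k < (W + 2) * (w * E)) (hz : m ≤ b (tm T k0, z) * g (tm T k0, z))
    (hR : ∀ k ∈ Ico (W * (w * E)) ((W + 2) * (w * E)), ∀ y, (tm T k, y) ∈ R → 1 < tdist z.1 y.1) :
    m * Real.exp (-(2 * κ)) / 4 ≤ b (tm T k, z) * g (tm T k, z) := by
  have hZ : z.1 ∉ Z := fun h => by
    rw [hE.bZ (tm T k0, z) h, zero_mul] at hz
    linarith
  have key : m * Real.exp (-(2 * ∑ a ∈ Ico k0 k, tch ex ey p0 z a)) *
      ∏ a ∈ Ico (k0 + 1) (k + 1), b0 (tm T a) ≤ b (tm T k, z) * g (tm T k, z) := by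
    induction k, h1 using Nat.le_induction with
    | base => simpa using hz
    | succ k hk ih =>
      have i1 := ih (by omega)
      have hb : b (tm T (k + 1), z) = b0 (tm T (k + 1)) := hE.bf _ (fun h => by
        have := hR (k + 1) (mem_Ico.2 ⟨by omega, h2⟩) z h
        rw [tdist_self] at this
        omega) hZ
      have hs := G.step_ge (tm T k) z
      have ht := Cr.tch_bd (ex := ex) (ey := ey) hp0 z k
      have hp : (if z = ex (tm T k) ∨ z = ey (tm T k) then p (tm T k) else 0) ≤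
          tch ex ey p0 z k := by
        unfold tch
        split_ifs with h
        · by_cases e : p (tm T k) = 0
          · rw [e]
            exact (hp0 _).1
          have hn := hE.nn _ e
          have hr := hR k (mem_Ico.2 ⟨by omega, by omega⟩)
          have a1 : tdist z.1 (ex (tm T k)).1 ≤ 1 ∧ tdist z.1 (ey (tm T k)).1 ≤ 1 := by
            rcases h with rfl | rfl
            · exact ⟨by rw [tdist_self]; omega, hn⟩
            · exact ⟨by rwa [tdist_comm], by rw [tdist_self]; omega⟩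
          rcases hE.free _ (fun h => (hr _ h).not_ge a1.1) (fun h => (hr _ h).not_ge a1.2) with
            e | e
          · exact e.le
          · rcases h with rfl | rfl
            exacts [absurd e.1 hZ, absurd e.2 hZ]
        · exact le_rfl
      have hh : 0 ≤ b (tm T k, z) * g (tm T k, z) := mul_nonneg (G.hb _).1 (G.nn _)
      rw [sum_Ico_succ_top hk, prod_Ico_succ_top (by omega), hb, mul_add, neg_add, Real.exp_add,
        tm_succ]
      calc _ = b0 (tm T k + 1) * (Real.exp (-(2 * tch ex ey p0 z k)) *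
            (m * Real.exp (-(2 * ∑ a ∈ Ico k0 k, tch ex ey p0 z a)) *
              ∏ a ∈ Ico (k0 + 1) (k + 1), b0 (tm T a))) := by ring
        _ ≤ _ := mul_le_mul_of_nonneg_left (le_trans ((mul_le_mul_of_nonneg_left i1
            (Real.exp_pos _).le).trans (mul_le_mul_of_nonneg_right
              ((Cr.exp_le ht.1 ht.2).trans (by linarith)) hh)) hs) (hP.hb0 _).1
  refine le_trans ?_ key
  have a1 : ∑ a ∈ Ico k0 k, tch ex ey p0 z a ≤ κ := (sum_le_sum_of_subset_of_nonneg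
    (Ico_subset_Ico h0 h2.le) fun a _ _ => (Cr.tch_bd hp0 z a).1).trans (hP.rate W z)
  have a2 : 1 / 4 ≤ ∏ a ∈ Ico (k0 + 1) (k + 1), b0 (tm T a) := (hP.fug W).trans
    (prod_le_prod_of_subset_of_le_one (Ico_subset_Ico (by omega) h2) (fun a _ => (hP.hb0 _).1)
      fun a _ _ => (hP.hb0 _).2)
  rw [div_eq_mul_one_div]
  exact mul_le_mul (mul_le_mul_of_nonneg_left (Real.exp_le_exp.2 (by linarith)) hm.le) a2
    (by norm_num) (by positivity)

theorem Cr.win {W s : ℕ} (hD : 0 < w * E) (hs : s ∈ Ico (W * w) ((W + 1) * w)) :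
    W * (w * E) ≤ s * E ∧ s * E < (W + 1) * (w * E) := by
  rw [← mul_assoc, ← mul_assoc]
  exact ⟨Nat.mul_le_mul_right E (mem_Ico.1 hs).1,
    Nat.mul_lt_mul_of_pos_right (mem_Ico.1 hs).2 (Nat.pos_of_mul_pos_left hD)⟩

/-- the dichotomy behind `cross` (no Green function). -/
theorem cross0 (hE : Env ex ey p p0 b b0 R Z) (hD : 0 < w * E) {t0 : ℕ}
    (hs : ∀ i < N, c (i + 1) = c i ∨ (p (tm T (t0 + i)) ≠ 0 ∧
      c (i + 1) = Equiv.swap (ex (tm T (t0 + i))) (ey (tm T (t0 + i))) (c i)))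
    {i r0 r j l A r3 m0 : ℕ} (hi : i ≤ N) (hL : Leaf ex ey p R (w * E) m0 j r (c i).1)
    (h3 : Leaf3 R (w * E) l A r3 (c i).1) (hr : r0 + A ≤ r)
    (h1 : (l + 1) * (j * (2 * A + 1)) < r0) (h2 : (l + 1) * (j * (2 * A + 1)) + A ≤ r3)
    (H : (∃ i', i ≤ i' ∧ i' ≤ N ∧ r0 ≤ tdist (c i).1 (c i').1) ∨
      ((t0 + i) / (w * E) + l + 1) * (w * E) ≤ t0 + N) :
    (∃ i', i ≤ i' ∧ i' < N ∧ tdist (c i).1 (c i').1 ≤ r0 ∧
      (t0 + i') / (w * E) ≤ (t0 + i) / (w * E) + l ∧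
      ∀ k ∈ Ico ((t0 + i') / (w * E) * (w * E)) (((t0 + i') / (w * E) + 2) * (w * E)), ∀ y,
        (tm T k, y) ∈ R → A < tdist (c i').1 y.1) ∨
    ∃ W, (t0 + i) / (w * E) + 1 ≤ W ∧ W ≤ (t0 + i) / (w * E) + l ∧
      ∀ k ∈ Ico (W * (w * E)) ((W + 1) * (w * E)), ∃ i', i ≤ i' ∧ i' < N ∧ t0 + i' = k ∧
        tdist (c i).1 (c i').1 ≤ r0 ∧ Exp R A k (c i').1 := by
  classical
  set D := w * E with hDe
  rename' t0 => t
  have hnn : ∀ k < N, tdist (c k).1 (c (k + 1)).1 ≤ 1 := fun k hk => hE.step_le (hs k hk)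
  set M := j * (2 * A + 1) with hM
  have hex : ∃ k, i ≤ k ∧ k ≤ N ∧
      (r0 ≤ tdist (c i).1 (c k).1 ∨ ((t + i) / D + l + 1) * D ≤ t + k) := by
    rcases H with ⟨k, a1, a2, a3⟩ | h
    exacts [⟨k, a1, a2, Or.inl a3⟩, ⟨N, hi, le_rfl, Or.inr h⟩]
  obtain ⟨b1, b2, b3⟩ := Nat.find_spec hex
  set i1 := Nat.find hex
  have hmin : ∀ k, i ≤ k → k < i1 →
      tdist (c i).1 (c k).1 < r0 ∧ (t + k) / D ≤ (t + i) / D + l := fun k k1 k2 => by
    have := Nat.find_min hex k2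
    push Not at this
    obtain ⟨a1, a2⟩ := this k1 (by omega)
    exact ⟨a1, Nat.le_of_lt_succ ((Nat.div_lt_iff_lt_mul hD).2 a2)⟩
  have hlo : ∀ k, k / D * D ≤ k := fun k => Nat.div_mul_le_self k D
  have hhi : ∀ k, k < (k / D + 1) * D := fun k => (Nat.div_lt_iff_lt_mul hD).1 (Nat.lt_succ_self _)
  have hmo : ∀ a k, a ≤ k → (t + a) / D ≤ (t + k) / D := fun a k h =>
    Nat.div_le_div_right (by omega)
  by_cases hA' : ∃ k, i ≤ k ∧ k < i1 ∧ ∀ a ∈ Ico ((t + k) / D * D) (((t + k) / D + 2) * D), ∀ y,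
      (tm T a, y) ∈ R → A < tdist (c k).1 y.1
  · obtain ⟨k, k1, k2, hk⟩ := hA'
    exact Or.inl ⟨k, k1, by omega, (hmin k k1 k2).1.le, (hmin k k1 k2).2, hk⟩
  push Not at hA'
  have hB1 : ∀ a k, i ≤ a → a ≤ k → k < i1 → (t + a) / D = (t + k) / D →
      tdist (c a).1 (c k).1 < M := fun a k a1 a2 a3 e => by
    by_contra! hcon
    refine Cr.pig (M := 2 * A + 1) (hL.shd ((t + k) / D)) (fun y r => ∃ q,
      tdist (c a).1 (c q).1 = r ∧ tdist (c q).1 y.1 ≤ A) (fun ι hι => ?_) ?_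
    · obtain ⟨q, q1, q2, q3⟩ := Cr.rad (c := fun q => (c q).1) a2
        (fun q _ h => hnn q (by omega)) ((Nat.mul_le_mul_right (2 * A + 1) hι).trans hcon)
      obtain ⟨a', ha', y, hy, hd⟩ := hA' q (by omega) (by omega)
      have e' : (t + q) / D = (t + k) / D := le_antisymm (hmo _ _ q2) (e ▸ hmo _ _ q1)
      have d1 := tdist_triangle (c i).1 (c q).1 y.1
      have d2 := (hmin q (by omega) (by omega)).1
      refine ⟨y, ?_, q, q3, hd⟩
      simp only [mem_filter]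
      exact ⟨mem_univ _, by omega, a', e' ▸ ha', hy⟩
    · rintro y r r' ⟨q, rfl, q1⟩ ⟨q', rfl, q2⟩
      have d1 := tdist_triangle (c a).1 (c q).1 (c q').1
      have d2 := tdist_triangle (c q).1 y.1 (c q').1
      rw [tdist_comm y.1] at d2
      omega
  have hB2 : ∀ k, i ≤ k → k < i1 → ∃ q a, (t + k) / D = (t + i) / D + q ∧ i ≤ a ∧ a ≤ k ∧
      (t + a) / D = (t + k) / D ∧ tdist (c i).1 (c a).1 ≤ q * M := fun k k1 => by
    induction k, k1 using Nat.le_induction with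
    | base => exact fun _ => ⟨0, i, rfl, le_rfl, le_rfl, rfl, by rw [tdist_self]; omega⟩
    | succ k k1 ih =>
      intro k2
      obtain ⟨q, a, a1, a2, a3, a4, a5⟩ := ih (by omega)
      have e : (t + (k + 1)) / D = (t + k) / D + if D ∣ t + k + 1 then 1 else 0 := Nat.succ_div
      split_ifs at e
      · refine ⟨q + 1, k + 1, by omega, by omega, le_rfl, rfl, ?_⟩
        have d1 := tdist_triangle (c i).1 (c a).1 (c k).1
        have d2 := tdist_triangle (c i).1 (c k).1 (c (k + 1)).1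
        have d3 := hnn k (by omega)
        have d4 := hB1 a k a2 a3 (by omega) a4
        rw [Nat.succ_mul]
        omega
      · exact ⟨q, a, by omega, a2, by omega, by omega, a5⟩
  have hB3 : ∀ k, i ≤ k → k < i1 → tdist (c i).1 (c k).1 < (l + 1) * M := fun k k1 k2 => by
    obtain ⟨q, a, a1, a2, a3, a4, a5⟩ := hB2 k k1 k2
    have d1 := tdist_triangle (c i).1 (c a).1 (c k).1
    have d2 := hB1 a k a2 a3 k2 a4
    have d3 := (hmin k k1 k2).2
    have d4 := Nat.mul_le_mul_right M (show q ≤ l by omega)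
    rw [Nat.succ_mul]
    omega
  have hT : ((t + i) / D + l + 1) * D ≤ t + i1 := by
    refine b3.resolve_left (not_le.2 ?_)
    rcases b1.eq_or_lt with e | e
    · rw [← e, tdist_self]
      omega
    · obtain ⟨k, hk⟩ : ∃ k, i1 = k + 1 := ⟨i1 - 1, by omega⟩
      have d1 := hB3 k (by omega) (by omega)
      have d2 := tdist_triangle (c i).1 (c k).1 (c (k + 1)).1
      have d3 := hnn k (by omega)
      rw [hk]
      omega
  obtain ⟨W, hW, hN⟩ := h3 ((t + i) / D + 1)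
  obtain ⟨w1, w2⟩ := mem_Ico.1 hW
  refine Or.inr ⟨W, w1, by omega, fun k hk => ?_⟩
  obtain ⟨s1, s2⟩ := mem_Ico.1 hk
  have s3 := (hhi (t + i)).le.trans ((Nat.mul_le_mul_right D w1).trans s1)
  have s4 := s2.trans_le ((Nat.mul_le_mul_right D
    (show W + 1 ≤ (t + i) / D + l + 1 by omega)).trans hT)
  have d1 := hB3 (k - t) (by omega) (by omega)
  exact ⟨k - t, by omega, by omega, by omega, (d1.trans h1).le, hN _ hk _ (by omega)⟩

theorem exp_of_far {A k : ℕ} {z : Tor 3 L} (h : ∀ y, (tm T k, y) ∈ R → A < tdist z y.1) :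
    Exp R A k z := by
  unfold Exp
  rw [filter_eq_empty_iff.2 fun y hy ⟨c, hc⟩ => (h _ hc).not_ge (mem_bl.1 hy)]
  exact Nat.zero_le _

theorem cross (G : Grn ex ey p b u Y g) (hE : Env ex ey p p0 b b0 R Z)
    (hP : Pers ex ey p0 b0 E w κ) (hp0 : ∀ s, 0 ≤ p0 s ∧ p0 s ≤ 1 / 2) (hD : 0 < w * E)
    (C : Chain ex ey p (fun v => b v * g v) u v m N c) (hm : 0 < m) {i r0 r j l A r3 m0 : ℕ}
    (hi : i ≤ N) (hA : 1 ≤ A) (hL : Leaf ex ey p R (w * E) m0 j r (c i).1)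
    (h3 : Leaf3 R (w * E) l A r3 (c i).1) (hr : r0 + A ≤ r)
    (h1 : (l + 1) * (j * (2 * A + 1)) < r0) (h2 : (l + 1) * (j * (2 * A + 1)) + A ≤ r3)
    (H : (∃ i', i ≤ i' ∧ i' ≤ N ∧ r0 ≤ tdist (c i).1 (c i').1) ∨
      ((u.1.val + i) / (w * E) + l + 1) * (w * E) ≤ u.1.val + N) :
    ∃ (W : ℕ) (z : ℕ → Tor 3 L × Fin n), (u.1.val + i) / (w * E) + 1 ≤ W ∧
      W ≤ (u.1.val + i) / (w * E) + l + 1 ∧ ∀ s ∈ Ico (W * w) ((W + 1) * w),
        m * Real.exp (-(2 * κ)) / 4 ≤ b (tm T (s * E), z s) * g (tm T (s * E), z s) ∧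
        tdist (c i).1 (z s).1 ≤ r0 ∧ Exp R A (s * E) (z s).1 := by
  rcases cross0 hE hD C.step hi hL h3 hr h1 h2 H with ⟨k, k1, k2, k3, k4, hk⟩ | ⟨W, w1, w2, hW⟩
  · refine ⟨(u.1.val + k) / (w * E) + 1, fun _ => c k,
      Nat.succ_le_succ (Nat.div_le_div_right (by omega)), Nat.succ_le_succ k4, fun s hs => ?_⟩
    obtain ⟨s1, s2⟩ := Cr.win hD hs
    have s3 := ((Nat.div_lt_iff_lt_mul hD).1 (Nat.lt_succ_self _)).le.trans s1
    have s0 := Nat.div_mul_le_self (u.1.val + k) (w * E)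
    exact ⟨Cr.stat G hE hP hp0 hm s0 s3 s2 (C.lev k k2)
      fun a ha y hy => hA.trans_lt (hk a ha y hy), k3,
      exp_of_far fun y hy => hk _ (mem_Ico.2 ⟨s0.trans s3, s2⟩) y hy⟩
  · refine ⟨W, fun s => c (s * E - u.1.val), w1, by omega, fun s hs => ?_⟩
    obtain ⟨k, -, k2, k3, k4, k5⟩ := hW _ (mem_Ico.2 (Cr.win hD hs))
    have l1 := C.lev k k2
    have hκ : 0 ≤ κ := (sum_nonneg fun a _ => (Cr.tch_bd hp0 (c i) a).1).trans (hP.rate 0 _)
    have : Real.exp (-(2 * κ)) ≤ 1 := Real.exp_le_one_iff.2 (by linarith)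
    rw [k3] at l1
    simp only [show s * E - u.1.val = k by omega]
    exact ⟨le_trans (by nlinarith) l1, k4, k5⟩

end Crest.Agent.N337.G1
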