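import Crest.Agent.N337.G1.Defs

/-!
# Row 337, G1: averages over balls and the static capacity bound (leaf G1-Cube)

`cube`: pull `φ` back to `F a b c = φ (z + tcast L ![a,b,c])`; change the radius one coordinate at
a time: for fixed other coordinates `|avg_I f - avg_I' f| ≤ ∑_{t,t+1 ∈ I'} |f (t+1) - f t|`; the
outer average has at least `(2r+1)^2` terms; `1 ≤ Jn x (x + e_a)`.
`cap`: truncate the extension `φ` of `ψ` at `lam`; radii `r_k = 2^k - 1`; for `z ∈ A`,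
`lam / 2 ≤ φ z - av φ z r_K ≤ ∑_{k<K} 3/(2r_k+1)^2 ∑_{x,y ∈ bl z r_{k+1}} J |φ x - φ y|`.  Sum over
`z`; with `n x y = #{z ∈ A | x,y ∈ bl z r_{k+1}} ≤ min (2^(k+2)) nmax` (distinct radii),
Cauchy-Schwarz against `max (w x) (w y) ≤ w x + w y` gives `54 sqrt(min(..)/2^k) sqrt(|A| W En)`,
and `∑_k sqrt (min (2^(k+2)) nmax / 2^k) ≤ 6 (1 + log2 nmax)`.
-/

set_option autoImplicit false

namespace Crest.Agent.N337.G1

open Finset Crest.MathPhysics.SpinModel Geo Free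

variable {L : ℕ} [NeZero L]

omit [NeZero L] in
theorem Cu.Jn_nonneg (x y : Tor 3 L) : 0 ≤ Jn L x y := torJ_nonneg (Asy.coup_nn 3) x y

omit [NeZero L] in
theorem Cu.Jn_symm (x y : Tor 3 L) : Jn L x y = Jn L y x := torJ_symm (Asy.coup_nn 3) x y

open Cu

theorem sum_Jn (x : Tor 3 L) : ∑ y, Jn L x y ≤ 6 := by
  have h := sum_torJ_real (Asy.coup_nn 3) x fun _ => (1 : ℝ)
  simp only [mul_one] at h
  have e : sp (Asy.coup_nn 3) = Asy.units 3 := by
    ext z; simp [mem_sp, nnCoupling, Asy.mem_units]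
  rw [h, e, sum_congr rfl fun z hz => show nnCoupling 3 z = 1 from if_pos (Asy.mem_units.1 hz),
    Asy.sum_units fun _ => (1 : ℝ)]
  norm_num

theorem Jn_nn {x y : Tor 3 L} (h : Jn L x y ≠ 0) : tdist x y ≤ 1 := by
  refine range_le (Asy.coup_nn 3) (fun z hz i => ?_) h
  have h1 : ∑ a, |z a| = 1 := by
    by_contra h1
    exact hz (if_neg h1)
  have := single_le_sum (f := fun a => |z a|) (fun a _ => abs_nonneg _) (mem_univ i)
  rw [h1, abs_le] at this
  omega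

namespace Cu

/-- the interval -/
noncomputable def I (r : ℕ) : Finset ℤ := Icc (-(r : ℤ)) r

theorem mem_I {r : ℕ} {t : ℤ} : t ∈ I r ↔ -(r : ℤ) ≤ t ∧ t ≤ r := mem_Icc

theorem card_I (r : ℕ) : (I r).card = 2 * r + 1 := by
  rw [I, Int.card_Icc]; omega

theorem I_mono {r s : ℕ} (h : r ≤ s) : I r ⊆ I s := fun t ht => by
  rw [mem_I] at ht ⊢; omega

/-- the point with coordinates `a, b, c` -/
def pt (z : Tor 3 L) (a b c : ℤ) : Tor 3 L := z + tcast L ![a, b, c]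

theorem val_cast {r : ℕ} (h : 2 * r < L) {t : ℤ} (ht : t ∈ I r) : (t : ZMod L).valMinAbs = t := by
  rw [mem_I] at ht
  exact (ZMod.valMinAbs_spec _ _).2 ⟨rfl, by constructor <;> omega⟩

theorem pt_mem (z : Tor 3 L) {r : ℕ} (h : 2 * r < L) {a b c : ℤ} (ha : a ∈ I r) (hb : b ∈ I r)
    (hc : c ∈ I r) : pt z a b c ∈ bl z r := by
  rw [mem_bl, tdist_le_iff]
  have := val_cast h ha; have := val_cast h hb; have := val_cast h hc
  rw [mem_I] at ha hb hc
  intro i
  fin_cases i <;> simp [pt, tcast, *] <;> omega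

theorem sum_bl {M : Type} [AddCommMonoid M] (φ : Tor 3 L → M) (z : Tor 3 L) {r : ℕ}
    (h : 2 * r < L) :
    ∑ y ∈ bl z r, φ y = ∑ a ∈ I r, ∑ b ∈ I r, ∑ c ∈ I r, φ (pt z a b c) := by
  simp_rw [← sum_product']
  have e : ∀ y : Tor 3 L,
      pt z (y 0 - z 0).valMinAbs (y 1 - z 1).valMinAbs (y 2 - z 2).valMinAbs = y := fun y => by
    funext i; fin_cases i <;> simp [pt, tcast]
  refine sum_nbij' (fun y => ((y 0 - z 0).valMinAbs, (y 1 - z 1).valMinAbs, (y 2 - z 2).valMinAbs))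
    (fun u => pt z u.1 u.2.1 u.2.2) (fun y hy => ?_) (fun u hu => ?_) (fun y _ => e y)
    (fun u hu => ?_) fun y _ => by rw [e]
  · rw [mem_bl, tdist_le_iff] at hy
    have := hy 0; have := hy 1; have := hy 2
    simp only [mem_product, mem_I]
    omega
  · simp only [mem_product] at hu
    exact pt_mem z h hu.1 hu.2.1 hu.2.2
  · simp only [mem_product] at hu
    simp [pt, tcast, val_cast h hu.1, val_cast h hu.2.1, val_cast h hu.2.2]

omit [NeZero L] in
theorem one_le_J (x : Tor 3 L) {u : Fin 3 → ℤ} (hu : ∑ a, |u a| = 1) :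
    1 ≤ Jn L x (x + tcast L u) := by
  have h1 : nnCoupling 3 u = 1 := if_pos hu
  change 1 ≤ torJ _ L _ _
  rw [torJ_eq (Asy.coup_nn 3)]
  refine le_trans (le_of_eq ?_) (single_le_sum
    (f := fun z => if tcast L z = x + tcast L u - x then nnCoupling 3 z else 0) (fun z _ => ?_)
    ((mem_sp (Asy.coup_nn 3)).2 (show nnCoupling 3 u ≠ 0 by rw [h1]; exact one_ne_zero)))
  · simp [h1]
  · split_ifs
    exacts [(Asy.coup_nn 3).nonneg z, le_rfl]

/-- mean over the interval -/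
noncomputable def m (r : ℕ) (f : ℤ → ℝ) : ℝ := (∑ t ∈ I r, f t) / (2 * (r : ℝ) + 1)

theorem m_le {r : ℕ} {f : ℤ → ℝ} {M : ℝ} (h : ∀ t ∈ I r, f t ≤ M) : m r f ≤ M := by
  have := sum_le_card_nsmul _ _ _ h
  rw [card_I, nsmul_eq_mul] at this
  rw [m, div_le_iff₀ (by positivity)]
  push_cast at this
  linarith

theorem le_m {r : ℕ} {f : ℤ → ℝ} {M : ℝ} (h : ∀ t ∈ I r, M ≤ f t) : M ≤ m r f := by
  have := card_nsmul_le_sum _ _ _ h
  rw [card_I, nsmul_eq_mul] at this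
  rw [m, le_div_iff₀ (by positivity)]
  push_cast at this
  linarith

theorem osc {R : ℕ} {f g : ℤ → ℝ} (hg : ∀ t ∈ I R, 0 ≤ g t)
    (hf : ∀ t ∈ I R, t + 1 ∈ I R → |f (t + 1) - f t| ≤ g t) {s t : ℤ} (hs : s ∈ I R)
    (ht : t ∈ I R) : |f s - f t| ≤ ∑ u ∈ I R, g u := by
  wlog h : t ≤ s generalizing s t
  · rw [abs_sub_comm]; exact this ht hs (by omega)
  rw [mem_I] at hs ht
  have key : ∀ k : ℕ, t + k ≤ R → |f (t + k) - f t| ≤ ∑ j ∈ range k, g (t + j) := by
    intro k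
    induction k with
    | zero => simp
    | succ k ih =>
      intro hk
      push_cast at hk ⊢
      have h1 := hf (t + k) (by rw [mem_I]; omega) (by rw [mem_I]; omega)
      rw [sum_range_succ, ← add_assoc]
      have := abs_sub_le (f (t + k + 1)) (f (t + k)) (f t)
      linarith [ih (by omega)]
  obtain ⟨k, rfl⟩ : ∃ k : ℕ, s = t + k := ⟨(s - t).toNat, by omega⟩
  refine (key k hs.2).trans ?_
  rw [← sum_image (s := range k) (g := fun j : ℕ => t + (j : ℤ)) (f := g)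
    fun a _ b _ hab => by simpa using hab]
  refine sum_le_sum_of_subset_of_nonneg (fun u hu => ?_) fun u hu _ => hg u hu
  obtain ⟨j, hj, rfl⟩ := mem_image.1 hu
  rw [mem_range] at hj
  rw [mem_I]; omega

theorem line {r R : ℕ} (h : r ≤ R) {f g : ℤ → ℝ} (hg : ∀ t ∈ I R, 0 ≤ g t)
    (hf : ∀ t ∈ I R, t + 1 ∈ I R → |f (t + 1) - f t| ≤ g t) :
    |m r f - m R f| ≤ ∑ u ∈ I R, g u := by
  rw [abs_sub_le_iff, sub_le_iff_le_add, sub_le_iff_le_add]
  refine ⟨m_le fun s hs => ?_, m_le fun s hs => ?_⟩ <;> rw [← sub_le_iff_le_add'] <;>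
    refine le_m fun t ht => ?_
  · linarith [(abs_le.1 (osc hg hf (I_mono h hs) ht)).2]
  · linarith [(abs_le.1 (osc hg hf hs (I_mono h ht))).2]

theorem mean {r ρ R : ℕ} (h : r ≤ ρ) (h' : ρ ≤ R) {f f' g : ℤ → ℝ} (hg : ∀ t ∈ I R, 0 ≤ g t)
    (hf : ∀ t ∈ I R, |f t - f' t| ≤ g t) :
    |m ρ f - m ρ f'| ≤ (∑ u ∈ I R, g u) / (2 * (r : ℝ) + 1) := by
  have hr : (r : ℝ) ≤ ρ := by exact_mod_cast h
  rw [m, m, ← sub_div, ← sum_sub_distrib, abs_div, abs_of_pos (by positivity : 0 < 2 * (ρ : ℝ) + 1)]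
  refine div_le_div₀ (sum_nonneg hg) ((abs_sum_le_sum_abs _ _).trans
    ((sum_le_sum fun t ht => hf t (I_mono h' ht)).trans
      (sum_le_sum_of_subset_of_nonneg (I_mono h') fun u hu _ => hg u hu))) (by positivity)
    (by linarith)

theorem three {r R : ℕ} (h : r ≤ R) {F D : ℤ → ℤ → ℤ → ℝ} (hD : ∀ a b c, 0 ≤ D a b c)
    (h1 : ∀ a ∈ I R, ∀ b ∈ I R, ∀ c ∈ I R, a + 1 ∈ I R → |F (a + 1) b c - F a b c| ≤ D a b c)
    (h2 : ∀ a ∈ I R, ∀ b ∈ I R, ∀ c ∈ I R, b + 1 ∈ I R → |F a (b + 1) c - F a b c| ≤ D a b c)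
    (h3 : ∀ a ∈ I R, ∀ b ∈ I R, ∀ c ∈ I R, c + 1 ∈ I R → |F a b (c + 1) - F a b c| ≤ D a b c) :
    |m r (fun a => m r fun b => m r (F a b)) - m R (fun a => m R fun b => m R (F a b))| ≤
      3 / (2 * (r : ℝ) + 1) ^ 2 * ∑ a ∈ I R, ∑ b ∈ I R, ∑ c ∈ I R, D a b c := by
  have p : 0 < 2 * (r : ℝ) + 1 := by positivity
  have s1 : ∀ a b, 0 ≤ ∑ c ∈ I R, D a b c := fun a b => sum_nonneg fun c _ => hD a b c
  have e1 := mean (f := fun a => m r fun b => m r (F a b)) (f' := fun a => m r fun b => m R (F a b))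
    le_rfl h (fun a _ => div_nonneg (sum_nonneg fun b _ => s1 a b) p.le) fun a ha =>
    mean le_rfl h (fun b _ => s1 a b) fun b hb => line h (fun c _ => hD a b c) (h3 a ha b hb)
  have e2 := mean (f := fun a => m r fun b => m R (F a b)) (f' := fun a => m R fun b => m R (F a b))
    le_rfl h (fun a _ => sum_nonneg fun b _ => div_nonneg (s1 a b) p.le) fun a ha =>
    line h (fun b _ => div_nonneg (s1 a b) p.le) fun b hb hb' =>
      mean h le_rfl (fun c _ => hD a b c) fun c hc => h2 a ha b hb c hc hb'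
  have e3 := line (f := fun a => m R fun b => m R (F a b)) h
    (fun a _ => div_nonneg (sum_nonneg fun b _ => div_nonneg (s1 a b) p.le) p.le) fun a ha ha' =>
    mean h le_rfl (fun b _ => div_nonneg (s1 a b) p.le) fun b hb =>
      mean h le_rfl (fun c _ => hD a b c) fun c hc => h1 a ha b hb c hc ha'
  simp only [← sum_div] at e1 e2 e3
  refine (abs_sub_le _ _ _).trans ((add_le_add ((abs_sub_le _ _ _).trans (add_le_add e1 e2))
    e3).trans (le_of_eq ?_))
  field_simp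
  ring

theorem av_eq (φ : Tor 3 L → ℝ) (z : Tor 3 L) {r : ℕ} (h : 2 * r < L) :
    av φ z r = m r fun a => m r fun b => m r fun c => φ (pt z a b c) := by
  simp only [av, m, ← sum_div, sum_bl φ z h]
  field_simp

theorem geo (M K : ℕ) : ∑ k ∈ range K, (3 / 4 : ℝ) ^ (k - M) ≤ M + 4 := by
  refine (sum_le_sum_of_subset_of_nonneg (range_mono (Nat.le_add_left K M))
    fun _ _ _ => by positivity).trans ?_
  rw [sum_range_add, sum_congr rfl fun k hk => show (3 / 4 : ℝ) ^ (k - M) = 1 by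
    rw [Nat.sub_eq_zero_of_le (mem_range.1 hk).le, pow_zero]]
  simp only [Nat.add_sub_cancel_left, sum_const, card_range, nsmul_eq_mul, mul_one]
  rw [geom_sum_eq (by norm_num), add_le_add_iff_left, div_le_iff_of_neg (by norm_num)]
  have : 0 < (3 / 4 : ℝ) ^ K := by positivity
  linarith

end Cu

theorem card_bl_eq (z : Tor 3 L) {r : ℕ} (h : 2 * r < L) : (bl z r).card = (2 * r + 1) ^ 3 := by
  rw [card_eq_sum_ones, sum_bl _ z h]
  simp only [sum_const, card_I, smul_eq_mul]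
  ring

theorem cube (φ : Tor 3 L → ℝ) (z : Tor 3 L) {r r' : ℕ} (h : r ≤ r') (h' : 2 * r' < L) :
    |av φ z r - av φ z r'| ≤
      3 / (2 * (r : ℝ) + 1) ^ 2 * ∑ x ∈ bl z r', ∑ y ∈ bl z r', Jn L x y * |φ x - φ y| := by
  have nn : ∀ x y, 0 ≤ Jn L x y * |φ x - φ y| := fun x y =>
    mul_nonneg (Jn_nonneg x y) (abs_nonneg _)
  have key : ∀ (x y : Tor 3 L) (u : Fin 3 → ℤ), ∑ a, |u a| = 1 → y = x + tcast L u → y ∈ bl z r' →
      |φ y - φ x| ≤ ∑ y ∈ bl z r', Jn L x y * |φ x - φ y| := fun x y u hu e hy => by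
    refine le_trans ?_ (single_le_sum (fun y _ => nn x y) hy)
    rw [abs_sub_comm]
    exact le_mul_of_one_le_left (abs_nonneg _) (e ▸ one_le_J x hu)
  rw [av_eq φ z (show 2 * r < L by omega), av_eq φ z h', sum_bl _ z h']
  refine three h (fun a b c => sum_nonneg fun y _ => nn _ y) (fun a _ b hb c hc ha' => ?_)
    (fun a ha b _ c hc hb' => ?_) fun a ha b hb c _ hc' => ?_
  · refine key _ _ ![1, 0, 0] (by simp [Fin.sum_univ_three]) ?_ (pt_mem z h' ha' hb hc)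
    funext i; fin_cases i <;> simp [pt, tcast, add_assoc]
  · refine key _ _ ![0, 1, 0] (by simp [Fin.sum_univ_three]) ?_ (pt_mem z h' ha hb' hc)
    funext i; fin_cases i <;> simp [pt, tcast, add_assoc]
  · refine key _ _ ![0, 0, 1] (by simp [Fin.sum_univ_three]) ?_ (pt_mem z h' ha hb hc')
    funext i; fin_cases i <;> simp [pt, tcast, add_assoc]

/-- points with distinct radii which are near a given point -/
theorem Cu.card_near {A : Finset (Tor 3 L)} (x : Tor 3 L)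
    (hsep : ∀ z ∈ A, ∀ z' ∈ A, tdist x z = tdist x z' → z = z') (p : Tor 3 L) (r : ℕ) :
    (A.filter fun z => p ∈ bl z r).card ≤ 2 * r + 1 := by
  have : (Icc (tdist x p - r) (tdist x p + r)).card ≤ 2 * r + 1 := by rw [Nat.card_Icc]; omega
  refine le_trans (card_le_card_of_injOn (tdist x) (fun z hz => ?_) fun z hz z' hz' h => ?_) this
  · have h1 := mem_bl.1 (mem_filter.1 (mem_coe.1 hz)).2
    have h2 := tdist_triangle x z p
    have h3 := tdist_triangle x p z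
    rw [tdist_comm p z] at h3
    rw [mem_coe, mem_Icc]; omega
  · exact hsep z (mem_filter.1 (mem_coe.1 hz)).1 z' (mem_filter.1 (mem_coe.1 hz')).1 h

/-- one scale: Cauchy-Schwarz -/
theorem Cu.scale {A : Finset (Tor 3 L)} {w φ : Tor 3 L → ℝ} (hw : ∀ x, 1 ≤ w x) {r : ℕ}
    {N V : ℝ} (hN : ∀ p, ((A.filter fun z => p ∈ bl z r).card : ℝ) ≤ N)
    (hV : ∀ z ∈ A, ∑ y ∈ bl z r, w y ≤ V) :
    (∑ z ∈ A, ∑ x ∈ bl z r, ∑ y ∈ bl z r, Jn L x y * |φ x - φ y|) ^ 2 ≤
      N * En (Jn L) ∅ w φ * (A.card * (12 * V)) := by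
  have mp : ∀ x y, 0 < max (w x) (w y) := fun x y => lt_max_of_lt_left (by linarith [hw x])
  have e : ∀ F : Tor 3 L → Tor 3 L → ℝ, ∑ z ∈ A, ∑ x ∈ bl z r, ∑ y ∈ bl z r, F x y =
      ∑ u ∈ A.sigma fun z => bl z r ×ˢ bl z r, F u.2.1 u.2.2 := fun F => by
    rw [sum_sigma]; simp_rw [sum_product]
  have nn : ∀ x y, 0 ≤ Jn L x y * (φ x - φ y) ^ 2 / max (w x) (w y) := fun x y =>
    div_nonneg (mul_nonneg (Jn_nonneg x y) (sq_nonneg _)) (mp x y).le
  have nw : ∀ x y, 0 ≤ Jn L x y * max (w x) (w y) := fun x y =>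
    mul_nonneg (Jn_nonneg x y) (mp x y).le
  have cs := sum_sq_le_sum_mul_sum_of_sq_le_mul (A.sigma fun z => bl z r ×ˢ bl z r)
    (r := fun u => Jn L u.2.1 u.2.2 * |φ u.2.1 - φ u.2.2|)
    (f := fun u => Jn L u.2.1 u.2.2 * (φ u.2.1 - φ u.2.2) ^ 2 / max (w u.2.1) (w u.2.2))
    (g := fun u => Jn L u.2.1 u.2.2 * max (w u.2.1) (w u.2.2)) (fun u _ => nn _ _)
    (fun u _ => nw _ _) fun u _ => le_of_eq <| by
      have := (mp u.2.1 u.2.2).ne'
      rw [mul_pow, sq_abs]; field_simp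
  rw [← e fun x y => Jn L x y * |φ x - φ y|,
    ← e fun x y => Jn L x y * (φ x - φ y) ^ 2 / max (w x) (w y),
    ← e fun x y => Jn L x y * max (w x) (w y)] at cs
  have hN0 : 0 ≤ N := (Nat.cast_nonneg _).trans (hN 0)
  have hE : En (Jn L) ∅ w φ = ∑ x, ∑ y, Jn L x y * (φ x - φ y) ^ 2 / max (w x) (w y) := by
    simp [En]
  refine cs.trans (mul_le_mul ?_ ?_ (sum_nonneg fun _ _ => sum_nonneg fun _ _ =>
    sum_nonneg fun _ _ => nw _ _) (mul_nonneg hN0 (hE ▸ sum_nonneg fun _ _ =>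
      sum_nonneg fun _ _ => nn _ _)))
  · calc _ ≤ ∑ z ∈ A, ∑ x, if x ∈ bl z r then
          ∑ y, Jn L x y * (φ x - φ y) ^ 2 / max (w x) (w y) else 0 := by
          refine sum_le_sum fun z _ => ?_
          rw [sum_ite_mem, univ_inter]
          exact sum_le_sum fun x _ => sum_le_univ_sum_of_nonneg fun y => nn x y
      _ ≤ _ := by
          rw [sum_comm, hE, mul_sum]
          refine sum_le_sum fun x _ => ?_
          rw [← sum_filter, sum_const, nsmul_eq_mul]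
          exact mul_le_mul_of_nonneg_right (hN x) (sum_nonneg fun y _ => nn x y)
  · rw [← nsmul_eq_mul]
    refine sum_le_card_nsmul _ _ _ fun z hz => ?_
    have h6 : ∑ x ∈ bl z r, ∑ y ∈ bl z r, Jn L x y * w x ≤ 6 * V := by
      refine le_trans (sum_le_sum fun x _ => ?_) ((mul_sum _ _ _).ge.trans
        (mul_le_mul_of_nonneg_left (hV z hz) (by norm_num)))
      rw [← sum_mul]
      exact mul_le_mul_of_nonneg_right ((sum_le_univ_sum_of_nonneg (Jn_nonneg x)).trans (sum_Jn x))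
        (by linarith [hw x])
    have h7 : ∑ x ∈ bl z r, ∑ y ∈ bl z r, Jn L x y * w y ≤ 6 * V := by
      rw [sum_comm]
      simpa only [Jn_symm] using h6
    refine le_trans ?_ ((add_le_add h6 h7).trans (le_of_eq (by ring)))
    simp only [← sum_add_distrib, ← mul_add]
    refine sum_le_sum fun x _ => sum_le_sum fun y _ =>
      mul_le_mul_of_nonneg_left (max_le ?_ ?_) (Jn_nonneg x y)
    · linarith [hw y]
    · linarith [hw x]

/-- the core of the capacity bound -/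
theorem cap0 {A : Finset (Tor 3 L)} {w : Tor 3 L → ℝ} (hw : ∀ y, 1 ≤ w y) (φ : Tor 3 L → ℝ)
    {K nmax : ℕ} (hK : 2 * (2 ^ K - 1) < L) (x : Tor 3 L)
    (hsep : ∀ z ∈ A, ∀ z' ∈ A, tdist x z = tdist x z' → z = z') (hn : A.card ≤ nmax) {W : ℝ}
    (hW : ∀ z ∈ A, ∀ r ≤ 2 ^ K - 1, ∑ y ∈ bl z r, w y ≤ W * (2 * (r : ℝ) + 1) ^ 3) :
    ∑ z ∈ A, |φ z - av φ z (2 ^ K - 1)| ≤
      400 * (1 + (Nat.log 2 nmax : ℝ)) * √(W * A.card * En (Jn L) ∅ w φ) := by
  classical
  rcases A.eq_empty_or_nonempty with rfl | ⟨z0, hz0⟩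
  · simp
  have hW0 : 0 ≤ W := by
    have := (sum_nonneg fun y _ => zero_le_one.trans (hw y)).trans (hW z0 hz0 0 (Nat.zero_le _))
    simpa using this
  have mp : ∀ x y, 0 < max (w x) (w y) := fun x y => lt_max_of_lt_left (by linarith [hw x])
  have hE0 : 0 ≤ En (Jn L) ∅ w φ := sum_nonneg fun x _ => sum_nonneg fun y _ => by
    split_ifs
    exacts [div_nonneg (mul_nonneg (Jn_nonneg x y) (sq_nonneg _)) (mp x y).le, le_rfl]
  set E := En (Jn L) ∅ w φ with hE
  set r : ℕ → ℕ := fun k => 2 ^ k - 1 with hr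
  have rm : ∀ k ≤ K, r k ≤ r K := fun k hk =>
    Nat.sub_le_sub_right (Nat.pow_le_pow_right two_pos hk) 1
  have rs : ∀ k, r (k + 1) = 2 * r k + 1 := fun k => by
    have := Nat.one_le_two_pow (n := k)
    simp only [hr, pow_succ]; omega
  have rl : ∀ k, 2 ^ k ≤ 2 * r k + 1 := fun k => by
    have := Nat.one_le_two_pow (n := k)
    simp only [hr]; omega
  -- the telescope
  have tel : ∀ z ∈ A, |φ z - av φ z (r K)| ≤ ∑ k ∈ range K, 3 / (2 * (r k : ℝ) + 1) ^ 2 *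
      ∑ x ∈ bl z (r (k + 1)), ∑ y ∈ bl z (r (k + 1)), Jn L x y * |φ x - φ y| := fun z hz => by
    have a0 : av φ z (r 0) = φ z := by
      have : bl z 0 = {z} := by
        ext y; rw [mem_bl, Nat.le_zero, tdist_eq_zero, mem_singleton, eq_comm]
      simp [av, hr, this]
    have : ∑ k ∈ range K, (av φ z (r k) - av φ z (r (k + 1))) = φ z - av φ z (r K) :=
      a0 ▸ sum_range_sub' (fun k => av φ z (r k)) K
    rw [← this]
    refine (abs_sum_le_sum_abs _ _).trans (sum_le_sum fun k hk =>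
      cube φ z (by rw [rs]; omega) ?_)
    have := rm (k + 1) (mem_range.1 hk)
    simp only [hr] at this ⊢
    omega
  set M := Nat.log 2 nmax with hM
  set Q := √(W * A.card * E) with hQ
  have hQ0 : 0 ≤ Q := Real.sqrt_nonneg _
  have hQ2 : Q ^ 2 = W * A.card * E := Real.sq_sqrt (by positivity)
  set c : ℕ → ℝ := fun k => (if k ∈ range (M + 1) then 3 / 4 else 0) + (3 / 4) ^ (k - (M + 1))
    with hc
  have c0 : ∀ k, 0 ≤ c k := fun k => by
    simp only [hc]; split_ifs <;> positivity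
  have sc : ∀ k ∈ range K, 3 / (2 * (r k : ℝ) + 1) ^ 2 * ∑ z ∈ A,
      ∑ x ∈ bl z (r (k + 1)), ∑ y ∈ bl z (r (k + 1)), Jn L x y * |φ x - φ y| ≤
      54 * Q * c k := fun k hk => by
    set s : ℝ := 2 * (r k : ℝ) + 1 with hs
    have s1 : 1 ≤ s := by rw [hs]; linarith [Nat.cast_nonneg (α := ℝ) (r k)]
    have s3 : 2 * (r (k + 1) : ℝ) + 1 ≤ 3 * s := by rw [rs]; push_cast; linarith
    have hN : ∀ p, ((A.filter fun z => p ∈ bl z (r (k + 1))).card : ℝ) ≤ c k ^ 2 * s := fun p => by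
      rcases le_or_gt k M with h | h
      · simp only [hc]
        rw [Nat.sub_eq_zero_of_le (by omega), if_pos (mem_range.2 (by omega))]
        have : ((A.filter fun z => p ∈ bl z (r (k + 1))).card : ℝ) ≤ 2 * (r (k + 1) : ℝ) + 1 := by
          exact_mod_cast card_near x hsep p (r (k + 1))
        linarith
      · obtain ⟨j, rfl⟩ : ∃ j, k = M + 1 + j := ⟨k - (M + 1), by omega⟩
        have b1 : ((A.filter fun z => p ∈ bl z (r (M + 1 + j + 1))).card : ℝ) ≤ 2 ^ (M + 1) := by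
          exact_mod_cast ((card_filter_le _ _).trans hn).trans
            (Nat.lt_pow_succ_log_self one_lt_two nmax).le
        have b2 : (2 : ℝ) ^ (M + 1) * 2 ^ j ≤ s := by
          rw [← pow_add, hs]; exact_mod_cast rl (M + 1 + j)
        have b3 : (1 : ℝ) ≤ ((3 / 4) ^ j) ^ 2 * 2 ^ j := by
          rw [← pow_mul, mul_comm j, pow_mul, ← mul_pow]
          exact one_le_pow₀ (by norm_num)
        simp only [hc]
        rw [Nat.add_sub_cancel_left, if_neg (by rw [mem_range]; omega), zero_add]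
        have b4 := mul_le_mul_of_nonneg_left b2 (sq_nonneg ((3 / 4 : ℝ) ^ j))
        have b5 := mul_le_mul_of_nonneg_left b3 (show (0 : ℝ) ≤ 2 ^ (M + 1) by positivity)
        nlinarith
    have h2 := scale (φ := φ) hw hN (V := W * (3 * s) ^ 3) fun z hz =>
      (hW z hz _ (rm _ (mem_range.1 hk))).trans (by gcongr)
    refine abs_le_of_sq_le_sq' ?_ (by have := c0 k; positivity) |>.2
    rw [mul_pow]
    refine (mul_le_mul_of_nonneg_left h2 (sq_nonneg _)).trans (le_of_eq ?_)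
    simp only [mul_pow, hQ2]
    field_simp
    ring
  refine (sum_le_sum tel).trans ?_
  rw [sum_comm]
  simp only [← mul_sum]
  refine (sum_le_sum sc).trans ?_
  have h3 : ∑ k ∈ range K, c k ≤ 3 / 4 * (M + 1) + (M + 1 + 4) := by
    rw [hc, sum_add_distrib]
    refine add_le_add ?_ (by exact_mod_cast geo (M + 1) K)
    rw [sum_ite_mem, sum_const, nsmul_eq_mul, mul_comm]
    gcongr
    exact_mod_cast (card_le_card inter_subset_right).trans (card_range _).le
  rw [← mul_sum]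
  have M0 : (0 : ℝ) ≤ M := Nat.cast_nonneg _
  nlinarith [mul_nonneg M0 hQ0, mul_le_mul_of_nonneg_left h3 hQ0]

open Classical in
theorem cap {R Good A : Finset (Tor 3 L)} {w ψ : Tor 3 L → ℝ} (hS : St (Jn L) R ∅ Good w)
    {K nmax : ℕ} (hK : 2 * (2 ^ K - 1) < L) (x : Tor 3 L) (hA : A ⊆ Good)
    (hsep : ∀ z ∈ A, ∀ z' ∈ A, tdist x z = tdist x z' → z = z') (hn : A.card ≤ nmax)
    {W lam : ℝ} (hW0 : 0 ≤ W)
    (hW : ∀ z ∈ A, ∀ r ≤ 2 ^ K - 1, ∑ y ∈ bl z r, w y ≤ W * (2 * (r : ℝ) + 1) ^ 3)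
    (h0 : ∀ y, 0 ≤ ψ y ∧ ψ y ≤ lam) (h1 : ∀ z ∈ A, ψ z = lam)
    (htop : ∀ z ∈ A, 2 * ((bl z (2 ^ K - 1)).filter fun y => y ∉ Good ∨ ψ y ≠ 0).card ≤
      (2 * (2 ^ K - 1) + 1) ^ 3) :
    lam ^ 2 * A.card ≤ 10 ^ 6 * W * (1 + (Nat.log 2 nmax : ℝ)) ^ 2 * En (Jn L) R 1 ψ := by
  obtain ⟨φ0, p0, p1, p2, -⟩ := hS.2 ψ fun y => (h0 y).1
  have hl : 0 ≤ lam := (h0 0).1.trans (h0 0).2
  set φ : Tor 3 L → ℝ := fun y => min (φ0 y) lam with hφ
  have mp : ∀ x y, 0 < max (w x) (w y) := fun x y => lt_max_of_lt_left (by linarith [hS.1 x])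
  have hE0 : 0 ≤ En (Jn L) ∅ w φ := sum_nonneg fun x _ => sum_nonneg fun y _ => by
    split_ifs
    exacts [div_nonneg (mul_nonneg (Jn_nonneg x y) (sq_nonneg _)) (mp x y).le, le_rfl]
  have hE : En (Jn L) ∅ w φ ≤ En (Jn L) R 1 ψ := by
    refine le_trans (sum_le_sum fun x _ => sum_le_sum fun y _ => ?_) p2
    split_ifs
    · refine div_le_div_of_nonneg_right (mul_le_mul_of_nonneg_left (sq_le_sq.2 ?_)
        (Jn_nonneg x y)) (mp x y).le
      simpa using abs_min_sub_min_le_max (φ0 x) lam (φ0 y) lam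
    · exact le_rfl
  have h2 := cap0 hS.1 φ hK x hsep hn hW
  generalize 2 ^ K - 1 = r at htop h2
  have h3 : ∀ z ∈ A, lam / 2 ≤ |φ z - av φ z r| := fun z hz => by
    have a0 : φ z = lam := by simp [hφ, p1 z (hA hz), h1 z hz]
    have h2 : (2 * ((bl z r).filter fun y => y ∉ Good ∨ ψ y ≠ 0).card : ℝ) ≤
        (2 * (r : ℝ) + 1) ^ 3 := by exact_mod_cast htop z hz
    have h3 : ∑ y ∈ bl z r, φ y ≤ ((bl z r).filter fun y => y ∉ Good ∨ ψ y ≠ 0).card * lam := by
      rw [← nsmul_eq_mul, ← sum_const, sum_filter]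
      refine sum_le_sum fun y _ => ?_
      split_ifs with h
      · exact min_le_right _ _
      · push Not at h
        exact (min_le_left _ _).trans ((p1 y h.1).trans h.2).le
    have aK : av φ z r ≤ lam / 2 := by
      rw [av, div_le_iff₀ (by positivity)]
      nlinarith
    exact le_trans (by linarith) (le_abs_self _)
  have h4 := (card_nsmul_le_sum _ _ _ h3).trans h2
  rw [nsmul_eq_mul] at h4
  have hE1 := hE0.trans hE
  rcases A.eq_empty_or_nonempty with rfl | hne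
  · simp only [card_empty, Nat.cast_zero, mul_zero]
    positivity
  have c0 : (0 : ℝ) < A.card := by exact_mod_cast hne.card_pos
  have t3 := pow_le_pow_left₀ (by positivity) h4 2
  rw [mul_pow, mul_pow, mul_pow, Real.sq_sqrt (by positivity)] at t3
  refine le_of_mul_le_mul_left ?_ c0
  have t4 : W * A.card * En (Jn L) ∅ w φ ≤ W * A.card * En (Jn L) R 1 ψ := by gcongr
  have t5 := mul_le_mul_of_nonneg_left t4 (sq_nonneg (1 + (Nat.log 2 nmax : ℝ)))
  have t6 : 0 ≤ (1 + (Nat.log 2 nmax : ℝ)) ^ 2 * (W * A.card * En (Jn L) R 1 ψ) := by positivity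
  nlinarith

end Crest.Agent.N337.G1
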