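import Crest.Agent.N337.G1.Cube

/-!
# Row 337, G1: multiscale filling with a fixed exponent (leaf G1-Fill)

`Fm_cov`: if `x0 ∈ Fm` is within `η` of `y`, take its `u0` as centre in `CovAt` (`2ρ+2η ≤ 4η`).
`Fm_card`: double count pairs `(x, y)`, `x ∈ Fm ∩ bl z r`, `y ∈ bl x η ⊆ bl z (r+η)`.
`fill`: model = `Geo.level` / `geo` (Geo/Main.lean), tools `St.fill`, `shell` (`t = tS`, `kS`).
Radii `Rd 0 = 0`, `Rd (i+1) = 3 Rd i + 3 t + 2 σ`, `ρ' 0 = 0`, `ρ' (i+1) = 2 Rd i + 2 t + 2 σ`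
(so `Rd i + t ≤ P.ρ m` for `i ≤ a`).  For `u ∈ U m \ U (m+1)` the `a+1` annuli
`(ρ' i, 2 Rd i + 2 t]` are `2σ` apart, each covering ball meets at most one, so one is free of
`U m`; `ι u` = the least free index.  Level `m`: the remaining bad set `V ⊆ U m`; repeatedly take
`u ∈ V \ U (m+1)` with least `ι u`, fill the cube `bl u (Rd (ι u))` with shell of thickness `t`.
An earlier cube+shell of this level (centre `v`, `ι v ≤ ι u`, `u` outside its cube) misses the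
shell of `u` (`tdist u v ≤ ρ'` or `> 2 Rd + 2t`), so the weights on the shell are `≤ K (m-1)`.
-/

set_option autoImplicit false

namespace Crest.Agent.N337.G1

open Finset Crest.MathPhysics.SpinModel Geo Free

variable {L : ℕ} [NeZero L] {P : Scales} {U : ℕ → Finset (Tor 3 L)}

theorem one_le_tS : 1 ≤ tS :=
  (shell (d := 3) (by norm_num) (Asy.coup_nn 3)).choose_spec.choose_spec.1

namespace Fill

theorem one_le_kS : 1 ≤ kS :=
  (shell (d := 3) (by norm_num) (Asy.coup_nn 3)).choose_spec.choose_spec.2.1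

theorem shell_nn (L : ℕ) [NeZero L] : (∀ x y : Tor 3 L, Jn L x y ≠ 0 → tdist x y ≤ tS) ∧
    ∀ (u : Tor 3 L) (a : ℕ), 2 * (a + tS) < L → ∃ r ∈ bl u (a + tS) \ bl u a, ∀ φ : Tor 3 L → ℝ,
      2 * ∑ x ∈ bl u a, ∑ y ∈ bl u (a + tS) \ bl u a, Jn L x y * (φ r - φ y) ^ 2 ≤
        kS * (((2 * (a + tS) + 1 : ℕ) : ℝ) ^ 3) ^ 3 * ∑ x ∈ bl u (a + tS) \ bl u a,
          ∑ y ∈ bl u (a + tS) \ bl u a, Jn L x y * (φ x - φ y) ^ 2 :=
  (shell (d := 3) (by norm_num) (Asy.coup_nn 3)).choose_spec.choose_spec.2.2 L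

/-- weights before the level `m` -/
noncomputable def K' (P : Scales) (m : ℕ) : ℝ :=
  ∏ l ∈ range m, (1 + kS * (2 * (P.ρ l : ℝ) + 1) ^ 9)

theorem K'_succ (P : Scales) (m : ℕ) :
    K' P (m + 1) = K' P m * (1 + kS * (2 * (P.ρ m : ℝ) + 1) ^ 9) := prod_range_succ _ _

theorem one_le_fac (P : Scales) (l : ℕ) : 1 ≤ 1 + kS * (2 * (P.ρ l : ℝ) + 1) ^ 9 :=
  le_add_of_nonneg_right (mul_nonneg (zero_le_one.trans one_le_kS) (by positivity))

theorem one_le_K' (P : Scales) (m : ℕ) : 1 ≤ K' P m := by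
  induction m with
  | zero => exact le_rfl
  | succ m ih => rw [K'_succ]; exact one_le_mul_of_one_le_of_one_le ih (one_le_fac P m)

theorem K'_le_succ (P : Scales) (m : ℕ) : K' P m ≤ K' P (m + 1) := by
  rw [K'_succ]
  exact le_mul_of_one_le_right (zero_le_one.trans (one_le_K' P m)) (one_le_fac P m)

end Fill

theorem one_le_K (P : Scales) (m : ℕ) : 1 ≤ P.K m := Fill.one_le_K' P (m + 1)

theorem K_mono (P : Scales) : Monotone P.K :=
  monotone_nat_of_le_succ fun m => Fill.K'_le_succ P (m + 1)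

theorem mem_Fm {m : ℕ} {x : Tor 3 L} :
    x ∈ Fm P U m ↔ ∃ u ∈ U m, u ∉ U (m + 1) ∧ tdist u x ≤ P.ρ m := by
  simp [Fm]

omit [NeZero L] in
theorem CovAt.covIn {m : ℕ} (h : CovAt P U m) : CovIn P U m := fun c _ hc => h c hc

theorem not_mem_U' {y : Tor 3 L} (top : y ∉ U P.mt) {m : ℕ} (hm : m ≤ P.mt)
    (h : ∀ l, m ≤ l → l < P.mt → y ∉ Fm P U l) : y ∉ U m := by
  induction hm using Nat.decreasingInduction with
  | self => exact top
  | of_succ k hk ih =>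
    exact fun hy => h k le_rfl hk (mem_Fm.2 ⟨y, hy, ih fun l hl => h l (by omega),
      by rw [tdist_self]; exact Nat.zero_le _⟩)

theorem not_mem_U (top : U P.mt = ∅) {y : Tor 3 L} {m : ℕ} (hm : m ≤ P.mt)
    (h : ∀ l, m ≤ l → l < P.mt → y ∉ Fm P U l) : y ∉ U m :=
  not_mem_U' (by simp [top]) hm h

theorem Fm_cov' (hP : P.Ok L) {m : ℕ} (hm : m < P.mt) (hc : CovIn P U m) (y : Tor 3 L) :
    ∃ F : Finset (Tor 3 L), F.card ≤ P.a m ∧
      ∀ x ∈ Fm P U m, tdist y x ≤ P.η m → ∃ f ∈ F, tdist f x ≤ P.σ m + P.ρ m := by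
  by_cases h : ∃ x0 ∈ Fm P U m, tdist y x0 ≤ P.η m
  · obtain ⟨x0, h0, h1⟩ := h
    obtain ⟨u0, h2', h2, h3⟩ := mem_Fm.1 h0
    obtain ⟨F, hF, H⟩ := hc u0 h2' h2
    refine ⟨F, hF, fun x hx h4 => ?_⟩
    obtain ⟨u, h5, -, h6⟩ := mem_Fm.1 hx
    obtain ⟨f, hf, h7⟩ := H u h5 (by
      have := hP.ρη m hm
      have := tdist_triangle u0 x0 u
      have := tdist_triangle x0 y u
      have := tdist_triangle y x u
      have := tdist_comm x0 y
      have := tdist_comm x u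
      omega)
    exact ⟨f, hf, (tdist_triangle f u x).trans (add_le_add h7 h6)⟩
  · exact ⟨∅, by simp, fun x hx h1 => absurd ⟨x, hx, h1⟩ h⟩

theorem Fm_cov (hP : P.Ok L) {m : ℕ} (hm : m < P.mt) (hc : CovAt P U m) (y : Tor 3 L) :
    ∃ F : Finset (Tor 3 L), F.card ≤ P.a m ∧
      ∀ x ∈ Fm P U m, tdist y x ≤ P.η m → ∃ f ∈ F, tdist f x ≤ P.σ m + P.ρ m :=
  Fm_cov' hP hm hc.covIn y

theorem Fm_card' (hP : P.Ok L) {m : ℕ} (hm : m < P.mt) (hc : CovIn P U m) (z : Tor 3 L) {r : ℕ}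
    (hr : P.η m ≤ r) :
    2 ^ (m + 3) * P.K m * ((Fm P U m ∩ bl z r).card : ℝ) ≤ (2 * (r : ℝ) + 1) ^ 3 := by
  have cb : ∀ (u : Tor 3 L) (a : ℕ), (bl u a).card ≤ (2 * a + 1) ^ 3 := fun u a => by
    exact_mod_cast card_bl u a
  have h1 : (Fm P U m ∩ bl z r).card * (2 * P.η m + 1) ^ 3 ≤ (bl z (r + P.η m)).card * P.f m := by
    refine card_mul_le_card_mul (fun x y => tdist x y ≤ P.η m) (fun x hx => ?_) fun y _ => ?_
    · rw [← card_bl_eq x (hP.ηL m hm)]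
      refine card_le_card fun y hy => ?_
      rw [mem_bipartiteAbove, mem_bl]
      exact ⟨(tdist_triangle z x y).trans (add_le_add (mem_bl.1 (mem_inter.1 hx).2) (mem_bl.1 hy)),
        mem_bl.1 hy⟩
    · obtain ⟨F, hF, H⟩ := Fm_cov' hP hm hc y
      refine (card_le_card (t := F.biUnion fun f => bl f (P.σ m + P.ρ m)) fun x hx => ?_).trans
        ((card_biUnion_le_card_mul _ _ _ fun f _ => cb f _).trans (Nat.mul_le_mul_right _ hF))
      rw [mem_bipartiteBelow] at hx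
      obtain ⟨f, hf, h⟩ := H x (mem_inter.1 hx.1).1 (tdist_comm x y ▸ hx.2)
      exact mem_biUnion.2 ⟨f, hf, mem_bl.2 h⟩
  have h2 : (bl z (r + P.η m)).card ≤ 8 * (2 * r + 1) ^ 3 :=
    (cb _ _).trans ((Nat.pow_le_pow_left (show _ ≤ 2 * (2 * r + 1) by omega) 3).trans
      (le_of_eq (by ring)))
  have h3 : ((Fm P U m ∩ bl z r).card : ℝ) * (2 * P.η m + 1) ^ 3 ≤
      8 * (2 * (r : ℝ) + 1) ^ 3 * P.f m := by
    exact_mod_cast h1.trans (Nat.mul_le_mul_right _ h2)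
  have h4 := hP.sparse m hm
  have h5 : 0 ≤ 2 ^ (m + 3) * P.K m := mul_nonneg (by positivity) (zero_le_one.trans (one_le_K P m))
  refine le_of_mul_le_mul_right ?_ (show (0 : ℝ) < (2 * P.η m + 1) ^ 3 by positivity)
  calc _ = 2 ^ (m + 3) * P.K m * (((Fm P U m ∩ bl z r).card : ℝ) * (2 * P.η m + 1) ^ 3) := by ring
    _ ≤ 2 ^ (m + 3) * P.K m * (8 * (2 * (r : ℝ) + 1) ^ 3 * P.f m) := by gcongr
    _ = (2 * (r : ℝ) + 1) ^ 3 * (8 * (2 ^ (m + 3) * P.K m * P.f m)) := by ring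
    _ ≤ (2 * (r : ℝ) + 1) ^ 3 * (8 * (P.η m : ℝ) ^ 3) := by gcongr
    _ = (2 * (r : ℝ) + 1) ^ 3 * (2 * (P.η m : ℝ)) ^ 3 := by ring
    _ ≤ _ := by gcongr; linarith

theorem Fm_card (hP : P.Ok L) {m : ℕ} (hm : m < P.mt) (hc : CovAt P U m) (z : Tor 3 L) {r : ℕ}
    (hr : P.η m ≤ r) :
    2 ^ (m + 3) * P.K m * ((Fm P U m ∩ bl z r).card : ℝ) ≤ (2 * (r : ℝ) + 1) ^ 3 :=
  Fm_card' hP hm hc.covIn z hr

namespace Fill

/-- radii of the cubes -/
def Rd (t σ : ℕ) : ℕ → ℕ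
  | 0 => 0
  | i + 1 => 3 * Rd t σ i + 3 * t + 2 * σ

/-- inner radii of the annuli -/
def Ri (t σ : ℕ) : ℕ → ℕ
  | 0 => 0
  | i + 1 => 2 * Rd t σ i + 2 * t + 2 * σ

theorem Rd_mono (t σ : ℕ) : Monotone (Rd t σ) :=
  monotone_nat_of_le_succ fun i => by rw [Rd]; omega

theorem Ri_le (t σ i : ℕ) : Ri t σ i ≤ Rd t σ i := by cases i <;> simp only [Ri, Rd] <;> omega

theorem Rd_eq (t σ i : ℕ) : 2 * Rd t σ i + (3 * t + 2 * σ) = 3 ^ i * (3 * t + 2 * σ) := by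
  induction i with
  | zero => simp [Rd]
  | succ i ih => rw [pow_succ', mul_assoc, ← ih, Rd]; ring

theorem Rd_le (P : Scales) (m : ℕ) {i : ℕ} (h : i ≤ P.a m) : Rd tS (P.σ m) i + tS ≤ P.ρ m := by
  have h1 := Rd_mono tS (P.σ m) h
  have h2 := Rd_eq tS (P.σ m) (P.a m)
  have h3 : 3 ^ P.a m * (3 * tS + 2 * P.σ m) ≤ 2 * (3 ^ P.a m * (2 * tS + P.σ m)) := by
    rw [mul_left_comm]; exact Nat.mul_le_mul_left _ (by omega)
  unfold Scales.ρ
  omega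

/-- the annulus `i` about `u` is free of `A` -/
def Fr (σ : ℕ) (A : Finset (Tor 3 L)) (u : Tor 3 L) (i : ℕ) : Prop :=
  ∀ y ∈ A, Ri tS σ i < tdist u y → 2 * Rd tS σ i + 2 * tS < tdist u y

omit [NeZero L] in
theorem exists_free (hP : P.Ok L) {m : ℕ} (hm : m < P.mt) (hc : CovIn P U m) {u : Tor 3 L}
    (hu' : u ∈ U m) (hu : u ∉ U (m + 1)) : ∃ i ≤ P.a m, Fr (P.σ m) (U m) u i := by
  by_contra h
  obtain ⟨F, hF, H⟩ := hc u hu' hu
  have h1 : ∀ i ∈ range (P.a m + 1), ∃ f ∈ F, ∃ y, tdist f y ≤ P.σ m ∧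
      Ri tS (P.σ m) i < tdist u y ∧ tdist u y ≤ 2 * Rd tS (P.σ m) i + 2 * tS := fun i hi => by
    have hi : i ≤ P.a m := Nat.lt_succ_iff.1 (mem_range.1 hi)
    obtain ⟨y, hy, h2, h3⟩ : ∃ y ∈ U m, Ri tS (P.σ m) i < tdist u y ∧
        tdist u y ≤ 2 * Rd tS (P.σ m) i + 2 * tS := by
      by_contra h'
      exact h ⟨i, hi, fun y hy h2 => not_le.1 fun h3 => h' ⟨y, hy, h2, h3⟩⟩
    obtain ⟨f, hf, h4⟩ := H y hy (by have := Rd_le P m hi; have := hP.ρη m hm; omega)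
    exact ⟨f, hf, y, h4, h2, h3⟩
  choose! f hf y h2 h3 h4 using h1
  obtain ⟨i, hi, j, hj, hij, e⟩ := exists_ne_map_eq_of_card_lt_of_maps_to
    (by rw [card_range]; omega) hf
  wlog hlt : i < j generalizing i j
  · exact this j hj i hi hij.symm e.symm (by omega)
  obtain ⟨k, rfl⟩ : ∃ k, j = k + 1 := ⟨j - 1, by omega⟩
  have a1 := h2 i hi
  have a2 := h2 _ hj
  have a3 := h3 _ hj
  have a4 := h4 i hi
  have a5 := Rd_mono tS (P.σ m) (show i ≤ k by omega)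
  have a6 := tdist_triangle u (y i) (y (k + 1))
  have a7 := tdist_triangle (y i) (f i) (y (k + 1))
  have a8 := tdist_comm (y i) (f i)
  rw [← e] at a2
  rw [Ri] at a3
  omega

/-- the invariant -/
structure Inv (P : Scales) (U : ℕ → Finset (Tor 3 L)) (V Good : Finset (Tor 3 L))
    (w : Tor 3 L → ℝ) : Prop where
  st : St (Jn L) (U 0) V Good w
  cov : ∀ x ∉ Good, (∃ m, 1 ≤ m ∧ m < P.mt ∧ x ∈ Fm P U m) ∨
    ∃ u ∈ U 0, u ∉ U 1 ∧ tdist u x ≤ P.ρ 0 ∧ (x = u ∨ ∃ y ∈ U 0, y ≠ u ∧ tdist u y ≤ 2 * tS)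
  wt : ∀ x, w x = 1 ∨ ∃ m < P.mt, x ∈ Fm P U m ∧ w x ≤ P.K m

theorem level (hP : P.Ok L) {m : ℕ} (hm : m < P.mt) (ι : Tor 3 L → ℕ)
    (hι : ∀ u ∈ U m, u ∉ U (m + 1) → ι u ≤ P.a m ∧ Fr (P.σ m) (U m) u (ι u) ∧
      (ι u = 0 ∨ ¬ Fr (P.σ m) (U m) u 0)) (V : Finset (Tor 3 L)) :
    ∀ Good w, Inv P U V Good w → V ⊆ U m →
      (∀ x, w x ≤ K' P m ∨ (w x ≤ K' P (m + 1) ∧ ∃ v ∈ U m, tdist v x ≤ Rd tS (P.σ m) (ι v) + tS ∧
        ∀ u ∈ V, Rd tS (P.σ m) (ι v) < tdist v u ∧ (u ∉ U (m + 1) → ι v ≤ ι u))) →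
      ∃ V Good w, Inv P U V Good w ∧ V ⊆ U (m + 1) ∧ ∀ x, w x ≤ K' P (m + 1) := by
  induction V using Finset.strongInduction with
  | H V ih =>
  intro Good w I hV hw
  by_cases hE : V ⊆ U (m + 1)
  · exact ⟨V, Good, w, I, hE, fun x => (hw x).elim (fun h => h.trans (K'_le_succ P m)) And.left⟩
  obtain ⟨u, hu0, hmin⟩ := exists_min_image (V \ U (m + 1)) ι (sdiff_nonempty.2 hE)
  obtain ⟨hu, hu'⟩ := mem_sdiff.1 hu0
  obtain ⟨i1, i2, i3⟩ := hι u (hV hu) hu'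
  have hρ := Rd_le P m i1
  have hRi := Ri_le tS (P.σ m) (ι u)
  obtain ⟨hJ, H⟩ := shell_nn L
  obtain ⟨r, hr, H⟩ := H u (Rd tS (P.σ m) (ι u)) (by
    have := hP.ρη m hm; have := hP.ηL m hm; omega)
  set a := Rd tS (P.σ m) (ι u) with ha
  have hQ : ∀ x ∈ bl u a ∪ (bl u (a + tS) \ bl u a), tdist u x ≤ a + tS := fun x hx => by
    simp only [mem_union, mem_sdiff, mem_bl] at hx; omega
  have hF : ∀ x, tdist u x ≤ a + tS → x ∈ Fm P U m := fun x hx =>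
    mem_Fm.2 ⟨u, hV hu, hu', hx.trans hρ⟩
  have h1 : (1 : ℝ) ≤ ((2 * (a + tS) + 1 : ℕ) : ℝ) ^ 3 :=
    one_le_pow₀ (by exact_mod_cast (by omega : 1 ≤ 2 * (a + tS) + 1))
  have hst := I.st.fill (torJ_symm (Asy.coup_nn 3)) (torJ_nonneg (Asy.coup_nn 3))
    (W := K' P m) (W' := K' P (m + 1))
    (fun x hx => (mem_sdiff.1 hx).2) (fun x hx hx' => by
      simp only [mem_sdiff, mem_bl, not_le] at hx
      have := i2 x (hV hx') (by omega)
      omega) hr (fun x hx y hy h => by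
      have := hJ x y h
      have := tdist_triangle u x y
      rw [mem_bl] at hx
      exact mem_sdiff.2 ⟨mem_bl.2 (by omega), hy⟩)
    (fun x hx => (hw x).resolve_right (by
      rintro ⟨-, v, v1, v2, v3⟩
      simp only [mem_sdiff, mem_bl, not_le] at hx
      obtain ⟨v4, v5⟩ := v3 u hu
      have v6 := Rd_mono tS (P.σ m) (v5 hu')
      have := tdist_triangle u x v
      have := tdist_triangle u v x
      have := tdist_comm x v
      have := tdist_comm u v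
      have v7 : tdist u v ≤ Ri tS (P.σ m) (ι u) := not_lt.1 fun h => by
        have := i2 v v1 h
        omega
      rcases (v5 hu').eq_or_lt with e | e
      · rw [e] at v4; omega
      · obtain ⟨k, hk⟩ : ∃ k, ι u = k + 1 := ⟨ι u - 1, by omega⟩
        have := Rd_mono tS (P.σ m) (show ι v ≤ k by omega)
        rw [hk, Ri] at v7
        rw [hk, Rd] at ha
        omega)) H
    ((card_bl u a).trans (le_trans (by gcongr; omega) ((le_self_pow₀ h1 (n := 3) (by norm_num)).trans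
      (le_mul_of_one_le_left (by positivity) one_le_kS))))
    (by
      rw [K'_succ, ← pow_mul]
      have := one_le_K' P m
      have := one_le_kS
      gcongr
      exact_mod_cast (by omega : 2 * (a + tS) + 1 ≤ 2 * P.ρ m + 1))
  refine ih _ ⟨sdiff_subset, fun h => (mem_sdiff.1 (h hu)).2
    (mem_bl.2 (by rw [tdist_self]; omega))⟩ _ _ ⟨hst, fun x hx => ?_, fun x => ?_⟩
    (sdiff_subset.trans hV) fun x => ?_
  · by_cases h : x ∈ Good
    · have h2 : tdist u x ≤ a := mem_bl.1 (by simpa [h] using hx)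
      rcases m with _ | m
      · refine .inr ⟨u, hV hu, hu', by omega, i3.imp (fun e => ?_) fun e => ?_⟩
        · rw [e, Rd] at ha
          exact (tdist_eq_zero.1 (by omega)).symm
        · by_contra h'
          refine e fun y hy h3 => not_le.1 fun h4 => h' ⟨y, hy, fun e => ?_, by simpa [Rd] using h4⟩
          rw [e, tdist_self] at h3
          exact absurd h3 (Nat.not_lt_zero _)
      · exact .inl ⟨m + 1, by omega, hm, hF x (by omega)⟩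
    · exact I.cov x h
  · split_ifs with h
    · exact .inr ⟨m, hm, hF x (hQ x h), le_rfl⟩
    · exact I.wt x
  · split_ifs with h
    · exact .inr ⟨le_rfl, u, hV hu, hQ x h, fun v hv =>
        ⟨not_le.1 fun h => (mem_sdiff.1 hv).2 (mem_bl.2 h),
          fun hv' => hmin v (mem_sdiff.2 ⟨(mem_sdiff.1 hv).1, hv'⟩)⟩⟩
    · exact (hw x).imp_right fun ⟨b, v, v1, v2, v3⟩ =>
        ⟨b, v, v1, v2, fun y hy => v3 y (mem_sdiff.1 hy).1⟩

end Fill

/-- partial filling: the points of `U mt` may stay unfilled. -/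
theorem fill' (hP : P.Ok L) (hc : ∀ m < P.mt, CovIn P U m) :
    ∃ (V Good : Finset (Tor 3 L)) (w : Tor 3 L → ℝ), V ⊆ U P.mt ∧ St (Jn L) (U 0) V Good w ∧
      (∀ x ∉ Good, (∃ m, 1 ≤ m ∧ m < P.mt ∧ x ∈ Fm P U m) ∨
        ∃ u ∈ U 0, u ∉ U 1 ∧ tdist u x ≤ P.ρ 0 ∧
          (x = u ∨ ∃ y ∈ U 0, y ≠ u ∧ tdist u y ≤ 2 * tS)) ∧
      ∀ x, w x = 1 ∨ ∃ m < P.mt, x ∈ Fm P U m ∧ w x ≤ P.K m := by
  have main : ∀ m ≤ P.mt, ∃ V Good w, Fill.Inv P U V Good w ∧ V ⊆ U m ∧ ∀ x, w x ≤ Fill.K' P m := by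
    intro m hm
    induction m with
    | zero =>
      exact ⟨U 0, univ, 1, ⟨St.init _ _ _, fun x hx => absurd (mem_univ x) hx, fun _ => .inl rfl⟩,
        Subset.rfl, fun _ => le_rfl⟩
    | succ m ih =>
      obtain ⟨V, Good, w, I, h1, h2⟩ := ih (by omega)
      have h3 : ∀ u, ∃ i, u ∈ U m → u ∉ U (m + 1) → i ≤ P.a m ∧ Fill.Fr (P.σ m) (U m) u i ∧
          (i = 0 ∨ ¬ Fill.Fr (P.σ m) (U m) u 0) := fun u => by
        by_cases h : Fill.Fr (P.σ m) (U m) u 0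
        · exact ⟨0, fun _ _ => ⟨Nat.zero_le _, h, .inl rfl⟩⟩
        by_cases hu : u ∈ U (m + 1)
        · exact ⟨0, fun _ h => absurd hu h⟩
        by_cases hu' : u ∈ U m
        · obtain ⟨i, hi, h'⟩ := Fill.exists_free hP hm (hc m hm) hu' hu
          exact ⟨i, fun _ _ => ⟨hi, h', .inr h⟩⟩
        · exact ⟨0, fun h => absurd h hu'⟩
      choose ι hι using h3
      exact Fill.level hP hm ι hι V Good w I h1 fun x => .inl (h2 x)
  obtain ⟨V, Good, w, I, h1, -⟩ := main _ le_rfl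
  exact ⟨V, Good, w, h1, I.st, I.cov, I.wt⟩

theorem fill (hP : P.Ok L) (top : U P.mt = ∅) (hc : ∀ m < P.mt, CovAt P U m) :
    ∃ (Good : Finset (Tor 3 L)) (w : Tor 3 L → ℝ), St (Jn L) (U 0) ∅ Good w ∧
      (∀ x ∉ Good, (∃ m, 1 ≤ m ∧ m < P.mt ∧ x ∈ Fm P U m) ∨
        ∃ u ∈ U 0, u ∉ U 1 ∧ tdist u x ≤ P.ρ 0 ∧
          (x = u ∨ ∃ y ∈ U 0, y ≠ u ∧ tdist u y ≤ 2 * tS)) ∧
      ∀ x, w x = 1 ∨ ∃ m < P.mt, x ∈ Fm P U m ∧ w x ≤ P.K m := by
  obtain ⟨V, Good, w, h1, h2, h3⟩ := fill' hP fun m hm => (hc m hm).covIn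
  obtain rfl : V = ∅ := subset_empty.1 (top ▸ h1)
  exact ⟨Good, w, h2, h3⟩

end Crest.Agent.N337.G1
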