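import Crest.Agent.N337.G1.Short

/-!
# Row 337, G1 (helper9): numerics.  `Scales.Ok` from a short list, the gains in closed form
-/

set_option autoImplicit false

namespace Crest.Agent.N337.G1

open Finset

/-- short list: `s m` bounds the data of level `m`. -/
structure Scales.Sh (P : Scales) (s : ℕ → ℕ) : Prop where
  pos : 1 ≤ P.mt
  σ0 : P.σ 0 = 0
  s0 : 16 ≤ s 0
  t : tS ≤ s 0
  k : kS ≤ s 0
  sq : ∀ m, m + 1 < P.mt → s m ^ 2 ≤ s (m + 1)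
  a : ∀ m < P.mt, 3 ^ P.a m ≤ s m
  σ : ∀ m < P.mt, P.σ m ≤ s m
  η : ∀ m < P.mt, s m ^ 23 ≤ P.η m
  η' : ∀ m, m + 1 < P.mt → P.η m ≤ s (m + 1)

variable {P : Scales} {s : ℕ → ℕ} {m L : ℕ}

theorem Scales.Sh.ge (h : P.Sh s) (hm : m < P.mt) : 2 ^ (m + 4) ≤ s m ∧ s 0 ≤ s m := by
  induction m with
  | zero => exact ⟨h.s0, le_rfl⟩
  | succ m ih =>
    obtain ⟨h1, h2⟩ := ih (by omega)
    have h3 := h.sq m hm
    have h4 := h.s0
    rw [show m + 1 + 4 = m + 4 + 1 by ring, pow_succ]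
    constructor <;> nlinarith

theorem Scales.Sh.ρ_le (h : P.Sh s) (hm : m < P.mt) : P.ρ m ≤ 4 * s m ^ 2 := by
  have h1 := h.t.trans (h.ge hm).2
  have h2 := Nat.mul_le_mul (h.a m hm) (show 2 * tS + P.σ m ≤ 3 * s m by have := h.σ m hm; omega)
  have h3 := h.s0.trans (h.ge hm).2
  unfold Scales.ρ
  nlinarith

theorem Scales.Sh.box (h : P.Sh s) (hm : m < P.mt) : 2 * (P.σ m + P.ρ m) + 1 ≤ s m ^ 3 := by
  have h1 := h.ρ_le hm
  have h2 := h.σ m hm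
  have h3 := h.s0.trans (h.ge hm).2
  nlinarith [Nat.mul_le_mul_left (s m ^ 2) h3]

theorem Scales.Sh.fac (h : P.Sh s) (hm : m < P.mt) :
    1 + kS * (2 * (P.ρ m : ℝ) + 1) ^ 9 ≤ (s m : ℝ) ^ 29 := by
  have h1 : 2 * (P.ρ m : ℝ) + 1 ≤ (s m : ℝ) ^ 3 := by
    exact_mod_cast (by have := h.box hm; omega : 2 * P.ρ m + 1 ≤ s m ^ 3)
  have h2 : kS ≤ s m := h.k.trans (by exact_mod_cast (h.ge hm).2)
  have h3 : (16 : ℝ) ≤ s m := by exact_mod_cast h.s0.trans (h.ge hm).2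
  have h4 : kS * (2 * (P.ρ m : ℝ) + 1) ^ 9 ≤ s m * ((s m : ℝ) ^ 3) ^ 9 := by gcongr
  have h5 : (1 : ℝ) ≤ (s m : ℝ) ^ 28 := one_le_pow₀ (by linarith)
  calc _ ≤ (s m : ℝ) ^ 28 + (s m : ℝ) ^ 28 := add_le_add h5 (h4.trans_eq (by ring))
    _ ≤ _ := by nlinarith

theorem Scales.Sh.K_zero (h : P.Sh s) : P.K 0 ≤ (s 0 : ℝ) ^ 29 := by
  simpa [Scales.K] using h.fac h.pos

theorem Scales.Sh.K_le (h : P.Sh s) (hm : m < P.mt) : P.K m ≤ (s m : ℝ) ^ 58 := by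
  induction m with
  | zero =>
    exact h.K_zero.trans (pow_le_pow_right₀ (by exact_mod_cast (by have := h.s0; omega : 1 ≤ s 0))
      (by norm_num))
  | succ m ih =>
    have h1 : ((s m : ℝ) ^ 2) ^ 29 ≤ (s (m + 1) : ℝ) ^ 29 := by
      gcongr; exact_mod_cast h.sq m hm
    have h2 : P.K (m + 1) = P.K m * (1 + kS * (2 * (P.ρ (m + 1) : ℝ) + 1) ^ 9) := prod_range_succ _ _
    rw [h2, show (58 : ℕ) = 29 + 29 from rfl, pow_add]
    exact mul_le_mul ((ih (by omega)).trans (le_of_eq_of_le (by ring) h1)) (h.fac hm)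
      (zero_le_one.trans (Fill.one_le_fac P _)) (by positivity)

theorem Scales.Sh.a_le (h : P.Sh s) (hm : m < P.mt) : P.a m + 1 ≤ s m :=
  (Nat.lt_pow_self (by norm_num)).trans_le (h.a m hm)

theorem Scales.Sh.ok (h : P.Sh s) (hL : ∀ m < P.mt, 2 * P.η m < L) : P.Ok L where
  pos := h.pos
  σ0 := h.σ0
  ρη m hm := by
    have h3 := h.s0.trans (h.ge hm).2
    have := h.box hm
    have := (Nat.pow_le_pow_right (by omega) (show 3 ≤ 23 by norm_num)).trans (h.η m hm)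
    omega
  ηL := hL
  sparse m hm := by
    have h1 : (2 : ℝ) ^ (m + 3) ≤ s m := by
      exact_mod_cast (Nat.pow_le_pow_right two_pos (by omega)).trans (h.ge hm).1
    have h2 : (P.f m : ℝ) ≤ s m * ((s m : ℝ) ^ 3) ^ 3 := by
      exact_mod_cast Nat.mul_le_mul (by have := h.a_le hm; omega) (Nat.pow_le_pow_left (h.box hm) 3)
    have h3 : ((s m : ℝ) ^ 23) ^ 3 ≤ (P.η m : ℝ) ^ 3 := by gcongr; exact_mod_cast h.η m hm
    have h4 := h.K_le hm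
    have h5 := zero_le_one.trans (one_le_K P m)
    calc _ ≤ (s m : ℝ) * (s m : ℝ) ^ 58 * (s m * ((s m : ℝ) ^ 3) ^ 3) := by gcongr
      _ = ((s m : ℝ) ^ 23) ^ 3 := by ring
      _ ≤ _ := h3
  grow m hm := by
    have h3 := h.s0.trans (h.ge hm).2
    have h1 := h.box hm
    have h2 := h.η' m hm
    have h4 : 2 * (P.σ (m + 1) + P.ρ (m + 1)) + 2 * P.η m + 1 ≤ s (m + 1) ^ 4 := by
      nlinarith [Nat.mul_le_mul_left (s (m + 1) ^ 3) h3, Nat.mul_le_mul_left (s (m + 1) ^ 2) h3,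
        Nat.mul_le_mul_left (s (m + 1)) h3]
    refine (Nat.mul_le_mul (h.a_le hm) h4).trans (le_trans ?_ (h.η _ hm))
    rw [← pow_succ']
    exact Nat.pow_le_pow_right (by omega) (by norm_num)

theorem Scales.Sh.hA (h : P.Sh s) {A : ℕ} (hA : s 0 ^ 4 ≤ A) : 11 * P.ρ 0 + 6 ≤ A := by
  have h1 := h.ρ_le h.pos
  have h3 := h.s0
  nlinarith [Nat.mul_le_mul_left (s 0 ^ 3) h3, Nat.mul_le_mul_left (s 0 ^ 2) h3,
    Nat.mul_le_mul_left (s 0) h3]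

/-- there is a constant above `tS`, `kS`, `3 ^ a`. -/
theorem exists_s0 (a : ℕ) : ∃ c : ℕ, 16 ≤ c ∧ tS ≤ c ∧ kS ≤ c ∧ 3 ^ a ≤ c := by
  generalize 3 ^ a = b
  refine ⟨16 + tS + ⌈kS⌉₊ + b, by omega, by omega, (Nat.le_ceil _).trans ?_, by omega⟩
  exact_mod_cast (by omega : ⌈kS⌉₊ ≤ 16 + tS + ⌈kS⌉₊ + b)

/-! ### gains -/

theorem pow_four_le (k : ℕ) : (1 + k) ^ 4 ≤ 49 * 2 ^ k := by
  rcases Nat.lt_or_ge k 6 with h | h
  · interval_cases k <;> norm_num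
  induction k, h using Nat.le_induction with
  | base => norm_num
  | succ k hk ih =>
    have : (1 + (k + 1)) ^ 4 ≤ 2 * (1 + k) ^ 4 := by
      obtain ⟨i, rfl⟩ := Nat.exists_eq_add_of_le hk
      ring_nf; omega
    rw [pow_succ 2]; omega

theorem log_sq {n : ℕ} (hn : 1 ≤ n) : (1 + (Nat.log 2 n : ℝ)) ^ 2 ≤ 7 * √n := by
  refine abs_le_of_sq_le_sq' ?_ (by positivity) |>.2
  rw [mul_pow, Real.sq_sqrt (Nat.cast_nonneg _), ← pow_mul]
  have := (pow_four_le (Nat.log 2 n)).trans (Nat.mul_le_mul_left 49 (Nat.pow_log_le_self 2 (by omega)))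
  norm_num
  exact_mod_cast this

variable {A m1 d g : ℕ} {X : ℝ}

theorem Cc_le (hd : 1 ≤ d) (hA : (A : ℝ) ≤ X) (hK : P.K (m1 - 1) ≤ X) :
    Cc P A m1 d ≤ 10 ^ 8 * X * √d := by
  have h1 := log_sq hd
  have h2 : (1 : ℝ) ≤ √d := Real.one_le_sqrt.2 (by exact_mod_cast hd)
  have h3 := (one_le_K P _).trans hK
  have h4 : P.K (m1 - 1) * (1 + (Nat.log 2 d : ℝ)) ^ 2 ≤ X * (7 * √d) := by gcongr
  unfold Cc
  nlinarith

theorem Cc_one (hA : (A : ℝ) ≤ X) (hK : P.K (m1 - 1) ≤ X) : Cc P A m1 1 ≤ 10 ^ 8 * X := by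
  simpa using Cc_le (d := 1) le_rfl hA hK

/-- `c √d η / d ≤ 1 / g`. -/
theorem sqrt_gain {c e : ℝ} (hd : 1 ≤ d) (hg : 1 ≤ g) (he : e ≤ c * √d)
    (h : (c * g) ^ 2 ≤ d) : e / d ≤ 1 / g := by
  have h1 : c * g ≤ √d := Real.le_sqrt_of_sq_le h
  have h2 := Real.mul_self_sqrt (Nat.cast_nonneg (α := ℝ) d)
  have g0 : (0 : ℝ) < g := by exact_mod_cast hg
  rw [div_le_div_iff₀ (by exact_mod_cast hd) g0]
  nlinarith [mul_le_mul_of_nonneg_right he g0.le, mul_le_mul_of_nonneg_right h1 (Real.sqrt_nonneg d)]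

/-- the gain of `G1d_clean` (and of the escape term of `G1t_clean`, `G1w_clean`). -/
theorem gain_far {η : ℕ} (hd : 1 ≤ d) (hg : 1 ≤ g) (hA : (A : ℝ) ≤ X) (hK : P.K (m1 - 1) ≤ X)
    (hη : (η : ℝ) ≤ X) (h : (10 ^ 8 * X ^ 2 * g) ^ 2 ≤ d) : Cc P A m1 d * η / d ≤ 1 / g := by
  have h3 := zero_le_one.trans ((one_le_K P _).trans hK)
  refine sqrt_gain hd hg ?_ h
  exact (mul_le_mul (Cc_le hd hA hK) hη (Nat.cast_nonneg _) (by positivity)).trans_eq (by ring)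

/-- the gain of the escape term of `G1s_clean`. -/
theorem gain_M (hd : 1 ≤ d) (hg : 1 ≤ g) (hA : (A : ℝ) ≤ X) (hK : P.K (m1 - 1) ≤ X)
    (h : (10 ^ 8 * X * g) ^ 2 ≤ d) : Cc P A m1 d / d ≤ 1 / g :=
  sqrt_gain hd hg (Cc_le hd hA hK) h

/-- the gain of `N` windows. -/
theorem gain_N {c : ℝ} {N : ℕ} (hN : 1 ≤ N) (hg : 1 ≤ g) (h : c * g ≤ N) : c / N ≤ 1 / g := by
  rwa [div_le_div_iff₀ (by exact_mod_cast hN) (by exact_mod_cast hg), one_mul]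

/-- the final form: `k` terms of size `1 / g`. -/
theorem Cg_fin {κ c a : ℝ} {g' k : ℕ} (hκ : 1 ≤ κ) (hc : Cg κ ≤ c) (hg : 1 ≤ g) (hg' : 1 ≤ g')
    (ha : a ≤ k * (1 / g)) (h : k * c * g' ≤ g) : Cg κ * a ≤ 1 / g' := by
  have h0 := Cg_nonneg hκ
  refine (mul_le_mul_of_nonneg_left ha h0).trans ((mul_le_mul_of_nonneg_right hc
    (by positivity)).trans ?_)
  rw [← mul_assoc, mul_one_div, div_le_div_iff₀ (by exact_mod_cast hg) (by exact_mod_cast hg')]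
  linarith

end Crest.Agent.N337.G1
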