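import Crest.Agent.N337.G1.Cube

/-!
# Row 337, G1: averages over product sets (leaf G1-Route)

Same proof as `cube`, one coordinate at a time: replace `I a` by `I' a` for `a = 0, 1, 2`; for fixed
other coordinates both averages lie between values of `φ` on the segment, whose oscillation is at
most the sum of the increments along it; the outer average has at least `s ^ 2` terms.  The edges
`(x + v, x + v + e_a)` used have both end points in `Gd`, and `1 ≤ Jn y (y + e_a)`.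
-/

set_option autoImplicit false

namespace Crest.Agent.N337.G1

open Finset Crest.MathPhysics.SpinModel Geo Free

variable {L : ℕ} [NeZero L]

/-- average over the product set `x + ∏ I a`. -/
noncomputable def avP (φ : Tor 3 L → ℝ) (x : Tor 3 L) (I : Fin 3 → Finset ℤ) : ℝ :=
  (∑ v ∈ Fintype.piFinset I, φ (x + tcast L v)) / ∏ a, ((I a).card : ℝ)

theorem tcast_inj {r : ℕ} (h : 2 * r < L) {v v' : Fin 3 → ℤ} (hv : ∀ a, (v a).natAbs ≤ r)
    (hv' : ∀ a, (v' a).natAbs ≤ r) (e : tcast L v = tcast L v') : v = v' := by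
  funext a
  have h1 := hv a
  have h2 := hv' a
  rw [← Cu.val_cast h (t := v a) (Cu.mem_I.2 (by omega)),
    ← Cu.val_cast h (t := v' a) (Cu.mem_I.2 (by omega))]
  exact congrArg ZMod.valMinAbs (congrFun e a)

theorem tdist_tcast (x : Tor 3 L) {r : ℕ} {v : Fin 3 → ℤ} (hv : ∀ a, (v a).natAbs ≤ r) :
    tdist x (x + tcast L v) ≤ r :=
  tdist_le_iff.2 fun a => le_trans (ZMod.natAbs_min_of_le_div_two L _ (v a) (by simp [tcast])
    (ZMod.natAbs_valMinAbs_le _)) (hv a)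

namespace Ro

open Cu

/-- mean over a finite set -/
noncomputable def m (S : Finset ℤ) (f : ℤ → ℝ) : ℝ := (∑ t ∈ S, f t) / S.card

omit [NeZero L] in
theorem avP_eq (φ : Tor 3 L → ℝ) (x : Tor 3 L) (J : Fin 3 → Finset ℤ) :
    avP φ x J = m (J 0) fun a => m (J 1) fun b => m (J 2) fun c => φ (pt x a b c) := by
  simp only [avP, m, ← sum_div, div_div, Fin.prod_univ_three]
  congr 1
  · simp_rw [← sum_product']
    have e : ∀ v : Fin 3 → ℤ, ![v 0, v 1, v 2] = v := fun v => by funext i; fin_cases i <;> rfl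
    refine sum_nbij' (fun v => (v 0, v 1, v 2)) (fun u => ![u.1, u.2.1, u.2.2]) (fun v hv => ?_)
      (fun u hu => ?_) (fun v _ => e v) (fun u _ => rfl) fun v _ => by rw [pt, e]
    · simp only [mem_product]
      exact ⟨Fintype.mem_piFinset.1 hv 0, Fintype.mem_piFinset.1 hv 1, Fintype.mem_piFinset.1 hv 2⟩
    · simp only [mem_product] at hu
      refine Fintype.mem_piFinset.2 fun i => ?_
      fin_cases i
      exacts [hu.1, hu.2.1, hu.2.2]
  · ring

variable {S S' : Finset ℤ} {f f' g : ℤ → ℝ} {R s : ℕ}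

theorem m_le {M : ℝ} (hS : 1 ≤ S.card) (h : ∀ t ∈ S, f t ≤ M) : m S f ≤ M := by
  have := sum_le_card_nsmul _ _ _ h
  rwa [m, div_le_iff₀' (by exact_mod_cast hS), ← nsmul_eq_mul]

theorem le_m {M : ℝ} (hS : 1 ≤ S.card) (h : ∀ t ∈ S, M ≤ f t) : M ≤ m S f := by
  have := card_nsmul_le_sum _ _ _ h
  rwa [m, le_div_iff₀' (by exact_mod_cast hS), ← nsmul_eq_mul]

/-- the segment spanned by a set -/
def H (U : Finset ℤ) (u : ℤ) : Prop := ∃ s ∈ U, ∃ t ∈ U, s ≤ u ∧ u ≤ t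

theorem osc' {U : Finset ℤ} (hU : U ⊆ I R) (hg : ∀ t, 0 ≤ g t)
    (hf : ∀ t, H U t → H U (t + 1) → |f (t + 1) - f t| ≤ g t) {a b : ℤ} (ha : a ∈ U)
    (hb : b ∈ U) : |f a - f b| ≤ ∑ u ∈ I R, g u := by
  wlog h : b ≤ a generalizing a b
  · rw [abs_sub_comm]; exact this hb ha (by omega)
  have := osc (f := fun u => f (max b (min u a))) (fun t _ => hg t) (fun t _ _ => by
    by_cases e : b ≤ t ∧ t + 1 ≤ a
    · rw [show max b (min (t + 1) a) = t + 1 by omega, show max b (min t a) = t by omega]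
      exact hf t ⟨b, hb, a, ha, by omega⟩ ⟨b, hb, a, ha, by omega⟩
    · rw [show max b (min (t + 1) a) = max b (min t a) by omega, sub_self, abs_zero]
      exact hg t) (hU ha) (hU hb)
  rwa [show max b (min a a) = a by omega, show max b (min b a) = b by omega] at this

theorem line (hS : 1 ≤ S.card) (hS' : 1 ≤ S'.card) (hU : S ∪ S' ⊆ I R) (hg : ∀ t, 0 ≤ g t)
    (hf : ∀ t, H (S ∪ S') t → H (S ∪ S') (t + 1) → |f (t + 1) - f t| ≤ g t) :
    |m S f - m S' f| ≤ ∑ u ∈ I R, g u := by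
  rw [abs_sub_le_iff, sub_le_iff_le_add, sub_le_iff_le_add]
  refine ⟨m_le hS fun a ha => ?_, m_le hS' fun a ha => ?_⟩ <;> rw [← sub_le_iff_le_add']
  · refine le_m hS' fun b hb => ?_
    linarith [(abs_le.1 (osc' hU hg hf (mem_union_left _ ha) (mem_union_right _ hb))).2]
  · refine le_m hS fun b hb => ?_
    linarith [(abs_le.1 (osc' hU hg hf (mem_union_right _ ha) (mem_union_left _ hb))).2]

theorem mean (hs : 1 ≤ s) (hS : s ≤ S.card) (hU : S ⊆ I R) (hg : ∀ t, 0 ≤ g t)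
    (hf : ∀ t ∈ S, |f t - f' t| ≤ g t) : |m S f - m S f'| ≤ (∑ u ∈ I R, g u) / s := by
  rw [m, m, ← sub_div, ← sum_sub_distrib, abs_div, Nat.abs_cast]
  exact div_le_div₀ (sum_nonneg fun t _ => hg t) ((abs_sum_le_sum_abs _ _).trans
    ((sum_le_sum hf).trans (sum_le_sum_of_subset_of_nonneg hU fun u _ _ => hg u)))
    (by exact_mod_cast hs) (by exact_mod_cast hS)

theorem three {J J' : Fin 3 → Finset ℤ} (hs : 1 ≤ s) (hU : ∀ a, J a ∪ J' a ⊆ I R)
    (hc : ∀ a, s ≤ (J a).card ∧ s ≤ (J' a).card) {F D : ℤ → ℤ → ℤ → ℝ} (hD : ∀ a b c, 0 ≤ D a b c)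
    (h1 : ∀ b ∈ J' 1, ∀ c ∈ J' 2, ∀ a, H (J 0 ∪ J' 0) a → H (J 0 ∪ J' 0) (a + 1) →
      |F (a + 1) b c - F a b c| ≤ D a b c)
    (h2 : ∀ a ∈ J 0, ∀ c ∈ J' 2, ∀ b, H (J 1 ∪ J' 1) b → H (J 1 ∪ J' 1) (b + 1) →
      |F a (b + 1) c - F a b c| ≤ D a b c)
    (h3 : ∀ a ∈ J 0, ∀ b ∈ J 1, ∀ c, H (J 2 ∪ J' 2) c → H (J 2 ∪ J' 2) (c + 1) →
      |F a b (c + 1) - F a b c| ≤ D a b c) :
    |m (J 0) (fun a => m (J 1) fun b => m (J 2) (F a b)) -
        m (J' 0) (fun a => m (J' 1) fun b => m (J' 2) (F a b))| ≤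
      3 / (s : ℝ) ^ 2 * ∑ a ∈ I R, ∑ b ∈ I R, ∑ c ∈ I R, D a b c := by
  have p : (0 : ℝ) < s := by exact_mod_cast hs
  have u : ∀ a, J a ⊆ I R := fun a => subset_union_left.trans (hU a)
  have u' : ∀ a, J' a ⊆ I R := fun a => subset_union_right.trans (hU a)
  have c : ∀ a, 1 ≤ (J a).card := fun a => hs.trans (hc a).1
  have c' : ∀ a, 1 ≤ (J' a).card := fun a => hs.trans (hc a).2
  have s1 : ∀ a b, 0 ≤ ∑ c ∈ I R, D a b c := fun a b => sum_nonneg fun c _ => hD a b c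
  have e1 := mean (f := fun a => m (J 1) fun b => m (J 2) (F a b))
    (f' := fun a => m (J 1) fun b => m (J' 2) (F a b)) hs (hc 0).1 (u 0)
    (fun a => div_nonneg (sum_nonneg fun b _ => s1 a b) p.le) fun a ha =>
    mean hs (hc 1).1 (u 1) (s1 a) fun b hb => line (c 2) (c' 2) (hU 2) (hD a b) (h3 a ha b hb)
  have e2 := mean (f := fun a => m (J 1) fun b => m (J' 2) (F a b))
    (f' := fun a => m (J' 1) fun b => m (J' 2) (F a b)) hs (hc 0).1 (u 0)
    (fun a => sum_nonneg fun b _ => div_nonneg (s1 a b) p.le) fun a ha =>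
    line (c 1) (c' 1) (hU 1) (fun b => div_nonneg (s1 a b) p.le) fun b hb hb' =>
      mean hs (hc 2).2 (u' 2) (hD a b) fun c hc => h2 a ha c hc b hb hb'
  have e3 := line (f := fun a => m (J' 1) fun b => m (J' 2) (F a b)) (c 0) (c' 0) (hU 0)
    (fun a => div_nonneg (sum_nonneg fun b _ => div_nonneg (s1 a b) p.le) p.le) fun a ha ha' =>
    mean hs (hc 1).2 (u' 1) (fun b => div_nonneg (s1 a b) p.le) fun b hb =>
      mean hs (hc 2).2 (u' 2) (hD a b) fun c hc => h1 b hb c hc a ha ha'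
  simp only [← sum_div] at e1 e2 e3
  refine (abs_sub_le _ _ _).trans ((add_le_add ((abs_sub_le _ _ _).trans (add_le_add e1 e2))
    e3).trans (le_of_eq ?_))
  field_simp
  ring

theorem m_shift (d : ℤ) (r : ℕ) (f : ℤ → ℝ) :
    m (Icc (d - r) (d + r)) f = Cu.m r fun t => f (d + t) := by
  rw [sub_eq_add_neg, ← map_add_left_Icc, m, sum_map, card_map, Cu.m, ← I, card_I]
  push_cast
  rfl

end Ro

/-- a ball is a product set seen from any base point. -/
theorem av_eq_avP (φ : Tor 3 L → ℝ) (x z : Tor 3 L) {r : ℕ} (h : 2 * r < L) :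
    av φ z r = avP φ x fun a => Icc ((z a - x a).valMinAbs - r) ((z a - x a).valMinAbs + r) := by
  rw [Cu.av_eq φ z h, Ro.avP_eq]
  simp only [Ro.m_shift]
  congr 1 with a
  congr 1 with b
  congr 1 with c
  congr 1
  funext i
  fin_cases i <;> simp [Cu.pt, tcast, ← add_assoc]

theorem cubeP (φ : Tor 3 L → ℝ) (x : Tor 3 L) {I I' : Fin 3 → Finset ℤ} {r s : ℕ}
    (hr : 2 * r < L) (hs : 1 ≤ s) (hI : ∀ a, ∀ t ∈ I a ∪ I' a, t.natAbs ≤ r)
    (hc : ∀ a, s ≤ (I a).card ∧ s ≤ (I' a).card) (Gd : Finset (Tor 3 L))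
    (hG : ∀ (a : Fin 3) (v : Fin 3 → ℤ), (∀ a', a' ≠ a → v a' ∈ I a' ∪ I' a') →
      (∃ s ∈ I a ∪ I' a, ∃ t ∈ I a ∪ I' a, s ≤ v a ∧ v a ≤ t) → x + tcast L v ∈ Gd) :
    |avP φ x I - avP φ x I'| ≤
      3 / (s : ℝ) ^ 2 * ∑ y ∈ Gd, ∑ y' ∈ Gd, Jn L y y' * |φ y - φ y'| := by
  have nn : ∀ y y', 0 ≤ Jn L y y' * |φ y - φ y'| := fun y y' =>
    mul_nonneg (Cu.Jn_nonneg y y') (abs_nonneg _)
  set D : Tor 3 L → ℝ := fun y => if y ∈ Gd then ∑ y' ∈ Gd, Jn L y y' * |φ y - φ y'| else 0 with hD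
  have key : ∀ (y y' : Tor 3 L) (u : Fin 3 → ℤ), ∑ a, |u a| = 1 → y' = y + tcast L u → y ∈ Gd →
      y' ∈ Gd → |φ y' - φ y| ≤ D y := fun y y' u hu e hy hy' => by
    refine le_trans ?_ ((single_le_sum (fun y' _ => nn y y') hy').trans_eq (if_pos hy).symm)
    rw [abs_sub_comm]
    exact le_mul_of_one_le_left (abs_nonneg _) (e ▸ Cu.one_le_J y hu)
  have g0 : ∀ a b c, b ∈ I 1 ∪ I' 1 → c ∈ I 2 ∪ I' 2 → Ro.H (I 0 ∪ I' 0) a → Cu.pt x a b c ∈ Gd :=
    fun a b c hb hc h => hG 0 ![a, b, c]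
      (fun i hi => by fin_cases i; exacts [(hi rfl).elim, hb, hc]) h
  have g1 : ∀ a b c, a ∈ I 0 ∪ I' 0 → c ∈ I 2 ∪ I' 2 → Ro.H (I 1 ∪ I' 1) b → Cu.pt x a b c ∈ Gd :=
    fun a b c ha hc h => hG 1 ![a, b, c]
      (fun i hi => by fin_cases i; exacts [ha, (hi rfl).elim, hc]) h
  have g2 : ∀ a b c, a ∈ I 0 ∪ I' 0 → b ∈ I 1 ∪ I' 1 → Ro.H (I 2 ∪ I' 2) c → Cu.pt x a b c ∈ Gd :=
    fun a b c ha hb h => hG 2 ![a, b, c]
      (fun i hi => by fin_cases i; exacts [ha, hb, (hi rfl).elim]) h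
  rw [Ro.avP_eq, Ro.avP_eq]
  refine (Ro.three (R := r) (D := fun a b c => D (Cu.pt x a b c)) hs
    (fun a t ht => Cu.mem_I.2 (by have := hI a t ht; omega)) hc (fun a b c => ?_)
    (fun b hb c hc a h h' => ?_) (fun a ha c hc b h h' => ?_) fun a ha b hb c h h' => ?_).trans
    (mul_le_mul_of_nonneg_left ?_ (by positivity))
  · simp only [hD]
    split_ifs
    exacts [sum_nonneg fun y _ => nn _ y, le_rfl]
  · refine key _ _ ![1, 0, 0] (by simp [Fin.sum_univ_three]) ?_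
      (g0 _ _ _ (mem_union_right _ hb) (mem_union_right _ hc) h)
      (g0 _ _ _ (mem_union_right _ hb) (mem_union_right _ hc) h')
    funext i; fin_cases i <;> simp [Cu.pt, tcast, add_assoc]
  · refine key _ _ ![0, 1, 0] (by simp [Fin.sum_univ_three]) ?_
      (g1 _ _ _ (mem_union_left _ ha) (mem_union_right _ hc) h)
      (g1 _ _ _ (mem_union_left _ ha) (mem_union_right _ hc) h')
    funext i; fin_cases i <;> simp [Cu.pt, tcast, add_assoc]
  · refine key _ _ ![0, 0, 1] (by simp [Fin.sum_univ_three]) ?_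
      (g2 _ _ _ (mem_union_left _ ha) (mem_union_left _ hb) h)
      (g2 _ _ _ (mem_union_left _ ha) (mem_union_left _ hb) h')
    funext i; fin_cases i <;> simp [Cu.pt, tcast, add_assoc]
  · rw [← Cu.sum_bl D x hr, hD, sum_ite_mem]
    exact sum_le_sum_of_subset_of_nonneg inter_subset_right fun y _ _ =>
      sum_nonneg fun y' _ => nn y y'

end Crest.Agent.N337.G1
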