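import Crest.Agent.N337.G1.Cross
import Crest.Agent.N337.G1.Route

/-!
# Row 337, G1 (helper9): free rays

If at most five points of `U0` lie within `A` of `z ∉ U0`, one of the six axis rays from `z` misses
`U0`, and some point of the ray is farther than `ρ` from `U0`.
-/

set_option autoImplicit false

namespace Crest.Agent.N337.G1

open Finset Crest.MathPhysics.SpinModel Geo Free

variable {L : ℕ} [NeZero L]

/-- the axis direction `± e_a`. -/
def dir (a : Fin 3 × Bool) : Fin 3 → ℤ := Pi.single a.1 (if a.2 then 1 else -1)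

theorem dir_sum (a : Fin 3 × Bool) : ∑ b, |dir a b| = 1 := by
  obtain ⟨a, s⟩ := a
  fin_cases a <;> cases s <;> simp [dir, Fin.sum_univ_three]

theorem dir_abs (a : Fin 3 × Bool) (i : ℕ) (b : Fin 3) : (((i : ℤ) • dir a) b).natAbs ≤ i := by
  obtain ⟨a, s⟩ := a
  by_cases h : b = a
  · subst h; cases s <;> simp [dir]
  · simp [dir, h]

theorem dir_inj {a a' : Fin 3 × Bool} {i i' : ℕ} (hi : 1 ≤ i) (hi' : 1 ≤ i')
    (h : (i : ℤ) • dir a = (i' : ℤ) • dir a') : a = a' := by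
  obtain ⟨a, s⟩ := a
  obtain ⟨a', s'⟩ := a'
  have h1 := congrFun h a
  by_cases e : a = a'
  · subst e
    cases s <;> cases s' <;> simp [dir] at h1 ⊢ <;> omega
  · cases s <;> simp [dir, e] at h1 <;> omega

theorem tdist_dir (z : Tor 3 L) (a : Fin 3 × Bool) {i r : ℕ} (hi : i ≤ r) (h : 2 * r < L) :
    tdist z (z + tcast L ((i : ℤ) • dir a)) = i := by
  refine le_antisymm (tdist_tcast z (dir_abs a i)) ?_
  refine le_trans (le_of_eq ?_) (le_sup (f := fun b : Fin 3 =>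
    (((z + tcast L ((i : ℤ) • dir a)) b - z b).valMinAbs).natAbs) (mem_univ a.1))
  have := dir_abs a i a.1
  simp only [Pi.add_apply, add_sub_cancel_left, tcast]
  rw [Cu.val_cast h (Cu.mem_I.2 (by omega))]
  obtain ⟨a, s⟩ := a
  cases s <;> simp [dir]

/-- a free ray with a far end point. -/
theorem ray {U0 : Finset (Tor 3 L)} {z : Tor 3 L} {A ρ : ℕ} (hz : z ∉ U0)
    (h5 : (U0 ∩ bl z A).card ≤ 5) (hA : 11 * ρ + 6 ≤ A) (hL : 2 * A < L) :
    ∃ (e : ℕ → Tor 3 L) (t : ℕ), t ≤ A ∧ e 0 = z ∧ (∀ i ≤ A, e i ∉ U0 ∧ tdist z (e i) = i) ∧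
      (∀ i, 1 ≤ Jn L (e i) (e (i + 1))) ∧ ∀ v ∈ U0, ρ < tdist v (e t) := by
  classical
  have z0 : ∀ a, z + tcast L (((0 : ℕ) : ℤ) • dir a) = z := fun a => by
    funext b; simp [tcast]
  obtain ⟨a, ha⟩ : ∃ a : Fin 3 × Bool, ∀ i ≤ A, z + tcast L ((i : ℤ) • dir a) ∉ U0 := by
    by_contra! hc
    choose i hi hU using hc
    have i1 : ∀ a, 1 ≤ i a := fun a => Nat.pos_of_ne_zero fun e => hz (by
      have := hU a; rwa [e, z0] at this)
    have := card_le_card_of_injOn (s := (univ : Finset (Fin 3 × Bool))) (t := U0 ∩ bl z A)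
      (fun a => z + tcast L ((i a : ℤ) • dir a))
      (fun a _ => mem_coe.2 (mem_inter.2 ⟨hU a, mem_bl.2 ((tdist_dir z a (hi a) hL).trans_le (hi a))⟩))
      fun a _ a' _ e => dir_inj (i1 a) (i1 a') (tcast_inj hL (fun b => (dir_abs _ _ b).trans (hi a))
        (fun b => (dir_abs _ _ b).trans (hi a')) (add_left_cancel e))
    simp at this
    omega
  set e : ℕ → Tor 3 L := fun i => z + tcast L ((i : ℤ) • dir a) with he
  have hd : ∀ i ≤ A, tdist z (e i) = i := fun i hi => tdist_dir z a hi hL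
  obtain ⟨ι, hι, hf⟩ : ∃ ι ≤ 5, ∀ v ∈ U0 ∩ bl z A, ρ < tdist v (e (ι * (2 * ρ + 1))) := by
    by_contra! hc
    refine Cr.pig (M := 2 * ρ + 1) h5 (fun v t => t ≤ A ∧ tdist v (e t) ≤ ρ) (fun ι hι => ?_) ?_
    · obtain ⟨v, hv, h⟩ := hc ι hι
      exact ⟨v, hv, (Nat.mul_le_mul_right _ hι).trans (by omega), h⟩
    · rintro v t t' ⟨a1, a2⟩ ⟨b1, b2⟩
      have := tdist_triangle z (e t) (e t')
      have := tdist_triangle (e t) v (e t')
      rw [tdist_comm] at a2
      have := hd t a1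
      have := hd t' b1
      omega
  have ht := Nat.mul_le_mul_right (2 * ρ + 1) hι
  refine ⟨e, ι * (2 * ρ + 1), by omega, z0 a, fun i hi => ⟨ha i hi, hd i hi⟩, fun i => ?_,
    fun v hv => ?_⟩
  · have : e (i + 1) = e i + tcast L (dir a) := by
      funext b; simp [he, tcast, add_mul, add_assoc]
    rw [this]
    exact Cu.one_le_J _ (dir_sum a)
  · by_contra! hc
    have := hf v (mem_inter.2 ⟨hv, mem_bl.2 ?_⟩)
    · omega
    have := tdist_triangle z (e (ι * (2 * ρ + 1))) v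
    rw [tdist_comm] at hc
    have := hd (ι * (2 * ρ + 1)) (by omega)
    omega

end Crest.Agent.N337.G1
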