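import Crest.Agent.N337.G1.Ray

/-!
# Row 337, G1 (helper9): walls, top averages, steps along a tube, energy of rays
-/

set_option autoImplicit false

namespace Crest.Agent.N337.G1

open Finset Crest.MathPhysics.SpinModel Geo Free

variable {L : ℕ} [NeZero L]

theorem En_nonneg (V : Finset (Tor 3 L)) {w : Tor 3 L → ℝ} (hw : ∀ y, 1 ≤ w y) (φ : Tor 3 L → ℝ) :
    0 ≤ En (Jn L) V w φ := sum_nonneg fun x _ => sum_nonneg fun y _ => by
  split_ifs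
  exacts [div_nonneg (mul_nonneg (Cu.Jn_nonneg x y) (sq_nonneg _))
    (zero_le_one.trans ((hw x).trans (le_max_left _ _))), le_rfl]

theorem En_min (V : Finset (Tor 3 L)) {w : Tor 3 L → ℝ} (hw : ∀ y, 1 ≤ w y) (φ : Tor 3 L → ℝ)
    (t : ℝ) : En (Jn L) V w (fun y => min (φ y) t) ≤ En (Jn L) V w φ := by
  refine sum_le_sum fun x _ => sum_le_sum fun y _ => ?_
  split_ifs
  · refine div_le_div_of_nonneg_right (mul_le_mul_of_nonneg_left (sq_le_sq.2 ?_)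
      (Cu.Jn_nonneg x y)) (zero_le_one.trans ((hw x).trans (le_max_left _ _)))
    simpa using abs_min_sub_min_le_max (φ x) t (φ y) t
  · exact le_rfl

/-- a residual set is a set of huge weight. -/
theorem wall (V : Finset (Tor 3 L)) {w : Tor 3 L → ℝ} (hw : ∀ y, 1 ≤ w y) (φ : Tor 3 L → ℝ)
    {ε : ℝ} (hε : 0 < ε) : ∃ w' : Tor 3 L → ℝ, (∀ y, 1 ≤ w' y) ∧ (∀ y ∉ V, w' y = w y) ∧
      En (Jn L) ∅ w' φ ≤ En (Jn L) V w φ + ε := by
  obtain ⟨S, hS⟩ : ∃ S, S = ∑ x, ∑ y, Jn L x y * (φ x - φ y) ^ 2 := ⟨_, rfl⟩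
  have nn : ∀ x y, 0 ≤ Jn L x y * (φ x - φ y) ^ 2 := fun x y =>
    mul_nonneg (Cu.Jn_nonneg x y) (sq_nonneg _)
  have S0 : 0 ≤ S := hS ▸ sum_nonneg fun x _ => sum_nonneg fun y _ => nn x y
  have M1 : 1 ≤ 1 + S / ε := le_add_of_nonneg_right (by positivity)
  have hM : S / (1 + S / ε) ≤ ε := by
    rw [div_le_iff₀ (by positivity), mul_add, mul_div_cancel₀ _ hε.ne']; linarith
  generalize 1 + S / ε = M at M1 hM
  refine ⟨fun y => if y ∈ V then M else w y, fun y => by dsimp only; split_ifs; exacts [M1, hw y],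
    fun y hy => if_neg hy, le_trans ?_ (add_le_add_right hM _)⟩
  simp only [En, hS, sum_div, ← sum_add_distrib]
  refine sum_le_sum fun x _ => sum_le_sum fun y _ => ?_
  have := div_nonneg (nn x y) (zero_le_one.trans M1)
  by_cases h : x ∉ V ∧ y ∉ V
  · simpa [h.1, h.2] using this
  · rw [if_neg h, zero_add, if_pos (by simp)]
    refine div_le_div_of_nonneg_left (nn x y) (by linarith) ?_
    rcases not_and_or.1 h with h | h <;> simp [not_not.1 h]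

open Classical in
theorem av_le {Good : Finset (Tor 3 L)} {φ ψ : Tor 3 L → ℝ} {lam : ℝ} (hl : 0 ≤ lam)
    (h1 : ∀ y, φ y ≤ lam) (h2 : ∀ y ∈ Good, φ y ≤ ψ y) {z : Tor 3 L} {r : ℕ}
    (h : (2 * ((bl z r).filter fun y => y ∉ Good ∨ ψ y ≠ 0).card : ℝ) ≤ (2 * (r : ℝ) + 1) ^ 3) :
    av φ z r ≤ lam / 2 := by
  have h3 : ∑ y ∈ bl z r, φ y ≤ ((bl z r).filter fun y => y ∉ Good ∨ ψ y ≠ 0).card * lam := by
    rw [← nsmul_eq_mul, ← sum_const, sum_filter]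
    refine sum_le_sum fun y _ => ?_
    split_ifs with h
    · exact h1 y
    · push Not at h
      exact (h2 y h.1).trans h.2.le
  rw [av, div_le_iff₀ (by positivity)]
  nlinarith

/-- one step along a tube. -/
theorem tstep {w : Tor 3 L → ℝ} (hw : ∀ y, 1 ≤ w y) (φ : Tor 3 L → ℝ) {c z z' : Tor 3 L}
    {r s s' : ℕ} (hL : 2 * r < L) (h : tdist c z + s ≤ r) (h' : tdist c z' + s' ≤ r)
    (k : r ≤ 32 * s) (k' : r ≤ 32 * s') {W : ℝ} (hW : ∀ y ∈ bl c r, w y ≤ W) :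
    |av φ z s - av φ z' s'| ≤ 11000 * √(W / (2 * (r : ℝ) + 1)) * √(En (Jn L) ∅ w φ) := by
  have W1 : 1 ≤ W := (hw c).trans (hW c (mem_bl.2 (by simp [tdist_self])))
  have E0 := En_nonneg ∅ hw φ
  have b : ∀ {z : Tor 3 L} {s : ℕ}, tdist c z + s ≤ r → ∀ a, ∀ t ∈ Icc ((z a - c a).valMinAbs - s)
      ((z a - c a).valMinAbs + s), t.natAbs ≤ r := fun {z s} h a t ht => by
    have := tdist_le_iff.1 (le_refl (tdist c z)) a
    rw [mem_Icc] at ht
    omega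
  have b2 := fun a t (ht : t ∈ _ ∪ _) => (mem_union.1 ht).elim (b h a t) (b h' a t)
  rw [av_eq_avP φ c z (by omega), av_eq_avP φ c z' (by omega)]
  refine (cubeP φ c (s := 2 * min s s' + 1) hL (by omega) b2 (fun a => ?_) (bl c r)
    fun a v h1 ⟨t, ht, t', ht', h2⟩ => mem_bl.2 (tdist_tcast c fun a' => ?_)).trans ?_
  · simp only [Int.card_Icc]; omega
  · by_cases e : a' = a
    · subst e
      have := b2 _ _ ht
      have := b2 _ _ ht'
      omega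
    · exact b2 _ _ (h1 a' e)
  have h2 := Cu.scale (A := {c}) (φ := φ) hw (r := r) (N := 1) (V := W * (2 * (r : ℝ) + 1) ^ 3)
    (fun p => by exact_mod_cast (card_filter_le _ _).trans (card_singleton c).le) fun y hy => by
      rw [mem_singleton.1 hy]
      refine (sum_le_card_nsmul _ _ _ hW).trans ?_
      rw [card_bl_eq c hL, nsmul_eq_mul]; push_cast; linarith
  rw [sum_singleton, card_singleton] at h2
  have r1 : 2 * (r : ℝ) + 1 ≤ 32 * ((2 * min s s' + 1 : ℕ) : ℝ) := by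
    exact_mod_cast (by omega : 2 * r + 1 ≤ 32 * (2 * min s s' + 1))
  have r0 : (0 : ℝ) < 2 * r + 1 := by positivity
  generalize 2 * (r : ℝ) + 1 = ρ at h2 r1 r0 ⊢
  generalize ((2 * min s s' + 1 : ℕ) : ℝ) = σ at r1 ⊢
  have s0 : 0 < σ := by linarith
  refine abs_le_of_sq_le_sq' ?_ (by positivity) |>.2
  rw [mul_pow, mul_pow, mul_pow, Real.sq_sqrt E0, Real.sq_sqrt (by positivity)]
  refine (mul_le_mul_of_nonneg_left h2 (sq_nonneg _)).trans ?_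
  have r4 : ρ ^ 4 ≤ (32 * σ) ^ 4 := by gcongr
  have : (3 / σ ^ 2) ^ 2 * (12 * ρ ^ 3) ≤ 11000 ^ 2 / ρ := by
    rw [div_pow, div_mul_eq_mul_div, div_le_div_iff₀ (by positivity) r0]
    nlinarith [pow_pos s0 4]
  calc _ = (3 / σ ^ 2) ^ 2 * (12 * ρ ^ 3) * (W * En (Jn L) ∅ w φ) := by push_cast; ring
    _ ≤ 11000 ^ 2 / ρ * (W * En (Jn L) ∅ w φ) := by gcongr
    _ = _ := by ring

omit [NeZero L] in
theorem fin_alg {n N lam a b W E : ℝ} (hn : 0 ≤ n) (hN : n ≤ N) (hl : 0 ≤ lam) (hW : 0 ≤ W)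
    (hE : 0 ≤ E) (h : n * (lam / 2) ≤ a * √(W * n * E) + n * (b * √E)) :
    lam ^ 2 * n ≤ 8 * (a ^ 2 * W + N * b ^ 2) * E := by
  rcases hn.eq_or_lt with rfl | n0
  · rw [mul_zero]; positivity
  have h1 := pow_le_pow_left₀ (by positivity) h 2
  have h2 : (a * √(W * n * E)) ^ 2 = n * (a ^ 2 * W * E) := by
    rw [mul_pow, Real.sq_sqrt (by positivity)]; ring
  have h3 : (n * (b * √E)) ^ 2 ≤ n * (N * b ^ 2 * E) := by
    rw [mul_pow, mul_pow, Real.sq_sqrt hE, sq, mul_assoc, mul_assoc N]; gcongr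
  refine le_of_mul_le_mul_left ?_ n0
  nlinarith [sq_nonneg (a * √(W * n * E) - n * (b * √E))]

/-- energy of disjoint rays. -/
theorem rays {U0 S : Finset (Tor 3 L)} (ψ : Tor 3 L → ℝ) {A : ℕ} (e : Tor 3 L → ℕ → Tor 3 L)
    (t : Tor 3 L → ℕ) (ht : ∀ z ∈ S, t z ≤ A) (hU : ∀ z ∈ S, ∀ i ≤ A, e z i ∉ U0)
    (hJ : ∀ z ∈ S, ∀ i, 1 ≤ Jn L (e z i) (e z (i + 1)))
    (inj : ∀ z ∈ S, ∀ z' ∈ S, ∀ i ≤ A, ∀ i' ≤ A, e z i = e z' i' → z = z' ∧ i = i') :
    ∑ z ∈ S, (ψ (e z 0) - ψ (e z (t z))) ^ 2 ≤ A * En (Jn L) U0 1 ψ := by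
  have h1 : ∀ z ∈ S, (ψ (e z 0) - ψ (e z (t z))) ^ 2 ≤
      A * ∑ i ∈ range A, (ψ (e z i) - ψ (e z (i + 1))) ^ 2 := fun z hz => by
    rw [← sum_range_sub' fun i => ψ (e z i)]
    refine sq_sum_le_card_mul_sum_sq.trans (mul_le_mul ?_ (sum_le_sum_of_subset_of_nonneg
      (range_mono (ht z hz)) fun _ _ _ => sq_nonneg _) (sum_nonneg fun _ _ => sq_nonneg _)
      (Nat.cast_nonneg _))
    rw [card_range]; exact_mod_cast ht z hz
  refine (sum_le_sum h1).trans ?_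
  rw [← mul_sum, ← sum_product']
  refine mul_le_mul_of_nonneg_left ?_ (Nat.cast_nonneg _)
  have nn : ∀ x y, 0 ≤ if x ∉ U0 ∧ y ∉ U0 then Jn L x y * (ψ x - ψ y) ^ 2 /
      max ((1 : Tor 3 L → ℝ) x) ((1 : Tor 3 L → ℝ) y) else 0 := fun x y => by
    split_ifs
    exacts [div_nonneg (mul_nonneg (Cu.Jn_nonneg x y) (sq_nonneg _)) (by simp), le_rfl]
  refine le_trans (sum_le_sum fun u hu => ?_) ((sum_image (s := S ×ˢ range A)
    (g := fun u => e u.1 u.2) (f := fun x => ∑ y, if x ∉ U0 ∧ y ∉ U0 then Jn L x y *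
      (ψ x - ψ y) ^ 2 / max ((1 : Tor 3 L → ℝ) x) ((1 : Tor 3 L → ℝ) y) else 0)
    fun u hu u' hu' h => ?_).ge.trans (sum_le_univ_sum_of_nonneg fun x => sum_nonneg fun y _ => nn x y))
  · obtain ⟨u1, u2⟩ := mem_product.1 hu
    rw [mem_range] at u2
    refine le_trans ?_ (single_le_sum (fun y _ => nn _ y) (mem_univ (e u.1 (u.2 + 1))))
    rw [if_pos ⟨hU _ u1 _ u2.le, hU _ u1 _ u2⟩]
    simpa using le_mul_of_one_le_left (sq_nonneg _) (hJ _ u1 _)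
  · obtain ⟨u1, u2⟩ := mem_product.1 (mem_coe.1 hu)
    obtain ⟨u3, u4⟩ := mem_product.1 (mem_coe.1 hu')
    have := inj _ u1 _ u3 _ (mem_range.1 u2).le _ (mem_range.1 u4).le h
    exact Prod.ext this.1 this.2

end Crest.Agent.N337.G1
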